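import Vale.Agent.P073Y.Gc.Core

/-!
# The modified map and the batches with free lattice cubes: statements
-/

open Set Metric Topology Filter MeasureTheory
open scoped NNReal ENNReal

namespace P073.P2

open P073.Top P073.Zn P073.Gc
open An (M3)
open Vale.Agent.P073.HB (WeakDeriv)

/-- `f₁` differs from `f` only near the image of `X`, and by at most `d` -/
def Mdf (Ω X : Set E3) (f f₁ : E3 → E3) (d : ℝ) : Prop :=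
  ∀ x ∈ Ω, f₁ x = f x ∨ ((∃ u ∈ X, dist (f x) (f u) ≤ d) ∧ dist (f₁ x) (f x) ≤ d)

/-- the closed cube of the lattice of step `ρ` through `w` -/
def rcube (ρ : ℝ) (w : E3) (z : Fin 3 → ℤ) : Set E3 := (fun u => ρ⁻¹ • (u - w)) ⁻¹' ucube z

/-- the union of the open cubes with indices in `𝓣` -/
def ocubes (ρ : ℝ) (w : E3) (𝓣 : Set (Fin 3 → ℤ)) : Set E3 := ⋃ z ∈ 𝓣, interior (rcube ρ w z)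

/-- the modified map `f₁`: it is close to affine maps on the cores, and it does not increase
lengths much off the open cubes with indices in `𝓣` -/
structure Pre (p : ℝ) (C : ℝ≥0) (Ω Λ K V : Set E3) (f : E3 → E3) (F : E3 → M3) (b τ ρ s d : ℝ)
    (w : E3) (P₁ P₂ : Finset E3) (A : E3 → M3) (𝓣 : Set (Fin 3 → ℤ)) (f₁ f₁' : E3 → E3) :
    Prop where
  hom : HomeoOn f₁ f₁' Ω Λ
  lip : ∃ L : ℝ≥0, ∀ x ∈ Ω, ∀ y ∈ Ω, edist (f₁ x) (f₁ y) ≤ L * edist (f x) (f y)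
  mdf : Mdf Ω K f f₁ d
  fin : 𝓣.Finite
  sub : ∀ z ∈ 𝓣, rcube ρ w z ⊆ V
  len : ∀ x y, segment ℝ x y ⊆ Ω \ ocubes ρ w 𝓣 → segVar f₁ x y ≤ C * segVar f x y
  null : volume (f₁ '' (Ω ∩ plns w ρ)) = 0
  sol : Sol p f₁ F K V b τ ρ s w P₁ P₂ A
  var : ∀ q ∈ P₁, ∀ x y ζ, x ≠ y → segment ℝ x y = (fun u => ρ⁻¹ • (u - w)) ⁻¹' kcell ζ →
    segment ℝ x y ⊆ closedBall q (2 * s) →
    eVariationOn (fun t : ℝ => f₁ (AffineMap.lineMap x y t) - AffineMap.lineMap (f₁ x) (f₁ y) t)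
      (Icc 0 1) ≤ ENNReal.ofReal (τ * ρ)

/-- existence of the modified map for most shifts -/
def PRE (p : ℝ) : Prop := ∃ C : ℝ≥0, 1 ≤ C ∧
  ∀ {Ω Λ K V : Set E3} {f f' : E3 → E3} {F : E3 → M3} {b : ℝ},
  IsOpen Ω → IsOpen Λ → IsConnected Ω → Bornology.IsBounded Ω → Bornology.IsBounded Λ →
  HomeoOn f f' Ω Λ → Measurable F →
  LocallyIntegrableOn F Ω volume → WeakDeriv volume Ω f F → ∫⁻ x in V, ‖F x‖ₑ ^ p < ⊤ →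
  IsCompact K → IsOpen V → K ⊆ V → V ⊆ Ω → volume V < ⊤ → 1 ≤ b → (∀ x ∈ K, Bil b (F x)) →
  ContinuousOn F K → (∀ t, 0 < t → ∃ r, 0 < r ∧ ∀ x ∈ K, MaxLe F (F x) x r t) →
  ∀ (N τ d : ℝ) (δ : ℝ≥0∞), 1 ≤ N → 0 < τ → 0 < d → 0 < δ → ∃ k₁ : ℕ, ∀ k, k₁ ≤ k →
  ∃ Φ : E3 → ℝ≥0∞, Mean 1 Φ δ ∧ ∀ w, Φ w < ⊤ →
    ∃ (P₁ P₂ : Finset E3) (A : E3 → M3) (𝓣 : Set (Fin 3 → ℤ)) (f₁ f₁' : E3 → E3),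
      Pre p C Ω Λ K V f F b τ (2⁻¹ ^ k) (N * 2⁻¹ ^ k) d w P₁ P₂ A 𝓣 f₁ f₁' ∧
      ENNReal.ofReal ((N * 2⁻¹ ^ k) ^ 3) * P₂.card ≤ Φ w

/-- the two batches for a modified map `f₁`, with weight zero inside the region `Tz` off the
planes `Pl`; only the threshold `c₁` depends on `f₁`, `P`, `Tz`, `Pl` -/
def BATCH2 (p : ℝ) : Prop := ∃ (c₀ : ℝ) (Cz : ℝ → ℝ≥0) (CM : ℝ → ℝ≥0 → ℝ≥0) (Cu : ℝ≥0 → ℝ≥0)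
  (Ct : ℝ≥0 → ℝ → ℕ → ℝ → ℝ≥0 → ℝ≥0) (κ : ℝ → ℝ → ℝ), 1 ≤ c₀ ∧
  (∀ b θ, 1 ≤ b → 0 < θ → 0 < κ b θ) ∧
  ∀ {Ω Λ Ω₀ : Set E3} {f f' : E3 → E3} {ε : ℝ} {J : Type} [Fintype J] (Y : J → TyZ Ω f),
  IsOpen Ω → IsOpen Λ → Bornology.IsBounded Λ → HomeoOn f f' Ω Λ → 0 < ε →
  IsCompact Ω₀ → Ω₀ ⊆ Ω → (∀ j, (Y j).K ⊆ Ω₀) →
  (∀ j j', j ≠ j' → Disjoint (Y j).G (Y j').G) →
  ∃ (l : J → ℝ) (v : J → E3) (T : J → (E3 ≃ᴬ[ℝ] E3)) (B : J → Set (Fin 3 → ℤ)) (s₁ s₀ : ℝ),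
    0 < s₁ ∧ 0 < s₀ ∧
    (∀ j, 0 < l j ∧ (∀ y, T j y = (l j)⁻¹ • (Y j).Bm y - v j) ∧
      (Y j).N * volume {x ∈ (Y j).K | T j (f x) ∈ strips (Y j).N} ≤ 10 * volume (Y j).K) ∧
  ∀ (s b θ e : ℝ), 0 < s → s ≤ s₀ → 1 ≤ b → 0 < θ → θ ≤ 1 → 0 < e →
  ∃ (o : E3 → ℝ) (O : ℕ → Set E3) (σ₀ : ℕ → ℝ), Gauge o Ω ∧
    (∀ n, IsOpen (O n) ∧ O n ⊆ Ω ∧ 0 < σ₀ n) ∧ LFIn O Ω ∧
    (∀ n n', n + 2 ≤ n' → Disjoint (O n) (O n')) ∧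
  ∀ (f₁ f₁' : E3 → E3) (P Tz Pl : Set E3), HomeoOn f₁ f₁' Ω Λ →
    Mdf Ω (Ω₀ \ ⋃ j, (Y j).G) f f₁ s₀ → Cores Ω₀ f₁ (⋃ j, (Y j).G) P s b (κ b θ) →
    Tz ⊆ Ω₀ \ ⋃ j, (Y j).G → IsCompact Pl → Pl ⊆ Tz → frontier Tz ⊆ Pl →
    volume (f₁ '' Pl) = 0 → ∃ c₁ : ℝ, 0 < c₁ ∧
  ∀ (S : Src Ω) (g : ConHomeo Ω Λ) (M₀ : ℝ≥0) (w₀ : E3) (σ : ℕ → ℝ) (ρ : ℝ)
    (w : S.Q.ι → ℝ≥0∞) (Nr : J → Set S.Q.ι) (ν : J → (E3 ≃ᴬ[ℝ] E3)) (n : ∀ j, Nrm S (ν j))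
    (η : ℝ≥0∞) (𝓢 : J → Set S.Q.ι) (ψ : J → S.Q.ι → (E2 →ᵃ[ℝ] E3)) (a : J → S.Q.ι → ℝ)
    {ι : Type} [Fintype ι] (m : J → ι → S.Q.ι → ℝ≥0∞), 0 < η →
    (∀ c, ∀ x ∈ S.Q.cell c, ∀ y ∈ S.Q.cell c, dist (g.toFun x) (f₁ y) ≤ min (o y) c₁ ∨
      ((S.Q.cell c ∩ cubes P (3 * s / 4)).Nonempty ∧ dist (g.toFun x) (f₁ y) ≤ κ b θ * s)) →
    (∀ j, Cond (ν j) (Y j).L ∧ (∀ c ∈ Nr j, S.Q.cell c ⊆ thickening s₁ (Y j).K) ∧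
      ∀ φ ∈ 𝓢 j, Marked (n j).src (T j ∘ g.toFun ∘ (ν j).symm) (Y j).θ φ (ψ j φ) (a j φ)) →
    (∀ φ, S.Q.dim φ = 2 → (∀ j, φ ∉ Nr j) → S.M φ = M₀ ∧ w φ ≠ ⊤) →
    (∀ k, σ k ≤ min (σ₀ k) c₁ ∧
      Cand S w₀ (σ k) (O k \ ((⋃ j, thickening s₁ (Y j).K) ∪ cubes P (3 * s / 4) ∪ Tz)) w) →
    ρ ≤ κ b θ * s → (∀ q ∈ P, Cand S w₀ ρ (closedBall q (3 * s / 2) \ deepc P s θ) w) →
    (∀ φ, S.Q.dim φ = 2 → S.Q.cell φ ⊆ Tz \ Pl → w φ = 0) →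
  ∃ (h : ConHomeo Ω Λ) (I : Type) (x : I → E3) (r : I → ℝ),
    (∀ u ∈ Ω, dist (h.toFun u) (f₁ u) ≤ ε) ∧ EqOn h.toFun g.toFun (deepc P s θ) ∧ Free S x r ∧
    (∀ k, Disjoint (closedBall (x k) (r k)) ((⋃ j, thickening s₁ (Y j).K) ∪ deepc P s θ) ∧
      (∀ u ∈ closedBall (x k) (r k), ∀ u' ∈ closedBall (x k) (r k), dist (f₁ u) (f₁ u') ≤ ε) ∧
      (Disjoint (closedBall (x k) (r k)) Tz ∨ (x k ∈ latt w₀ ρ ∧ ∃ i : ℕ, r k = i * ρ))) ∧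
    (tot {φ | S.Q.dim φ = 2 ∧ (∀ j, φ ∉ Nr j) ∧ ∀ k, Disjoint (S.Q.cell φ) (ball (x k) (r k))}
        (fun φ => w φ * S.E p h.toFun φ) +
      ∑' k, ENNReal.ofReal (r k) * En 2 p h.toFun (sphere (x k) (r k)) ≤
      Cu M₀ * tot {φ | S.Q.dim φ = 2 ∧ ∀ j, φ ∉ Nr j}
        (fun φ => w φ * pot S p g.toFun (cubes P (s / 2)) φ) +
      ∑ j, Ct M₀ (Y j).θ (Y j).N (Y j).t (Y j).L *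
        tot {φ | S.Q.dim φ = 2 ∧ (∀ j, φ ∉ Nr j) ∧ (S.Q.cell φ ∩ (Y j).G).Nonempty}
          (fun φ => w φ * S.W p g.toFun φ) + η) ∧
    ∀ j, (∀ φ ∈ Nr j, ∀ u ∈ S.Q.cell φ, ∃ z, nbr 1 {z} ⊆ B j ∧
        T j (g.toFun u) ∈ lbox (Y j).N 0 z) ∧
      ∃ c k, NearOut p c₀ (Y j).θ (Y j).ϑ e (Cz (Y j).θ) (CM (Y j).θ) (n j).src (Y j).N (Y j).t
        (B j) (T j ∘ g.toFun ∘ (ν j).symm) (T j ∘ h.toFun ∘ (ν j).symm) (Nr j) η (𝓢 j) (ψ j)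
        (a j) (m j) c k

end P073.P2
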