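import Vale.Agent.P073Y.P2.Sk2
import Vale.Agent.P073Y.Gc.Solid

/-!
# Most cubes are good
-/

open Set Metric Topology Filter MeasureTheory
open scoped NNReal ENNReal

namespace P073.P2

open P073.Zn P073.Gc
open Dens (kwire)

namespace Bq

theorem meas_aux (n : ℕ) : MeasurableSet (aux n) := by
  have h : aux n = ⋃ i : Fin 3, ⋃ j : Fin 3, ⋃ _ : i ≠ j,
      (⋃ m : ℤ, (fun ξ : E3 => ξ i) ⁻¹' {(m : ℝ) + 1 / n}) ∩
        ⋃ m : ℤ, (fun ξ : E3 => ξ j) ⁻¹' {(m : ℝ) / n} := by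
    ext ξ
    simp only [aux, mem_iUnion, mem_inter_iff, mem_preimage, mem_singleton_iff, exists_prop]
    rfl
  rw [h]
  exact .iUnion fun i => .iUnion fun j => .iUnion fun _ =>
    (MeasurableSet.iUnion fun _ => measurable_pi_apply i (measurableSet_singleton _)).inter
      (.iUnion fun _ => measurable_pi_apply j (measurableSet_singleton _))

theorem hm_aux {n : ℕ} (hn : 1 ≤ n) (y : E3) :
    μH[1] (aux n ∩ closedBall y 1) ≤ ((1125 * n : ℝ≥0) : ℝ≥0∞) := by
  have h0 : (1 : ℝ) ≤ n := by exact_mod_cast hn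
  have h1 : ∀ i j : Fin 3, i ≠ j → ∃ k, k ≠ i ∧ k ≠ j ∧ ∀ l, l = i ∨ l = j ∨ l = k := by decide
  let A : Fin 3 × Fin 3 → Set E3 := fun p => {ξ | p.1 ≠ p.2 ∧ (∃ m : ℤ, ξ p.1 = m + 1 / n) ∧
    ∃ m : ℤ, ξ p.2 = m / n}
  have h2 : ∀ p, μH[1] (A p ∩ closedBall y 1) ≤ ENNReal.ofReal (125 * n) := by
    rintro ⟨i, j⟩
    by_cases hij : i = j
    · rw [show A (i, j) = ∅ from eq_empty_of_forall_notMem fun ξ h => h.1 hij, empty_inter,
        measure_empty]
      exact zero_le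
    obtain ⟨k, hki, hkj, hl⟩ := h1 i j hij
    obtain ⟨p, hp⟩ : ∃ p : ℝ → E3, ∀ s, p s = Pi.single i (1 / n : ℝ) + Pi.single k s :=
      ⟨_, fun _ => rfl⟩
    have h3 : ∀ s : ℝ, |s| ≤ 1 → p s ∈ closedBall (0 : E3) 1 := fun s hs => by
      rw [mem_closedBall_zero_iff, pi_norm_le_iff_of_nonneg zero_le_one, hp]
      intro l
      rcases hl l with rfl | rfl | rfl
      · simpa [hki.symm] using inv_le_one_of_one_le₀ h0
      · simp [hkj.symm, Ne.symm hij]
      · simpa [hki] using hs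
    have h4 : segment ℝ (p 0) (p 1) ⊆ closedBall 0 1 :=
      (convex_closedBall _ _).segment_subset (h3 0 (by simp)) (h3 1 (by simp))
    refine (Dens.hm_periodic (c := Function.update 1 j (1 / n)) (N := ∅) (fun l => ?_) zero_le_one
      h4 measure_empty (fun ξ hξ _ => ?_) y zero_le_one).trans ?_
    · by_cases h : l = j
      · rw [h, Function.update_self]
        positivity
      · rw [Function.update_of_ne h]
        exact one_pos
    · obtain ⟨-, ⟨m, hm⟩, m', hm'⟩ := hξ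
      refine ⟨ξ - p (Int.fract (ξ k)), fun l => ?_, ?_⟩
      · rw [hp]
        rcases hl l with rfl | rfl | rfl
        · exact ⟨m, by simp [hki.symm, hij, show ξ l = _ from hm]⟩
        · exact ⟨m', by simp [hkj.symm, Ne.symm hij, show ξ l = _ from hm', div_eq_inv_mul]⟩
        · exact ⟨⌊ξ l⌋, by simp [hki, hkj]⟩
      · rw [sub_sub_cancel, segment_eq_image']
        refine ⟨Int.fract (ξ k), ⟨Int.fract_nonneg _, (Int.fract_lt_one _).le⟩, ?_⟩
        simp [hp, ← Pi.single_smul]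
    · rw [hausdorffMeasure_segment, hp, hp, edist_add_left, edist_dist, ← ENNReal.ofReal_mul' dist_nonneg]
      refine ENNReal.ofReal_le_ofReal ?_
      rw [dist_eq_norm, ← Pi.single_sub, Pi.norm_single, ← Finset.mul_prod_erase _ _
        (Finset.mem_univ j), Function.update_self, Finset.prod_congr rfl (g := fun _ => (5 : ℝ))
        fun l hl => by rw [Function.update_of_ne (Finset.ne_of_mem_erase hl)]; norm_num]
      simp
      linarith
  have h3 : aux n ∩ closedBall y 1 ⊆ ⋃ p, A p ∩ closedBall y 1 := fun ξ ⟨⟨i, j, h⟩, h'⟩ =>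
    mem_iUnion.2 ⟨(i, j), h, h'⟩
  refine (measure_mono h3).trans ((measure_iUnion_fintype_le _ _).trans
    ((Finset.sum_le_card_nsmul _ _ _ fun p _ => h2 p).trans_eq ?_))
  rw [Finset.card_univ, Fintype.card_prod, Fintype.card_fin, ← ENNReal.ofReal_nsmul,
    ← ENNReal.ofReal_coe_nnreal]
  congr 1
  push_cast
  ring

/-- from the count to the volume -/
theorem vol {S b k l : ℝ} {n c : ℝ≥0∞} (hk : 0 ≤ k) (hl : 0 ≤ l) (hb : S ^ 3 ≤ l * (k * b))
    (h : n * ENNReal.ofReal b ≤ 343 * c) :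
    ENNReal.ofReal (S ^ 3) * n ≤ ENNReal.ofReal l * 343 * (ENNReal.ofReal k * c) := by
  calc ENNReal.ofReal (S ^ 3) * n ≤ ENNReal.ofReal (l * (k * b)) * n :=
        mul_le_mul_left (ENNReal.ofReal_le_ofReal hb) _
    _ = ENNReal.ofReal l * (ENNReal.ofReal k * (n * ENNReal.ofReal b)) := by
        rw [ENNReal.ofReal_mul hl, ENNReal.ofReal_mul hk]
        ring
    _ ≤ ENNReal.ofReal l * (ENNReal.ofReal k * (343 * c)) := by gcongr
    _ = _ := by ring

end Bq

theorem badq_of (h : RAYS) : BADQ := by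
  classical
  refine ⟨343 * (1 + 27 * 192 + 27 * 1125 + 27 * 3375), ?_⟩
  intro u X ρ a S r t n hu hu2 hX ha haρ hρS hρ1 hr ht hn
  have hρ : 0 < ρ := ha.trans_le haρ
  have hS : 0 < S := hρ.trans_le hρS
  have hn0 : (0 : ℝ) < n := by exact_mod_cast hn
  have hI : ∫⁻ x in X, u x ≤ ∫⁻ x in X, u x ^ 2 := lintegral_mono hu2
  have m1 : Mean 1 (fun _ => ENNReal.ofReal 1 * ∫⁻ x in X, u x ^ 2) (∫⁻ x in X, u x ^ 2) :=
    ⟨measurable_const, by rw [setLIntegral_const, ENNReal.ofReal_one, one_mul]⟩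
  have m2 := G2.mean_lines (M := 192) ha (haρ.trans hρ1) Dens.measurableSet_gridLines
    (fun y => (Dens.hm_gridLines y zero_le_one).trans_eq (by norm_num)) hX hu
  have m3 := (G2.mean_lines ha (haρ.trans hρ1) (Bq.meas_aux n) (Bq.hm_aux hn) hX
    (hu.pow_const 2)).const_mul (n : ℝ≥0∞)⁻¹
  have m4 := mean_kw hρ hρ1 hX hu
  refine ⟨_, ((((m1.add m2).add m3).add m4).const_mul
    (ENNReal.ofReal ((S / a) ^ 3 / t) * 343)).mono ?_, fun w T hT => ?_⟩
  · have e : (n : ℝ≥0∞)⁻¹ * (27 * ((1125 * n : ℝ≥0) : ℝ≥0∞) * ∫⁻ x in X, u x ^ 2) =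
        27 * 1125 * ∫⁻ x in X, u x ^ 2 := by
      have e1 : (n : ℝ≥0∞)⁻¹ * n = 1 :=
        ENNReal.inv_mul_cancel (by exact_mod_cast (by omega : n ≠ 0)) (by simp)
      push_cast
      rw [← one_mul (27 * 1125 * _), ← e1]
      ring
    rw [e]
    refine (mul_le_mul_right (add_le_add (add_le_add (add_le_add le_rfl (mul_le_mul_right hI _))
      le_rfl) (mul_le_mul_right hI _)) _).trans_eq ?_
    push_cast
    ring
  have hl : 0 ≤ (S / a) ^ 3 / t := by positivity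
  have hB : ∀ q ∈ T, closedBall q (S / 2) ⊆ closedBall q (3 * S) ∩ X := fun q hq x hx =>
    ⟨closedBall_subset_closedBall (by linarith) hx,
      (hT q hq).2.1 (closedBall_subset_closedBall (by linarith) hx)⟩
  have hm : ∀ (c : ℝ) {Y : Set E3}, MeasurableSet Y →
      MeasurableSet {y ∈ X | c • (y - w) ∈ Y} := fun c Y hY =>
    hX.inter (((measurable_sub_const w).const_smul c) hY)
  have key : ∀ k b : ℝ, a ^ 3 * t ≤ k * b → S ^ 3 ≤ (S / a) ^ 3 / t * (k * b) := fun k b hk =>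
    le_of_eq_of_le (by field_simp) (mul_le_mul_of_nonneg_left hk hl)
  have a2 : a ^ 2 ≤ ρ ^ 2 := by gcongr
  have a3 : a ^ 3 ≤ ρ ^ 3 := by gcongr
  let T₁ := T.filter fun q => ENNReal.ofReal (t * ρ ^ 3) ≤ ∫⁻ x in closedBall q (S / 2), u x ^ 2
  let T₂ := T.filter fun q => ∃ i, ∃ x ∈ closedBall q (S / 2), OnL a w i x ∧ ∃ s ∈ Icc 0 r,
    ENNReal.ofReal (t * (s + S)) ≤ ∫⁻ y in segment ℝ (x - s • ev i) (x + s • ev i), u y ∂(μH[1])
  let T₃ := T.filter fun q => ENNReal.ofReal (t * ρ ^ 2) ≤ ENNReal.ofReal (a / n) *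
    ∫⁻ y in {y ∈ closedBall q (S / 2) | a⁻¹ • (y - w) ∈ aux n}, u y ^ 2 ∂(μH[1])
  let T₄ := T.filter fun q => ENNReal.ofReal (t * ρ) ≤
    ∫⁻ y in {y ∈ closedBall q (S / 2) | ρ⁻¹ • (y - w) ∈ kwire}, u y ∂(μH[1])
  have hc : T ⊆ T₁ ∪ T₂ ∪ T₃ ∪ T₄ := fun q hq => by
    by_contra hq'
    simp only [T₁, T₂, T₃, T₄, Finset.mem_union, Finset.mem_filter, hq, true_and, not_or,
      not_le] at hq'
    refine (hT q hq).2.2 ⟨hq'.1.1.1.le, fun i x hx hi s hs => le_of_not_ge fun h' => ?_,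
      hq'.1.2.le, hq'.2.le⟩
    exact hq'.1.1.2 ⟨i, x, hx, hi, s, hs, h'⟩
  have hc' : (T.card : ℝ≥0∞) ≤ T₁.card + T₂.card + T₃.card + T₄.card := by
    exact_mod_cast (Finset.card_le_card hc).trans ((Finset.card_union_le _ _).trans
      (Nat.add_le_add_right ((Finset.card_union_le _ _).trans
        (Nat.add_le_add_right (Finset.card_union_le _ _) _)) _))
  refine (mul_le_mul_right hc' _).trans ?_
  simp only [mul_add]
  refine add_le_add (add_le_add (add_le_add ?_ ?_) ?_) ?_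
  · refine Bq.vol zero_le_one hl (key 1 (t * ρ ^ 3) (by nlinarith))
      (count volume _ hS T₁ (fun q hq => (hT q (Finset.mem_filter.1 hq).1).1) hX fun q hq => ?_)
    exact (Finset.mem_filter.1 hq).2.trans (lintegral_mono_set (hB q (Finset.mem_filter.1 hq).1))
  · rw [← ENNReal.ofReal_pow ha.le]
    refine Bq.vol (b := t * S) (by positivity) hl (key _ _ ?_) ?_
    · nlinarith [mul_le_mul_of_nonneg_left (haρ.trans hρS) (by positivity : 0 ≤ a ^ 2 * t)]
    · rw [mul_comm]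
      exact (h w T₂ hu hX ha hS ht.le fun q hq => ⟨(hT q (Finset.mem_filter.1 hq).1).1,
        (hT q (Finset.mem_filter.1 hq).1).2.1, (Finset.mem_filter.1 hq).2⟩).trans
        (mul_le_mul_left (by norm_num) _)
  · have e : ∀ c : ℝ≥0∞, (n : ℝ≥0∞)⁻¹ * (ENNReal.ofReal a ^ 2 * c) =
        ENNReal.ofReal a * (ENNReal.ofReal (a / n) * c) := fun c => by
      rw [ENNReal.ofReal_div_of_pos hn0, ENNReal.ofReal_natCast, div_eq_mul_inv]
      ring
    rw [e, ← lintegral_const_mul' _ _ ENNReal.ofReal_ne_top]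
    refine Bq.vol (b := t * ρ ^ 2) ha.le hl (key _ _ ?_) (count μH[1] _ hS T₃
      (fun q hq => (hT q (Finset.mem_filter.1 hq).1).1) (hm _ (Bq.meas_aux n)) fun q hq => ?_)
    · nlinarith [mul_le_mul_of_nonneg_left a2 (by positivity : 0 ≤ a * t)]
    · rw [lintegral_const_mul' _ _ ENNReal.ofReal_ne_top]
      refine (Finset.mem_filter.1 hq).2.trans (mul_le_mul_right (lintegral_mono_set ?_) _)
      exact fun y hy => ⟨(hB q (Finset.mem_filter.1 hq).1 hy.1).1,
        (hB q (Finset.mem_filter.1 hq).1 hy.1).2, hy.2⟩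
  · rw [← ENNReal.ofReal_pow hρ.le]
    refine Bq.vol (b := t * ρ) (by positivity) hl (key _ _ (by nlinarith))
      (count μH[1] _ hS T₄ (fun q hq => (hT q (Finset.mem_filter.1 hq).1).1)
        (hm _ Dens.measurableSet_kwire) fun q hq => ?_)
    exact (Finset.mem_filter.1 hq).2.trans (lintegral_mono_set fun y hy =>
      ⟨(hB q (Finset.mem_filter.1 hq).1 hy.1).1, (hB q (Finset.mem_filter.1 hq).1 hy.1).2, hy.2⟩)

end P073.P2
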