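import Vale.Agent.P073Y.P2.Sk
import Vale.Agent.P073Y.Sg.Loop
import Vale.Agent.P073Y.Sg.Cover

/-!
# The balls which catch the spikes of the sheets
-/

open Set Metric Topology Filter

namespace P073.P2

open P073.Zn P073.Gc P073.Sg
open An (M3)

namespace Bl

/-- the coordinates in the lattice of step `h` -/
noncomputable def co (h : ℝ) (w x : E3) (j : Fin 3) : ℝ := (x j - w j) / h

variable {h : ℝ} {n : ℕ} {w x : E3}

theorem co_eq (hh : 0 < h) (j : Fin 3) : x j = w j + co h w x j * h := by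
  rw [co, div_mul_cancel₀ _ hh.ne']; ring

theorem eq_iff (hh : 0 < h) {j : Fin 3} {c d : ℝ} (e : d = w j + c * h) :
    x j = d ↔ co h w x j = c := by
  rw [e, co, div_eq_iff hh.ne']
  constructor <;> intro <;> linarith

theorem le_iff (hh : 0 < h) {j : Fin 3} {c d : ℝ} (e : d = w j + c * h) :
    x j ≤ d ↔ co h w x j ≤ c := by
  rw [e, co, div_le_iff₀ hh]
  constructor <;> intro <;> linarith

theorem ge_iff (hh : 0 < h) {j : Fin 3} {c d : ℝ} (e : d = w j + c * h) :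
    d ≤ x j ↔ c ≤ co h w x j := by
  rw [e, co, le_div_iff₀ hh]
  constructor <;> intro <;> linarith

theorem mem_sheet (hh : 0 < h) {z : Fin 3 → ℤ} {i : Fin 3} : x ∈ sheet (n * h) h w z i ↔
    co h w x i = (z i * n + 1 : ℤ) ∧ ∀ j, j ≠ i →
      ((z j * n + 2 : ℤ) : ℝ) ≤ co h w x j ∧ co h w x j ≤ (z j * n + n - 2 : ℤ) :=
  and_congr (eq_iff hh (by push_cast; ring)) (forall₂_congr fun j _ =>
    and_congr (ge_iff hh (by push_cast; ring)) (le_iff hh (by push_cast; ring)))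

theorem mem_rim (hh : 0 < h) {z : Fin 3 → ℤ} {i : Fin 3} : x ∈ rim (n * h) h w z i ↔
    x ∈ sheet (n * h) h w z i ∧ ∃ j, j ≠ i ∧
      (co h w x j = (z j * n + 2 : ℤ) ∨ co h w x j = (z j * n + n - 2 : ℤ)) :=
  and_congr_right fun _ => exists_congr fun j => and_congr_right fun _ =>
    or_congr (eq_iff hh (by push_cast; ring)) (eq_iff hh (by push_cast; ring))

theorem mem_asq (hh : 0 < h) {ζ : Fin 3 → ℤ} {i : Fin 3} : x ∈ asq h w ζ i ↔
    co h w x i = ζ i ∧ ∀ j, j ≠ i → (ζ j : ℝ) ≤ co h w x j ∧ co h w x j ≤ (ζ j + 1 : ℤ) :=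
  and_congr (eq_iff hh rfl) (forall₂_congr fun j _ =>
    and_congr (ge_iff hh rfl) (le_iff hh (by push_cast; ring)))

theorem mem_abd (hh : 0 < h) {ζ : Fin 3 → ℤ} {i : Fin 3} : x ∈ abd h w ζ i ↔
    x ∈ asq h w ζ i ∧ ∃ j, j ≠ i ∧ (co h w x j = ζ j ∨ co h w x j = (ζ j + 1 : ℤ)) :=
  and_congr_right fun _ => exists_congr fun j => and_congr_right fun _ =>
    or_congr (eq_iff hh rfl) (eq_iff hh (by push_cast; ring))

/-- the small square `k` lies in the sheet of the cube `z` -/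
def In (n : ℕ) (z : Fin 3 → ℤ) (k : (Fin 3 → ℤ) × Fin 3) : Prop :=
  k.1 k.2 = z k.2 * n + 1 ∧ ∀ j, j ≠ k.2 → z j * n + 2 ≤ k.1 j ∧ k.1 j ≤ z j * n + n - 3

theorem fin_in (hn : 8 ≤ n) (z : Fin 3 → ℤ) : {k | In n z k}.Finite := by
  refine ((finite_Icc (fun j => z j * n) fun j => z j * n + n).prod finite_univ).subset ?_
  rintro ⟨ζ, i⟩ ⟨h1, h2⟩
  refine ⟨⟨fun j => ?_, fun j => ?_⟩, trivial⟩ <;> by_cases e : j = i
  · subst e; dsimp only at h1 ⊢; omega
  · have := h2 j e; dsimp only at this ⊢; omega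
  · subst e; dsimp only at h1 ⊢; omega
  · have := h2 j e; dsimp only at this ⊢; omega

theorem asq_sub (hh : 0 < h) {z : Fin 3 → ℤ} {k : (Fin 3 → ℤ) × Fin 3} (hk : In n z k) :
    asq h w k.1 k.2 ⊆ sheet (n * h) h w z k.2 := fun x hx => by
  rw [mem_asq hh] at hx
  rw [mem_sheet hh, ← hk.1]
  refine ⟨hx.1, fun j hj => ⟨le_trans ?_ (hx.2 j hj).1, (hx.2 j hj).2.trans ?_⟩⟩
  · exact Int.cast_le.2 (hk.2 j hj).1
  · exact Int.cast_le.2 (by have := (hk.2 j hj).2; omega)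

theorem exists_cell (hh : 0 < h) (hn : 8 ≤ n) {z : Fin 3 → ℤ} {i : Fin 3}
    (hx : x ∈ sheet (n * h) h w z i) : ∃ ζ, In n z (ζ, i) ∧ x ∈ asq h w ζ i := by
  rw [mem_sheet hh] at hx
  have key : ∀ j, ∃ k : ℤ, (j = i → k = z j * n + 1) ∧ (j ≠ i → (z j * n + 2 ≤ k ∧
      k ≤ z j * n + n - 3) ∧ (k : ℝ) ≤ co h w x j ∧ co h w x j ≤ (k + 1 : ℤ)) := fun j => by
    by_cases e : j = i
    · exact ⟨_, fun _ => rfl, fun h => absurd e h⟩
    obtain ⟨h1, h2⟩ := hx.2 j e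
    by_cases h3 : ⌊co h w x j⌋ ≤ z j * n + n - 3
    · refine ⟨⌊co h w x j⌋, fun h => absurd h e, fun _ => ⟨⟨Int.le_floor.2 h1, h3⟩,
        Int.floor_le _, ?_⟩⟩
      push_cast
      exact (Int.lt_floor_add_one _).le
    · refine ⟨z j * n + n - 3, fun h => absurd h e, fun _ => ⟨⟨by omega, le_rfl⟩,
        (Int.cast_le.2 (not_le.1 h3).le).trans (Int.floor_le _), h2.trans (le_of_eq ?_)⟩⟩
      congr 1
      ring
  choose ζ h1 h2 using key
  refine ⟨ζ, ⟨h1 i rfl, fun j hj => (h2 j hj).1⟩, (mem_asq hh).2 ⟨?_, fun j hj => (h2 j hj).2⟩⟩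
  rw [h1 i rfl]
  exact hx.1

theorem int_eq {a b : ℤ} (h1 : a * n < b * n + n) (h2 : b * n < a * n + n) : a = b := by
  have hn : (0 : ℤ) ≤ n := Int.natCast_nonneg n
  rcases lt_trichotomy a b with h | h | h
  · nlinarith [mul_le_mul_of_nonneg_right (show a + 1 ≤ b from h) hn]
  · exact h
  · nlinarith [mul_le_mul_of_nonneg_right (show b + 1 ≤ a from h) hn]

theorem sheet_uniq (hh : 0 < h) (hn : 8 ≤ n) {z z' : Fin 3 → ℤ} {i i' : Fin 3}
    (hx : x ∈ sheet (n * h) h w z i) (hx' : x ∈ sheet (n * h) h w z' i') : i = i' ∧ z = z' := by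
  rw [mem_sheet hh] at hx hx'
  obtain rfl : i = i' := by
    by_contra e
    obtain ⟨h1, h2⟩ := hx'.2 i e
    rw [hx.1, Int.cast_le] at h1 h2
    have : z i = z' i := int_eq (n := n) (by omega) (by omega)
    rw [this] at h1
    omega
  refine ⟨rfl, funext fun j => ?_⟩
  by_cases e : j = i
  · subst e
    have h1 := hx.1.symm.trans hx'.1
    rw [Int.cast_inj] at h1
    exact int_eq (n := n) (by omega) (by omega)
  · have h1 := Int.cast_le.1 ((hx.2 j e).1.trans (hx'.2 j e).2)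
    have h2 := Int.cast_le.1 ((hx'.2 j e).1.trans (hx.2 j e).2)
    exact int_eq (n := n) (by omega) (by omega)

theorem rim_abd (hh : 0 < h) {z : Fin 3 → ℤ} {k : (Fin 3 → ℤ) × Fin 3} (hk : In n z k)
    (hx : x ∈ rim (n * h) h w z k.2) (hx' : x ∈ asq h w k.1 k.2) : x ∈ abd h w k.1 k.2 := by
  obtain ⟨-, j, hj, h1⟩ := (mem_rim hh).1 hx
  obtain ⟨h2, h3⟩ := ((mem_asq hh).1 hx').2 j hj
  obtain ⟨h4, h5⟩ := hk.2 j hj
  refine (mem_abd hh).2 ⟨hx', j, hj, h1.imp (fun h1 => ?_) fun h1 => ?_⟩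
  · rw [h1, Int.cast_le] at h2
    rw [h1, Int.cast_inj]
    omega
  · rw [h1, Int.cast_le] at h3
    rw [h1, Int.cast_inj]
    omega

theorem asq_inter (hh : 0 < h) {ζ ζ' : Fin 3 → ℤ} {i : Fin 3} (hne : ζ ≠ ζ')
    (hx : x ∈ asq h w ζ i) (hx' : x ∈ asq h w ζ' i) : x ∈ abd h w ζ i := by
  obtain ⟨j, hj⟩ := Function.ne_iff.1 hne
  have a := (mem_asq hh).1 hx
  have a' := (mem_asq hh).1 hx'
  have e : j ≠ i := by
    rintro rfl
    exact hj (Int.cast_inj.1 (a.1.symm.trans a'.1))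
  refine (mem_abd hh).2 ⟨hx, j, e, ?_⟩
  rcases lt_or_gt_of_ne hj with h1 | h1
  · exact Or.inr (le_antisymm (a.2 j e).2 ((Int.cast_le.2 h1).trans (a'.2 j e).1))
  · exact Or.inl (le_antisymm ((a'.2 j e).2.trans (Int.cast_le.2 h1)) (a.2 j e).1)

theorem closed_asq (ζ : Fin 3 → ℤ) (i : Fin 3) : IsClosed (asq h w ζ i) := by
  unfold asq
  simp only [ofPred_and, ofPred_forall]
  exact (isClosed_eq (continuous_apply i) continuous_const).inter
    (isClosed_iInter fun j => isClosed_iInter fun _ =>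
      (isClosed_le continuous_const (continuous_apply j)).inter
        (isClosed_le (continuous_apply j) continuous_const))

theorem abd_ne (hh : 0 < h) (ζ : Fin 3 → ℤ) (i : Fin 3) : (abd h w ζ i).Nonempty := by
  obtain ⟨j, hj⟩ := exists_ne i
  exact ⟨fun j => w j + ζ j * h, ⟨rfl, fun j _ => ⟨le_rfl, by linarith⟩⟩, j, hj, Or.inl rfl⟩

theorem dist_asq (hh : 0 < h) {ζ : Fin 3 → ℤ} {i : Fin 3} {y : E3} (hx : x ∈ asq h w ζ i)
    (hy : y ∈ asq h w ζ i) : dist x y ≤ h := by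
  refine (dist_pi_le_iff hh.le).2 fun j => ?_
  by_cases e : j = i
  · rw [e, hx.1, hy.1, dist_self]
    exact hh.le
  · have a := hx.2 j e
    have b := hy.2 j e
    rw [Real.dist_eq, abs_le]
    constructor <;> linarith [a.1, a.2, b.1, b.2]

theorem af_lip {b : ℝ} {A : M3} (hA : Bil b A) (c x y : E3) :
    dist (af c A x) (af c A y) ≤ b * dist x y := by
  rw [af, af, dist_add_left, dist_eq_norm, dist_eq_norm, ← map_sub]
  exact (A.le_opNorm _).trans (mul_le_mul_of_nonneg_right hA.1 (norm_nonneg _))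

theorem af_inv {b : ℝ} {A : M3} (hA : Bil b A) (c x y : E3) :
    dist x y ≤ b * dist (af c A x) (af c A y) := by
  rw [af, af, dist_add_left, dist_eq_norm, dist_eq_norm, ← map_sub]
  exact hA.2 _

theorem af_surj {b : ℝ} {A : M3} (hA : Bil b A) (c y : E3) : ∃ x, af c A x = y := by
  have h1 : Function.Injective (A : E3 →ₗ[ℝ] E3) := (injective_iff_map_eq_zero _).2 fun u hu => by
    have := hA.2 u
    rw [show A u = 0 from hu, norm_zero, mul_zero] at this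
    exact norm_le_zero_iff.1 this
  obtain ⟨x, hx⟩ := LinearMap.injective_iff_surjective.1 h1 (y - c)
  exact ⟨x, by rw [af, show A x = y - c from hx, add_sub_cancel]⟩

/-- the balls of one cube -/
theorem one (h1 : GEO1) (h2 : GEO2) (D : Dt) (o : D.Ok) {q : E3} (hq : q ∈ D.𝒬) :
    ∃ (t : Finset ((Fin 3 → ℤ) × Fin 3)) (c : (Fin 3 → ℤ) × Fin 3 → E3)
      (r r' : (Fin 3 → ℤ) × Fin 3 → ℝ),
      (∀ j ∈ t, (0 < r j ∧ r j < r' j ∧ r' j ≤ 2 * r j) ∧
        (∃ x ∈ closedBall q D.R, dist (D.f x) (c j) ≤ r j ∧ dist (D.f x) (D.α q x) ≤ 6 * D.ε) ∧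
        ball (c j) (r' j) ⊆ D.α q '' closedBall q (D.R + D.m)) ∧
      (∀ j ∈ t, ∀ j' ∈ t, j ≠ j' → Disjoint (ball (c j) (r' j)) (ball (c j') (r' j'))) ∧
      ∑ j ∈ t, r j ≤ D.ε / 2 ∧
      ∀ z, rcube D.a D.w z ⊆ closedBall q D.R → ∀ i,
        ∀ Z ⊆ sheet D.a D.h D.w z i, IsPreconnected Z → (Z ∩ rim D.a D.h D.w z i).Nonempty →
        (∀ j ∈ t, Disjoint (D.f '' Z) (closedBall (c j) (r j))) →
        ∀ x ∈ Z, dist (D.f x) (D.α q x) ≤ 8 * D.ε := by
  have hh := o.h_pos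
  have hn := o.n_ge
  have hb := o.b_ge
  have hn' : (8 : ℝ) ≤ D.n := by exact_mod_cast hn
  have ha : 8 * D.h ≤ D.a := by rw [o.a_eq]; nlinarith
  have hbh : 0 < D.b * D.h := by positivity
  have hε : 8 * (D.b * D.h) ≤ D.ε := by nlinarith [o.a_le]
  have ε0 : 0 < D.ε := by linarith
  have hA := o.bil q hq
  obtain ⟨g1, -, -, g4, -⟩ := h1 D.w hh ha
  have g2 := (h2 D.w hh ha).1
  have hsub : ∀ z i, sheet D.a D.h D.w z i ⊆ rcube D.a D.w z := fun z i =>
    (g1 z i).1.trans ((g1 z i).2.1.trans interior_subset)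
  have hZ : {z | rcube D.a D.w z ⊆ closedBall q D.R}.Finite :=
    (g4 _ isBounded_closedBall).subset fun z hz => by
      obtain ⟨x, hx⟩ := (g1 z 0).2.2.2.1
      exact ⟨x, hsub z 0 hx.1, hz (hsub z 0 hx.1)⟩
  have hS := hZ.biUnion fun z _ => fin_in hn z
  have hm : ∀ k, k ∈ hS.toFinset ↔ ∃ z, rcube D.a D.w z ⊆ closedBall q D.R ∧ In D.n z k :=
    fun k => by simp
  have hsh : ∀ {z k}, In D.n z k → asq D.h D.w k.1 k.2 ⊆ sheet D.a D.h D.w z k.2 := fun hk => by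
    rw [o.a_eq]; exact asq_sub hh hk
  have hY : ∀ k ∈ hS.toFinset, asq D.h D.w k.1 k.2 ⊆ closedBall q D.R := fun k hk => by
    obtain ⟨z, hz, hk⟩ := (hm k).1 hk
    exact (hsh hk).trans ((hsub z _).trans hz)
  have hY' : ∀ k ∈ hS.toFinset, ∃ m : ℤ, k.1 k.2 = m * D.n + 1 := fun k hk => by
    obtain ⟨z, -, a⟩ := (hm k).1 hk
    exact ⟨_, a.1⟩
  have hu : ∀ {x z z' i i'}, x ∈ sheet D.a D.h D.w z i → x ∈ sheet D.a D.h D.w z' i' →
      i = i' ∧ z = z' := fun a b => by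
    rw [o.a_eq] at a b; exact sheet_uniq hh hn a b
  have hα : ∀ x y, dist (D.α q x) (D.α q y) ≤ D.b * dist x y := af_lip hA _
  have hα' : ∀ {k : (Fin 3 → ℤ) × Fin 3} {x y}, x ∈ asq D.h D.w k.1 k.2 →
      y ∈ asq D.h D.w k.1 k.2 → dist (D.α q x) (D.α q y) ≤ D.b * D.h := fun a b =>
    (hα _ _).trans (mul_le_mul_of_nonneg_left (dist_asq hh a b) (by linarith))
  obtain ⟨W, W0, W1, W2⟩ := o.en q hq
  have L := loop hS.toFinset (fun k => asq D.h D.w k.1 k.2)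
    (fun k => abd D.h D.w k.1 k.2) (fun x => dist (D.f x) (D.α q x)) (fun k => W k + D.b * D.h) W
    (D := {x | ∃ z, rcube D.a D.w z ⊆ closedBall q D.R ∧ ∃ i, x ∈ sheet D.a D.h D.w z i})
    (S := {x | ∃ z, rcube D.a D.w z ⊆ closedBall q D.R ∧ ∃ i, x ∈ rim D.a D.h D.w z i})
    (lam := 3 * D.ε) (ω := 2 * D.ε) (by linarith) ?_ (fun k hk => ⟨closed_asq _ _, abd_ne hh _ _,
      fun x hx => hx.1, ?_, by linarith [W0 k], fun x hx y hy => ?_, fun x hx y hy => ?_⟩)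
    (fun k hk k' hk' hne x hx => ?_) ?_
  rotate_left
  · rintro x ⟨z, hz, i, hx⟩
    obtain ⟨ζ, a1, a2⟩ := exists_cell hh hn (o.a_eq ▸ hx)
    exact mem_biUnion (x := (ζ, i)) ((hm _).2 ⟨z, hz, a1⟩) a2
  · rintro x ⟨⟨z, -, i, hx⟩, hx'⟩
    obtain ⟨z', -, hk⟩ := (hm k).1 hk
    obtain ⟨rfl, rfl⟩ := hu hx.1 (hsh hk hx')
    exact rim_abd hh hk (o.a_eq ▸ hx) hx'
  · have := W1 k.1 k.2 (hY' k hk) (hY k hk) x hx y hy
    rw [dist_eq_norm] at this
    simp only [dist_eq_norm]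
    exact (norm_sub_norm_le _ _).trans this
  · have a1 := o.mod q hq y (hY k hk hy) x (by linarith [dist_asq hh hx hy])
    have a2 := hα' hy hx
    have a3 := dist_triangle4 (D.f x) (D.f y) (D.α q y) (D.α q x)
    linarith
  · obtain ⟨z, -, a1⟩ := (hm k).1 hk
    obtain ⟨z', -, a2⟩ := (hm k').1 hk'
    obtain ⟨ζ, i⟩ := k
    obtain ⟨ζ', i'⟩ := k'
    obtain rfl : i = i' := (hu (hsh a1 hx.1) (hsh a2 hx.2)).1
    exact asq_inter hh (fun e => hne (Prod.ext e rfl)) hx.1 hx.2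
  · rintro x ⟨z, hz, i, hx⟩
    obtain ⟨x', i', a1, a2, -⟩ := g2 z i x hx
    have a3 := hz (hsub z i hx.1)
    have a4 := o.ray q hq i' x' (by
      rw [mem_closedBall] at a3 ⊢
      linarith [dist_triangle x' x q, dist_comm x x']) a1 0 (by
      rw [abs_zero]; linarith [o.a_r])
    rw [zero_smul, add_zero, abs_zero, zero_div, add_zero] at a4
    have a5 := o.mod q hq x a3 x' (by rw [dist_comm]; linarith)
    have a6 := (hα x x').trans (mul_le_mul_of_nonneg_left a2 (by linarith))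
    have a7 := dist_triangle4 (D.f x) (D.f x') (D.α q x') (D.α q x)
    rw [dist_comm] at a5 a6
    nlinarith
  obtain ⟨s', hs', l1, l2, l3⟩ := L
  have l4 : ∑ k ∈ s', (W k + D.b * D.h) ≤ D.ε / 3 := by
    have := l1.trans (W2 _ fun k hk => ⟨hY' k hk, hY k hk⟩)
    nlinarith
  choose! p hp hp' using l2
  obtain ⟨t, c, r, r', c1, c2, c3, c4⟩ := cover s' (fun k => D.f (p k)) (fun k => W k + D.b * D.h)
    fun k _ => by linarith [W0 k]
  refine ⟨t, c, r, r', fun j hj => ?_, c2, by linarith, fun z hz i Z hZ hc hne hd x hx => ?_⟩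
  · obtain ⟨a1, a2, a3, k, hk, a4⟩ := c1 j hj
    have a5 : dist (D.f (p k)) (c j) ≤ r j := a4 (mem_closedBall_self (by linarith [W0 k]))
    have a6 := hp' k hk
    have a7 := hY k (hs' hk) (hp k hk).1
    have a8 : r j ≤ D.ε / 3 :=
      (Finset.single_le_sum (fun j hj => (c1 j hj).1.le) hj).trans (c4.trans l4)
    refine ⟨⟨a1, a2, a3⟩, ⟨p k, a7, a5, by linarith⟩, fun y hy => ?_⟩
    obtain ⟨x, rfl⟩ := af_surj hA (D.c q) y
    refine ⟨x, ?_, rfl⟩
    have b1 : dist x (p k) ≤ D.b * dist (D.α q x) (D.α q (p k)) := af_inv hA _ _ _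
    have b2 := dist_triangle4 (D.α q x) (c j) (D.f (p k)) (D.α q (p k))
    have b3 : dist (D.α q x) (c j) < r' j := hy
    rw [dist_comm] at a5
    have b4 : D.b * dist (D.α q x) (D.α q (p k)) ≤ D.b * (7 * D.ε) :=
      mul_le_mul_of_nonneg_left (by linarith) (by linarith)
    have b5 : D.b ≤ D.b ^ 3 := le_self_pow₀ hb (by norm_num)
    have b6 := mul_le_mul_of_nonneg_right b5 ε0.le
    have b7 : 0 ≤ D.b * D.ε := by positivity
    rw [mem_closedBall] at a7 ⊢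
    linarith [dist_triangle x (p k) q, o.m_ge]
  · obtain ⟨y, y1, y2⟩ := hne
    have := l3 Z (fun x hx => ⟨z, hz, i, hZ hx⟩) hc ⟨y, y1, z, hz, i, y2⟩ (fun k hk => ?_) x hx
    · linarith
    obtain ⟨j, hj, a1⟩ := c3 k hk
    refine disjoint_left.2 fun v v1 v2 => disjoint_left.1 (hd j hj) (mem_image_of_mem _ v1) (a1 ?_)
    have a2 := W1 k.1 k.2 (hY' k (hs' hk)) (hY k (hs' hk)) v v2 _ (hp k hk)
    have a3 := hα' v2.1 (hp k hk).1
    have a4 : D.f v - D.f (p k) = (D.f v - D.α q v - (D.f (p k) - D.α q (p k))) +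
        (D.α q v - D.α q (p k)) := by abel
    rw [dist_eq_norm] at a2 a3
    rw [mem_closedBall, dist_eq_norm, a4]
    exact (norm_add_le _ _).trans (add_le_add a2 a3)

theorem reindex {D : Dt} {ι κ : Type} [Fintype ι] [Fintype κ] {cl y : ι → E3} {ρ ρ' : ι → ℝ}
    (e : κ ≃ ι) (H : D.Bls cl y ρ ρ') : D.Bls (cl ∘ e) (y ∘ e) (ρ ∘ e) (ρ' ∘ e) where
  mem j := H.mem _
  rad j := H.rad _
  disj j j' hne := H.disj _ _ (e.injective.ne hne)
  sum q := by
    refine le_of_eq_of_le ?_ (H.sum q)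
    rw [Finset.sum_filter, Finset.sum_filter]
    exact e.sum_comp fun j => if cl j = q then ρ j else 0
  near j := H.near _
  loop q hq z hz i Z hZ hc hne hd := H.loop q hq z hz i Z hZ hc hne fun j => by
    simpa using hd (e.symm j)

end Bl

theorem balls_of (h1 : GEO1) (h2 : GEO2) : BALLS := by
  intro D o
  choose! t c r r' a1 a2 a3 a4 using fun q (hq : q ∈ D.𝒬) => Bl.one h1 h2 D o hq
  have hm : ∀ j : D.𝒬.sigma t, j.1.1 ∈ D.𝒬 ∧ j.1.2 ∈ t j.1.1 := fun j => Finset.mem_sigma.1 j.2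
  have ε0 : 0 ≤ D.ε := by
    have := o.h_pos
    have := o.b_ge
    refine le_trans ?_ o.a_le
    rw [o.a_eq]
    positivity
  have H : D.Bls (fun j : D.𝒬.sigma t => j.1.1) (fun j => c j.1.1 j.1.2) (fun j => r j.1.1 j.1.2)
      fun j => r' j.1.1 j.1.2 :=
    { mem := fun j => (hm j).1
      rad := fun j => (a1 _ (hm j).1 _ (hm j).2).1
      disj := fun j j' hne => by
        by_cases e : j.1.1 = j'.1.1
        · obtain ⟨⟨q, k⟩, hj⟩ := j
          obtain ⟨⟨q', k'⟩, hj'⟩ := j'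
          obtain rfl : q = q' := e
          exact a2 q (hm ⟨_, hj⟩).1 k (hm ⟨_, hj⟩).2 k' (hm ⟨_, hj'⟩).2 fun e => hne (by subst e; rfl)
        · exact (o.sep _ (hm j).1 _ (hm j').1 e).mono (a1 _ (hm j).1 _ (hm j).2).2.2
            (a1 _ (hm j').1 _ (hm j').2).2.2
      sum := fun q => by
        rw [Finset.sum_filter, Finset.sum_coe_sort (D.𝒬.sigma t)
          fun j => if j.1 = q then r j.1 j.2 else 0, Finset.sum_sigma]
        simp only [Finset.sum_ite_irrel, Finset.sum_const_zero, Finset.sum_ite_eq']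
        split_ifs with hq
        · exact a3 q hq
        · linarith
      near := fun j => (a1 _ (hm j).1 _ (hm j).2).2.1
      loop := fun q hq z hz i Z hZ hc hne hd => a4 q hq z hz i Z hZ hc hne fun j hj =>
        hd ⟨⟨q, j⟩, Finset.mem_sigma.2 ⟨hq, hj⟩⟩ }
  exact ⟨_, _, _, _, _, Bl.reindex (Fintype.equivFin _).symm H⟩

end P073.P2
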