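import Vale.Agent.P073Y.P2.Sk
import Vale.Agent.P073Y.Sg.Coll
import Vale.Agent.P073Y.Sg.Zeta

/-!
# Collapse of clusters of balls by maps which are products on large sets
-/

open Set Metric Topology Filter MeasureTheory
open scoped NNReal ENNReal

namespace P073.P2

open P073.Sg P073.Sg.CollA
open P073.St.Tg (med med_of_le)

theorem coll2 : COLL2 := by
  intro ι π _ _ _ a c r R χ hR0 hr hR hχ hdis hbig
  let _ := Fintype.ofFinite π
  choose J j1 j2 _ j4 using fun (n : π) (k : Fin 3) =>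
    zeta (Finset.univ.filter fun i => a i = n) (fun i => c i k) r fun i _ => hr i
  refine ⟨J, fun n k => ⟨j1 n k, (j2 n k).trans (ENNReal.ofReal_le_ofReal (by linarith [hR n]))⟩,
    fun σ hσ => ?_⟩
  choose ζ z1 z2 z3 z4 z5 z6 using fun n k => j4 n k σ hσ
  have hb : ∀ n k t, |ζ n k t - t| ≤ 4 * R := fun n k t => (z5 n k t).trans (by linarith [hR n])
  choose Φ f1 f2 f3 f4 using fun n => pushes (hχ n).1 (hχ n).2.1 (hχ n).2.2 (z1 n) (z2 n) (z3 n)
    (by linarith) (hb n) Finset.univ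
  have f0 : ∀ n, LipschitzWith 8 (Φ n).toFun := fun n => by
    simpa [show (2 : ℝ≥0) ^ 3 = 8 by norm_num] using f1 n
  let Z : π → Set E3 := fun n => {y | 0 < χ n y}
  have hoff : ∀ n y, y ∉ Z n → (Φ n).toFun y = y := fun n y hy =>
    f2 n y (le_antisymm (not_lt.1 hy) ((hχ n).2.1 y))
  obtain ⟨Ψ, a1, a2⟩ := compose Z Φ (fun n m hnm => disjoint_left.2 fun y h1 h2 =>
    hnm (hdis n m y h1 h2)) hoff Finset.univ
  have key : ∀ y y', (∀ n, y ∈ Z n → y' ∉ Z n) → dist (Ψ.toFun y) y ≤ 9 * dist y y' := by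
    intro y y' hy
    by_cases h1 : ∃ n, y ∈ Z n
    · obtain ⟨n, hn⟩ := h1
      have h2 := (f0 n).dist_le_mul y y'
      rw [hoff n y' (hy n hn), NNReal.coe_ofNat] at h2
      rw [a2 n (Finset.mem_univ n) y hn]
      linarith [dist_triangle_right ((Φ n).toFun y) y y']
    · rw [a1 y fun n _ hn => h1 ⟨n, hn⟩, dist_self]
      positivity
  have hd : ∀ y, dist (Ψ.toFun y) y ≤ 4 * R := fun y => by
    by_cases h1 : ∃ n, y ∈ Z n
    · obtain ⟨n, hn⟩ := h1
      rw [a2 n (Finset.mem_univ n) y hn]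
      exact f3 n y
    · rw [a1 y fun n _ hn => h1 ⟨n, hn⟩, dist_self]
      positivity
  have e : ∀ n y, 6 * R ≤ χ n y → ∀ k, Ψ.toFun y k = ζ n k (y k) := fun n y hy k => by
    rcases hR0.eq_or_lt with h0 | h0
    · have h1 := hd y
      have h2 := hb n k (y k)
      rw [← h0, mul_zero] at h1 h2
      rw [dist_le_zero.1 h1, sub_eq_zero.1 (abs_nonpos_iff.1 h2)]
    · obtain ⟨y', b1, b2⟩ := (f4 n y k).2 (Finset.mem_univ k)
      rw [a2 n (Finset.mem_univ n) y (show 0 < χ n y by linarith), b2]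
      refine med_of_le ((hb n k _).trans ?_)
      linarith [(abs_le.1 ((hχ n).2.2 y' y)).1]
  refine ⟨Ψ, ζ, LipschitzWith.of_dist_le_mul fun y y' => ?_, fun i => ?_,
    fun y hy => a1 y fun n _ hn => (hy n).not_gt hn, hd, fun n k => ⟨z3 n k, z4 n k⟩, e⟩
  · rw [NNReal.coe_ofNat]
    by_cases h1 : ∃ n, y ∈ Z n ∧ y' ∈ Z n
    · obtain ⟨n, h2, h3⟩ := h1
      have h4 := (f0 n).dist_le_mul y y'
      rw [NNReal.coe_ofNat] at h4
      rw [a2 n (Finset.mem_univ n) y h2, a2 n (Finset.mem_univ n) y' h3]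
      linarith [dist_nonneg (x := y) (y := y')]
    · have h2 := key y y' fun n h2 h3 => h1 ⟨n, h2, h3⟩
      have h3 := key y' y fun n h3 h2 => h1 ⟨n, h2, h3⟩
      rw [dist_comm y' y, dist_comm] at h3
      linarith [dist_triangle4 (Ψ.toFun y) y y' (Ψ.toFun y')]
  · have m : ∀ y ∈ closedBall (c i) (r i), ∀ k, y k ∈ Icc (c i k - r i) (c i k + r i) :=
      fun y hy k => by
        rw [← Real.closedBall_eq_Icc]
        exact (dist_le_pi_dist y (c i) k).trans hy
    refine LipschitzOnWith.of_dist_le_mul fun y hy y' hy' =>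
      (dist_pi_le_iff (by positivity)).2 fun k => ?_
    rw [e _ y (hbig i y hy), e _ y' (hbig i y' hy')]
    exact ((z6 (a i) k i (by simp)).dist_le_mul _ (m y hy k) _ (m y' hy' k)).trans
      (mul_le_mul_of_nonneg_left (dist_le_pi_dist y y' k) σ.coe_nonneg)

end P073.P2
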