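import Vale.Agent.P073Y.P2.Sk

/-!
# The surgery of the sheets, half lines
-/

open Set Metric Topology Filter

namespace P073.P2

open P073.Zn P073.Sg

namespace C1

variable {D : Dt} {ι : Type} [Fintype ι] {cl y : ι → E3} {ρ ρ' : ι → ℝ}

theorem num (h : D.Ok) : 8 * D.h ≤ D.a ∧ D.a ≤ D.ε ∧ 0 < D.ε ∧ 0 < D.ω := by
  have h1 : (8 : ℝ) ≤ D.n := by exact_mod_cast h.n_ge
  have h2 : 8 * D.h ≤ D.a := h.a_eq ▸ mul_le_mul_of_nonneg_right h1 h.h_pos.le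
  have h3 : D.a ≤ D.ε :=
    (le_mul_of_one_le_left (by linarith [h.h_pos]) h.b_ge).trans h.a_le
  exact ⟨h2, h3, by linarith [h.h_pos], by linarith [h.h_pos, h.ω_ge]⟩

theorem cptK (h : D.Ok) : IsCompact (D.f '' D.K) :=
  h.cpt.image_of_continuousOn (h.hom.cont.mono h.sub)

theorem memN {t : ℝ} {v u : E3} (hu : u ∈ D.K) (h : dist v (D.f u) ≤ t * D.ω) : v ∈ D.N t :=
  mem_cthickening_of_dist_le v _ _ _ (mem_image_of_mem _ hu) h

theorem ofN (h : D.Ok) {t : ℝ} (ht : 0 ≤ t) {v : E3} (hv : v ∈ D.N t) :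
    ∃ u ∈ D.K, dist v (D.f u) ≤ t * D.ω := by
  rw [Dt.N, (cptK h).cthickening_eq_biUnion_closedBall (mul_nonneg ht (num h).2.2.2.le)] at hv
  obtain ⟨_, ⟨u, hu, rfl⟩, h1⟩ := mem_iUnion₂.1 hv
  exact ⟨u, hu, h1⟩

theorem fwdK (h : D.Ok) {u x : E3} (hu : u ∈ D.K) (hx : dist x u ≤ 2 * D.r) :
    x ∈ D.Ω ∧ dist (D.f x) (D.f u) ≤ D.ω / 10 :=
  h.fwd u (h.sub hu) (memN hu (by rw [dist_self]; linarith [(num h).2.2.2])) x hx

/-- the balls are small and close to the image of the compact set -/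
theorem ball_near (h : D.Ok) (hB : D.Bls cl y ρ ρ') (j : ι) :
    ρ' j ≤ D.ε ∧ ∃ u ∈ D.K, dist (y j) (D.f u) ≤ D.ω / 2 := by
  have h1 : ρ j ≤ D.ε / 2 :=
    (Finset.single_le_sum (fun i _ => (hB.rad i).1.le) (by simp)).trans (hB.sum (cl j))
  obtain ⟨x, h2, h3, -⟩ := hB.near j
  obtain ⟨u, h4, h5, -⟩ := h.base _ (hB.mem j)
  have h6 := dist_triangle_right x u (cl j)
  have h7 := (fwdK h h4 (x := x) (by linarith [mem_closedBall.1 h2, h.R_le, h.a_r, num h, h.h_pos])).2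
  refine ⟨by linarith [(hB.rad j).2.2], u, h4, ?_⟩
  linarith [dist_triangle_left (y j) (D.f u) (D.f x), h.ω_ge, num h]

/-- the half line -/
theorem line (G : GEO1) (H : HALF) (h : D.Ok) {g : E3 → E3} {e : ℝ} (he : e ≤ D.ε)
    (hg : ∀ x ∈ D.Ω, dist (g x) (D.f x) ≤ e) {x : E3} (hx : x ∈ D.Ω) {i : Fin 3}
    (hi : ∃ k, k ≠ i ∧ ∃ l : ℤ, x k = D.w k + l * D.a) (p : E3) :
    ∃ z, segment ℝ x z ⊆ D.Pr ∧ g z ∉ D.N 2 ∧ ∀ v ∈ segment ℝ x z,
      ∃ t : ℝ, v = x + t • ev i ∧ |t| ≤ dist v p ∧ dist x p ≤ dist v p := by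
  obtain ⟨n1, n2, n3, n4⟩ := num h
  have h1 : D.N 3 ⊆ D.Λ := (cthickening_mono (by linarith) _).trans h.thick
  obtain ⟨T, h2, h3, h4⟩ := H h.oΩ (((cptK h).cthickening).image_of_continuousOn
    (h.hom.cont_inv.mono h1)) (image_subset_iff.2 fun v hv => h.hom.mapsTo_inv (h1 hv)) x hx i p
  refine ⟨_, fun v hv => ?_, fun h5 => h3 ?_, h4⟩
  · obtain ⟨k, h5, l, h6⟩ := hi
    obtain ⟨t, h7, -⟩ := h4 v hv
    obtain ⟨h8, h9⟩ := (G D.w h.h_pos n1).2.2.2.2.2 D.Ω D.𝓩 v (h2 hv)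
    refine h9 (h8 (Or.inr (Or.inl ⟨k, l, ?_⟩))) v (h2 hv) (by rw [dist_self]; linarith [h.h_pos])
    rw [h7, ← h6]
    simp [ev, h5]
  · have h6 := h2 (right_mem_segment ℝ _ _)
    obtain ⟨u, h7, h8⟩ := ofN h zero_le_two h5
    refine ⟨_, memN h7 ?_, h.hom.left_inv h6⟩
    linarith [dist_triangle_left (D.f (x + T • ev i)) (D.f u) (g (x + T • ev i)), hg _ h6, h.ω_ge]

end C1

open C1

theorem away_of (G : GEO1) (H : HALF) : AWAY := by
  intro D ι _ cl y ρ ρ' g g' e h hB hS x x' i j hx hi hj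
  obtain ⟨n1, n2, n3, n4⟩ := num h
  obtain ⟨b1, u, b2, b3⟩ := ball_near h hB j
  refine ⟨memN b2 (by linarith), fun p => ?_⟩
  obtain ⟨z, h1, h2, h3⟩ := line G H h hS.le hS.near (hx (right_mem_segment ℝ _ _)).1 hi p
  have h4 := union_subset hx h1
  rcases hS.con _ h4 ((convex_segment x x').isPreconnected.union x' (right_mem_segment ℝ _ _)
    (left_mem_segment ℝ _ _) (convex_segment x' z).isPreconnected) j
    ⟨_, ⟨x, Or.inl (left_mem_segment ℝ _ _), rfl⟩, hj⟩ with ⟨_, ⟨v, h5, rfl⟩, h6⟩ | h5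
  · refine ⟨v, (h4 h5).1, ?_, h5.imp_right (h3 v)⟩
    linarith [dist_triangle_left (D.f v) (y j) (g v), hS.near v (h4 h5).1, mem_ball.1 h6, hS.le]
  · have h6 := h5 ⟨z, Or.inr (right_mem_segment ℝ _ _), rfl⟩
    rw [hS.off z (h1 (right_mem_segment ℝ _ _)).1 h2, mem_ball] at h6
    exact (h2 (memN b2 (by linarith [dist_triangle (g z) (y j) (D.f u), h.ω_ge]))).elim

theorem cut1_of (hS : SHEET) (G : GEO1) (G' : GEO2) (H : HALF) (hB : Sg.SURGB) : CUT1 := by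
  intro D ι _ cl y ρ ρ' h B hg e₀ he₀
  obtain ⟨n1, n2, n3, n4⟩ := num h
  have n5 := h.h_pos
  have n6 := h.ω_ge
  have n7 := h.R_le
  have n8 := h.a_r
  obtain ⟨g1, -, -, g2, -⟩ := G D.w n5 n1
  have hr : ∀ z i, sheet D.a D.h D.w z i ⊆ rcube D.a D.w z := fun z i =>
    (g1 z i).1.trans ((g1 z i).2.1.trans interior_subset)
  have hfin : Finite D.𝓩 := (g2 _ ((Bornology.isBounded_biUnion_finset D.𝒬).2
    fun q _ => isBounded_closedBall (x := q) (r := D.R))).subset fun z ⟨q, h1, h2⟩ =>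
      let ⟨x, hx⟩ := (g1 z 0).2.2.2.1
      ⟨x, hr z 0 hx.1, mem_iUnion₂.2 ⟨q, h1, h2 (hr z 0 hx.1)⟩⟩
  have hu : ∀ z : D.𝓩, ∃ u ∈ D.K, ∀ x ∈ rcube D.a D.w z, dist x u ≤ D.r := fun ⟨z, q, h1, h2⟩ =>
    let ⟨u, h3, h4, _⟩ := h.base q h1
    ⟨u, h3, fun x hx => by linarith [dist_triangle_right x u q, mem_closedBall.1 (h2 hx)]⟩
  choose u u1 u2 using hu
  obtain ⟨e, e0, ⟨e1, e2⟩, e3⟩ := (((eventually_le_nhds he₀).and (eventually_le_nhds n3)).and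
    (eventually_all.2 fun j => eventually_le_nhds (half_pos (sub_pos.2 (B.rad j).2.1)))).exists_gt
  obtain ⟨g, hg⟩ := hg e e0
  have hO : ∀ z, ball (D.f (u z)) (2 * D.ω) ⊆ D.N 2 := fun z v hv => memN (u1 z) (mem_ball.1 hv).le
  obtain ⟨X, x1, x2, x3, x4⟩ := hS D.w D.𝓩 (fun j => ball (y j) (ρ' j))
    (fun k => ball (D.f (u k.1)) (2 * D.ω)) h.oΩ h.oΛ n5 n1
    (fun z hz x hx => (fwdK h (u1 ⟨z, hz⟩) (by linarith [u2 ⟨z, hz⟩ x hx])).1)
    (fun j => ⟨isOpen_ball, convex_ball _ _⟩) B.disj fun k => ⟨isOpen_ball, convex_ball _ _,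
      (hO _).trans ((cthickening_mono (by linarith) _).trans h.thick)⟩
  have x5 : X.Pr = D.Pr := x1
  have x6 : ∀ k, X.O k ⊆ D.N 2 := fun k => x3 ▸ hO k.1
  have near : ∀ z v, dist v (u z) ≤ 2 * D.r → dist (g.toFun v) (D.f (u z)) ≤ D.ω / 2 := fun z v hv => by
    obtain ⟨h1, h2⟩ := fwdK h (u1 z) hv
    linarith [dist_triangle (g.toFun v) (D.f v) (D.f (u z)), hg v h1]
  obtain ⟨g', R, hR⟩ := hB X g y (fun j => (ρ j + ρ' j) / 2) ρ'
    (fun j => ⟨by linarith [B.rad j], by linarith [B.rad j], by rw [x2]⟩) (fun k => by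
      rw [x3, (x4 k).1]
      rintro _ ⟨x, hx, rfl⟩
      exact (near _ x (by linarith [u2 _ x (hr _ _ hx)])).trans_lt (by linarith)) fun k j => by
    refine or_iff_not_imp_left.2 fun h1 => ?_
    rw [x2, x3] at h1
    obtain ⟨v₀, h2, h3⟩ := not_subset.1 h1
    rw [mem_ball] at h2 h3
    obtain ⟨b1, u', b2, b3⟩ := ball_near h B j
    have b4 : y j ∈ D.N 4 := memN b2 (by linarith)
    obtain ⟨x, hx⟩ := (g1 k.1 k.2).2.2.2.1
    obtain ⟨x', i, h4, h5, h6⟩ := (G' D.w n5 n1).1 _ _ x hx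
    have h7 := u2 _ x (hr _ _ hx.1)
    have h8 : ∀ v ∈ segment ℝ x x', dist v (u k.1) ≤ D.r + 2 * D.h := fun v hv => by
      linarith [dist_add_dist_of_mem_segment hv, dist_triangle_left v (u k.1) x,
        dist_nonneg (x := v) (y := x')]
    have h9 : segment ℝ x x' ⊆ D.Pr := fun v hv =>
      ⟨(fwdK h (u1 _) (by linarith [h8 v hv])).1, fun z _ j => h6 v hv z j⟩
    obtain ⟨z, k1, k2, k3⟩ := line G H h e2 hg (h9 (right_mem_segment ℝ _ _)).1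
      ((exists_ne i).imp fun l hl => ⟨hl, h4 l hl⟩) (D.f' (y j))
    refine ⟨X.D k ∪ (segment ℝ x x' ∪ segment ℝ x' z), union_subset (X.disc k).2
      (x5 ▸ union_subset h9 k1), IsPreconnected.union x ((x4 k).1 ▸ hx.1)
      (Or.inl (left_mem_segment ℝ _ _)) ((x4 k).1 ▸ (g1 _ _).2.2.1.isPreconnected)
      ((convex_segment x x').isPreconnected.union x' (right_mem_segment ℝ _ _)
        (left_mem_segment ℝ _ _) (convex_segment x' z).isPreconnected), subset_union_left, ?_,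
      z, Or.inr (Or.inr (right_mem_segment ℝ _ _)), fun k' hk => k2 (x6 k' hk)⟩
    rw [x2, disjoint_left]
    rintro _ ⟨v, hv, rfl⟩ k4
    rw [mem_ball] at k4
    have k5 := dist_triangle v₀ (y j) (D.f (u k.1))
    have k6 := dist_triangle_left (y j) (D.f (u k.1)) (g.toFun v)
    rcases hv with hv | hv | hv
    · linarith [near _ v (by linarith [u2 _ v (hr _ _ ((x4 k).1 ▸ hv))])]
    · linarith [near _ v (by linarith [h8 v hv])]
    · have k7 := dist_triangle_left (D.f v) (y j) (g.toFun v)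
      have k8 := hg v (k1 hv).1
      have k9 := h.inv _ (memN b2 (by linarith [dist_triangle (D.f v) (y j) (D.f u')])) _ b4
        (show dist (D.f v) (y j) ≤ _ by linarith)
      rw [h.hom.left_inv (k1 hv).1] at k9
      obtain ⟨-, -, -, l1⟩ := k3 v hv
      have l2 := (fwdK h (u1 k.1) (x := D.f' (y j)) (by
        linarith [h8 _ (right_mem_segment ℝ _ _), dist_triangle_left (D.f' (y j)) (u k.1) x'])).2
      rw [h.hom.right_inv (h.thick b4)] at l2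
      linarith
  refine ⟨g, g', e, e1, e2, hg, fun x hx h1 => R.off x hx fun k hk => h1 (x6 k hk),
    fun x hx => by simpa only [x2] using R.fix x (x5 ▸ hx),
    fun c hc h1 j => by simpa only [x2] using R.con c (x5 ▸ hc) h1 j, fun q hq z hz i x hx => ?_⟩
  obtain ⟨h1, h2⟩ := x4 (⟨z, q, hq, hz⟩, i)
  refine (hR _ x (h1 ▸ hx)).imp (fun h3 => by simpa only [x2] using h3)
    fun ⟨Z, h3, h4, h5, h6, h7⟩ => B.loop q hq z hz i Z (h1 ▸ h3) h4 (h2 ▸ h6) (fun j => ?_) x h5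
  rw [disjoint_left]
  rintro _ ⟨v, hv, rfl⟩ h8
  refine disjoint_left.1 (h7 j) ⟨v, hv, rfl⟩ (mem_closedBall.2 ?_)
  linarith [dist_triangle (g.toFun v) (D.f v) (y j), hg v (X.sub ((X.disc _).2 (h3 hv))),
    mem_closedBall.1 h8, e3 j]

end P073.P2
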