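import Vale.Agent.P073Y.P2.Sk

/-!
# The result of the surgery is close to the affine maps and to the PL map
-/

open Set Metric Topology Filter MeasureTheory
open scoped NNReal ENNReal

namespace P073.P2

open P073.Zn P073.Gc

namespace C2

variable {D : Dt} {ι : Type} [Fintype ι] {cl y : ι → E3} {ρ ρ' : ι → ℝ} {q x u : E3} {j : ι}

theorem num (ok : D.Ok) : 0 < D.h ∧ 8 * D.h ≤ D.a ∧ D.a ≤ D.b * D.a ∧ D.b * D.a ≤ D.ε ∧
    8 * (D.b * D.h) ≤ D.ε ∧ D.ε ≤ D.b ^ 2 * D.ε := by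
  have h0 := ok.h_pos
  have h1 : (8:ℝ) ≤ D.n := by exact_mod_cast ok.n_ge
  have h2 : 8 * D.h ≤ D.a := ok.a_eq ▸ mul_le_mul_of_nonneg_right h1 h0.le
  have h3 := ok.b_ge
  have h4 : D.a ≤ D.b * D.a := le_mul_of_one_le_left (by linarith) h3
  have h5 := ok.a_le
  exact ⟨h0, h2, h4, h5, by nlinarith, le_mul_of_one_le_left (by linarith) (one_le_pow₀ h3)⟩

theorem rad_le (B : D.Bls cl y ρ ρ') (j : ι) : ρ' j ≤ D.ε := by
  classical
  have h := (Finset.single_le_sum (f := ρ) (s := Finset.univ.filter fun i => cl i = cl j)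
    (fun i _ => (B.rad i).1.le) (Finset.mem_filter.2 ⟨Finset.mem_univ j, rfl⟩))
  have h' := B.sum (cl j)
  rw [Finset.filter_congr_decidable] at h'
  linarith [(B.rad j).2.2]

theorem mem_Ω (ok : D.Ok) (hq : q ∈ D.𝒬) (hx : dist x q ≤ D.R + D.a) : x ∈ D.Ω := by
  obtain ⟨v, h1, h2, -⟩ := ok.base q hq
  exact (ok.fwd v (ok.sub h1) (self_subset_cthickening _ ⟨v, h1, rfl⟩) x (by
    linarith [ok.R_le, ok.a_r, dist_triangle_right x v q])).1

theorem mem_N (ok : D.Ok) {s : ℝ} {z z' : E3} (hs : 0 ≤ s) (hs' : s ≤ 3) (hz : z ∈ D.N s)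
    (h : dist z' z ≤ 2 * D.ε) : z' ∈ D.N 4 := by
  obtain ⟨n0, n1, n2, n3, -⟩ := num ok
  have h1 := ok.ω_ge
  exact cthickening_mono (by nlinarith) _ (cthickening_cthickening_subset
    (show 0 ≤ 2 * D.ε by linarith) (show 0 ≤ s * D.ω by nlinarith) _
      (mem_cthickening_of_dist_le _ _ _ _ hz h))

theorem back (ok : D.Ok) {z : E3} (hz : z ∈ D.N 1) (hu : u ∈ D.Ω) (h : dist (D.f u) z ≤ 2 * D.ε) :
    dist u (D.f' z) ≤ D.r / 2 := by
  obtain ⟨n0, n1, n2, n3, -⟩ := num ok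
  have h1 := ok.inv _ (mem_N ok zero_le_one (by norm_num) hz h) z
    (mem_N ok zero_le_one (by norm_num) hz (by rw [dist_self]; linarith)) (by linarith)
  rwa [ok.hom.left_inv hu] at h1

theorem dist_ev (x : E3) (t : ℝ) (i : Fin 3) : dist (x + t • ev i) x = |t| := by
  rw [dist_self_add_left, norm_smul, ev, Pi.norm_single, norm_one, mul_one, Real.norm_eq_abs]

theorem seg_le {x' : E3} (hu : u ∈ segment ℝ x x') : dist u x ≤ dist x x' := by
  linarith [dist_add_dist_of_mem_segment hu, dist_comm u x, dist_nonneg (x := u) (y := x')]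

theorem homeo {Ω Λ : Set E3} (g : ConHomeo Ω Λ) : HomeoOn g.toFun g.invFun Ω Λ :=
  ⟨g.mapsTo, g.mapsTo_inv, g.left_inv, g.right_inv, g.cont, g.cont_inv⟩

end C2

open C2

theorem cut2_of (hA : AWAY) (hR : ROOM) : CUT2 := by
  intro D ι _ cl y ρ ρ' g g' e ok B S q hq x hx ⟨x', i, g1, g2, g3⟩
  obtain ⟨n0, n1, n2, n3, n4, n5⟩ := num ok
  obtain ⟨r1, r2, -⟩ := hR (D.c q) q ok.b_ge (ok.bil q hq)
  have b0 : 0 < D.b := one_pos.trans_le ok.b_ge
  rw [mem_closedBall] at hx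
  have s1 : segment ℝ x x' ⊆ D.Pr := fun u hu => ⟨mem_Ω ok hq (by
    linarith [seg_le hu, dist_triangle u x q]), fun z _ => g3 u hu z⟩
  have x1 : x' ∈ closedBall q (D.R + D.a) :=
    mem_closedBall.2 (by linarith [dist_triangle_left x' q x])
  have a1 : dist (D.α q x') (D.α q x) ≤ D.b * (2 * D.h) :=
    (r2 x' x).1.trans (mul_le_mul_of_nonneg_left (dist_comm x x' ▸ g2) b0.le)
  have a2 : dist (D.f x) (D.α q x) ≤ 3 * D.ε := by
    have h1 := ok.ray q hq i x' x1 g1 0 (by rw [abs_zero]; linarith [ok.a_r])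
    rw [zero_smul, add_zero, abs_zero, zero_div, add_zero] at h1
    linarith [ok.mod q hq x hx x' (by linarith [dist_comm x x']),
      dist_triangle4 (D.f x) (D.f x') (D.α q x') (D.α q x), dist_comm (D.f x) (D.f x')]
  rcases S.fix x (s1 (left_mem_segment _ _ _)) with h | ⟨j, hj⟩
  · rw [h]
    linarith [S.near x (s1 (left_mem_segment _ _ _)).1, S.le,
      dist_triangle (g x) (D.f x) (D.α q x)]
  obtain ⟨k, hk⟩ := exists_ne i
  obtain ⟨y1, H⟩ := hA D ok B S x x' i j s1 ⟨k, hk, g1 k hk⟩ hj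
  have a3 := (mem_ball.1 hj).le.trans (rad_le B j)
  have a4 : ∀ u ∈ segment ℝ x x', dist (D.f u) (y j) ≤ 2 * D.ε →
      dist (g' x) (D.α q x) ≤ 8 * D.b ^ 2 * D.ε := fun u hu h => by
    linarith [ok.mod q hq x hx u (by linarith [seg_le hu]), dist_comm (D.f u) (y j),
      dist_triangle4 (g' x) (y j) (D.f u) (D.f x), dist_triangle (g' x) (D.f x) (D.α q x)]
  obtain ⟨u₁, u1, u2, h | ⟨-, -, -, u3⟩⟩ := H (D.f' (y j))
  · exact a4 u₁ h u2
  obtain ⟨p, hp⟩ := r1 (y j)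
  obtain ⟨u, v1, v2, h | ⟨t, rfl, v3, v4⟩⟩ := H p
  · exact a4 u h v2
  have a5 := ok.ray q hq i x' x1 g1 t (by
    linarith [dist_ev x' t i, back ok y1 u1 u2, back ok y1 v1 v2,
      dist_triangle_right (x' + t • ev i) x' (D.f' (y j))])
  have a6 := (r2 (x' + t • ev i) p).2
  have a7 := (r2 x' p).1
  rw [hp] at a6 a7
  have a8 : D.b * (|t| / (4 * D.b)) = |t| / 4 := by field_simp
  have a9 : dist x' p ≤ 4 * D.b * D.ε := by
    have h1 := mul_le_mul_of_nonneg_left (show dist (D.α q (x' + t • ev i)) (y j) ≤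
      3 * D.ε + |t| / (4 * D.b) by
        linarith [dist_triangle_left (D.α q (x' + t • ev i)) (y j) (D.f (x' + t • ev i))]) b0.le
    change _ ≤ D.b * dist (D.α q _) _ at a6
    linarith
  change dist (D.α q _) _ ≤ _ at a7
  linarith [mul_le_mul_of_nonneg_left a9 b0.le, dist_comm (y j) (D.α q x'),
    dist_triangle4 (g' x) (y j) (D.α q x') (D.α q x)]

theorem cut3_of (h1 : GEO1) (h2 : GEO2) (hM : MAXP) (hR : ROOM) (hC : CUT2) : CUT3 := by
  intro D ι _ cl y ρ ρ' g g' e ok B S q hq x hx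
  obtain ⟨n0, n1, n2, n3, n4, n5⟩ := num ok
  obtain ⟨-, r2, -⟩ := hR (D.c q) q ok.b_ge (ok.bil q hq)
  obtain ⟨G1, G2, -⟩ := h1 D.w n0 n1
  obtain ⟨G3, G4, G5⟩ := h2 D.w n0 n1
  have b0 : 0 < D.b := one_pos.trans_le ok.b_ge
  rw [mem_closedBall] at hx
  have al : ∀ u v, dist u v ≤ D.a → dist (D.α q u) (D.α q v) ≤ D.ε := fun u v h =>
    ((r2 u v).1.trans (mul_le_mul_of_nonneg_left h b0.le)).trans n3
  have sh : ∀ z i, ∀ u ∈ sheet D.a D.h D.w z i, dist u q ≤ D.R - D.a →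
      dist (g'.toFun u) (D.α q u) ≤ 12 * D.b ^ 2 * D.ε := fun z i u hu hd => by
    obtain ⟨a1, a2, a3, ⟨u₀, a4⟩, a5⟩ := G1 z i
    have a6 : ∀ v ∈ sheet D.a D.h D.w z i, dist v u ≤ D.a := fun v hv =>
      (G2 z).2.2.2 u (interior_subset (a2 (a1 hu))) (interior_subset (a2 (a1 hv)))
    have a7 : rcube D.a D.w z ⊆ closedBall q D.R :=
      ((G2 z).2.2.2 u (interior_subset (a2 (a1 hu)))).trans
        (closedBall_subset_closedBall' (by linarith))
    have a8 : sheet D.a D.h D.w z i ⊆ D.Pr := fun v hv =>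
      ⟨mem_Ω ok hq (by linarith [a6 v hv, dist_triangle v u q]), fun z' _ => a5 v hv z'⟩
    have a9 : ∀ v ∈ sheet D.a D.h D.w z i, (∀ j, g'.toFun v ∉ ball (y j) (ρ' j)) →
        dist (g'.toFun v) (D.α q v) ≤ 9 * D.ε := fun v hv h => by
      rw [(S.fix v (a8 hv)).resolve_right fun ⟨j, hj⟩ => h j hj]
      linarith [(S.sheet q hq z a7 i v hv).resolve_left fun ⟨j, hj⟩ => h j hj, S.le,
        S.near v (a8 hv).1, dist_triangle (g.toFun v) (D.f v) (D.α q v)]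
    by_cases b1 : ∀ j, g'.toFun u ∉ ball (y j) (ρ' j)
    · linarith [a9 u hu b1]
    push Not at b1
    obtain ⟨j, hj⟩ := b1
    rw [mem_ball] at hj
    have b2 := rad_le B j
    have b3 : ∀ v ∈ sheet D.a D.h D.w z i, dist (g'.toFun v) (y j) ≤ ρ' j →
        dist (g'.toFun u) (D.α q u) ≤ dist (g'.toFun v) (D.α q v) + 3 * D.ε := fun v hv h => by
      linarith [al v u (a6 v hv), dist_triangle_right (g'.toFun u) (g'.toFun v) (y j),
        dist_triangle4 (g'.toFun u) (g'.toFun v) (D.α q v) (D.α q u)]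
    rcases le_total (dist (g'.toFun u₀) (y j)) (ρ' j) with b4 | b4
    · linarith [b3 u₀ a4.1 b4, hC D ok B S q hq u₀
        (a7 (interior_subset (a2 (a1 a4.1)))) (G3 z i u₀ a4)]
    obtain ⟨v, b5, b6⟩ := a3.isPreconnected.intermediate_value hu a4.1
      (f := fun v => dist (g'.toFun v) (y j))
      (continuous_dist.comp_continuousOn
        ((g'.cont.mono fun v hv => (a8 hv).1).prodMk continuousOn_const)) ⟨hj.le, b4⟩
    have b7 : dist (g'.toFun v) (y j) = ρ' j := b6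
    suffices b8 : ∀ j', g'.toFun v ∉ ball (y j') (ρ' j') by linarith [b3 v b5 b7.le, a9 v b5 b8]
    intro j' b8
    rcases eq_or_ne j j' with rfl | b9
    · exact b7.not_lt b8
    · refine disjoint_left.1 ((B.disj j j' b9).closure_left isOpen_ball) ?_ b8
      rw [closure_ball _ ((B.rad j).1.trans (B.rad j).2.1).ne']
      exact b7.le
  obtain ⟨z, hz⟩ := G4 x
  have c1 : ∀ v ∈ scube D.a D.h D.w z, dist v x ≤ D.a := fun v hv =>
    (dist_pi_le_iff (by linarith)).2 fun i => abs_sub_le_iff.2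
      ⟨by linarith [hv.2 i, hz.1 i], by linarith [hv.1 i, hz.2 i]⟩
  refine hM _ _ ok.oΩ ok.oΛ (homeo g') isCompact_Icc (fun v hv => mem_Ω ok hq (by
    linarith [c1 v hv, dist_triangle v x q])) (fun v hv => ?_) x hz
  have c2 := c1 v (isClosed_Icc.frontier_subset hv)
  have c3 : dist v q ≤ D.R - D.a := by linarith [dist_triangle v x q]
  have c4 := dist_triangle (g'.toFun v) (D.α q v) (D.α q x)
  rcases G5 z v hv with c5 | ⟨z', i, c5⟩
  · linarith [hC D ok B S q hq v (mem_closedBall.2 (by linarith)) c5, al v x c2]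
  · linarith [sh z' i v c5 c3, al v x c2]

theorem cut4_of (h1 : GEO1) (hM : MAXP) (hA : AWAY) : CUT4 := by
  intro D ι _ cl y ρ ρ' g g' e ok B S x hx
  obtain ⟨n0, n1, n2, n3, -⟩ := num ok
  obtain ⟨-, G2, G3, -, -, G6⟩ := h1 D.w n0 n1
  have w0 := ok.ω_ge
  have w1 := ok.a_r
  have w2 := (S.near x hx).trans S.le
  by_cases h : g.toFun x ∈ D.N 2
  swap
  · rw [S.off x hx h, dist_self]
    linarith
  obtain ⟨z, hz⟩ := G3 x
  have a1 := ok.fwd x hx (mem_N ok zero_le_two (by norm_num) h (by rw [dist_comm]; linarith))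
  have a2 : ∀ v ∈ rcube D.a D.w z, dist v x ≤ D.a := (G2 z).2.2.2 x hz
  have a3 := hM (D.f x) (3 * D.ε + D.ω / 10) ok.oΩ ok.oΛ (homeo g') (G2 z).2.1
    (fun v hv => (a1 v (by linarith [a2 v hv])).1) (fun v hv => ?_) x hz
  · linarith [dist_triangle_right (g'.toFun x) (g.toFun x) (D.f x)]
  have b1 := a2 v ((G2 z).2.1.isClosed.frontier_subset hv)
  obtain ⟨b2, b3⟩ := a1 v (by linarith)
  have b4 := (G2 z).2.2.1 hv
  have b5 : v ∈ D.Pr := (G6 D.Ω D.𝓩 v b2).2 ((G6 D.Ω D.𝓩 v b2).1 (Or.inr (Or.inl b4))) v b2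
    (by rw [dist_self]; linarith)
  rcases S.fix v b5 with b6 | ⟨j, hj⟩
  · rw [b6]
    linarith [S.near v b2, S.le, dist_triangle (g.toFun v) (D.f v) (D.f x)]
  obtain ⟨k, hk⟩ := b4
  obtain ⟨i, hi⟩ := exists_ne k
  obtain ⟨y1, H⟩ := hA D ok B S v v i j (by rw [segment_same]; exact singleton_subset_iff.2 b5)
    ⟨k, hi.symm, hk⟩ hj
  obtain ⟨u, u1, u2, u3⟩ := H (D.f' (y j))
  have b7 : dist u v ≤ D.r := by
    rcases u3 with u3 | ⟨-, -, -, u3⟩
    · linarith [seg_le u3, dist_self v]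
    · linarith [back ok y1 u1 u2, dist_triangle_right u v (D.f' (y j))]
  linarith [(a1 u (by linarith [dist_triangle u v x])).2, mem_ball.1 hj, rad_le B j,
    dist_triangle4 (g'.toFun v) (y j) (D.f u) (D.f x), dist_comm (y j) (D.f u)]

end P073.P2
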