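import Vale.Agent.P073Y.P2.Sk

/-!
# The change of the target and the modified map for a fixed shift
-/

open Set Metric Topology Filter MeasureTheory
open scoped NNReal ENNReal

namespace P073.P2

open P073.Zn P073.Gc P073.Sg
open An (M3)

namespace DetH

variable {D : Dt}

theorem pos (h : D.Ok) : 8 * D.h ≤ D.a ∧ D.a ≤ D.ε ∧ 0 < D.ε ∧ D.ε ≤ D.b * D.ε ∧
    D.b * D.ε ≤ D.b ^ 2 * D.ε ∧ D.b ^ 2 * D.ε ≤ D.b ^ 3 * D.ε := by
  have h0 := h.h_pos
  have h1 := h.b_ge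
  have h2 : (8 : ℝ) ≤ D.n := by exact_mod_cast h.n_ge
  have h3 : 8 * D.h ≤ D.a := by rw [h.a_eq]; nlinarith
  have h4 : D.a ≤ D.ε := le_trans (by nlinarith) h.a_le
  have h5 : 0 < D.ε := by linarith
  have h6 : D.ε ≤ D.b * D.ε := by nlinarith
  have h7 : D.b * D.ε ≤ D.b ^ 2 * D.ε := by nlinarith
  exact ⟨h3, h4, h5, h6, h7, by nlinarith⟩

theorem cptK (h : D.Ok) : IsCompact (D.f '' D.K) :=
  h.cpt.image_of_continuousOn (h.hom.cont.mono h.sub)

theorem mem_N (h : D.Ok) {t : ℝ} (ht : 0 ≤ t) {v : E3} :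
    v ∈ D.N t ↔ ∃ u ∈ D.K, dist v (D.f u) ≤ t * D.ω := by
  have h1 := (pos h).2.2.1
  rw [Dt.N, (cptK h).cthickening_eq_biUnion_closedBall (mul_nonneg ht (by linarith [h.ω_ge]))]
  simp only [mem_iUnion, mem_image, mem_closedBall, exists_prop, exists_exists_and_eq_and]

theorem N_mono (h : D.Ok) {s t : ℝ} (hst : s ≤ t) : D.N s ⊆ D.N t :=
  cthickening_mono (mul_le_mul_of_nonneg_right hst (by linarith [h.ω_ge, (pos h).2.2.1])) _

/-- the cubes lie in the source, their images near the image of the compact set -/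
theorem cube (h : D.Ok) {q x : E3} (hq : q ∈ D.𝒬) (hx : x ∈ closedBall q D.R) :
    x ∈ D.Ω ∧ D.f x ∈ D.N 1 := by
  obtain ⟨u, hu, h1, -⟩ := h.base q hq
  obtain ⟨p1, p2, p3, -⟩ := pos h
  have h0 := h.ω_ge
  obtain ⟨h2, h3⟩ := h.fwd u (h.sub hu) ((mem_N h (by norm_num)).2
    ⟨u, hu, by rw [dist_self]; linarith⟩) x (by
      linarith [dist_triangle x q u, dist_comm u q, mem_closedBall.1 hx, h.R_le, h.a_r, h.h_pos])
  exact ⟨h2, (mem_N h zero_le_one).2 ⟨u, hu, by linarith⟩⟩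

theorem af_lip (h : D.Ok) {q : E3} (hq : q ∈ D.𝒬) (x y : E3) :
    dist (D.α q x) (D.α q y) ≤ D.b * dist x y := by
  rw [Dt.α, af, af, dist_add_left, dist_eq_norm, dist_eq_norm, ← map_sub]
  exact ((D.A q).le_opNorm _).trans (mul_le_mul_of_nonneg_right (h.bil q hq).1 (norm_nonneg _))

theorem var_add (f g : ℝ → E3) (s : Set ℝ) :
    eVariationOn (fun t => f t + g t) s ≤ eVariationOn f s + eVariationOn g s := by
  refine iSup_le fun ⟨n, u, hu, us⟩ => ?_
  refine le_trans (Finset.sum_le_sum fun i _ => edist_add_add_le _ _ _ _) ?_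
  rw [Finset.sum_add_distrib]
  exact add_le_add (eVariationOn.sum_le hu us) (eVariationOn.sum_le hu us)

theorem var_lin (p v : E3) :
    eVariationOn (fun t : ℝ => p + t • v) (Icc 0 1) ≤ ENNReal.ofReal ‖v‖ := by
  have h1 : LipschitzWith ‖v‖₊ fun t : ℝ => p + t • v := LipschitzWith.of_dist_le_mul fun s t => by
    rw [dist_add_left, dist_eq_norm, ← sub_smul, norm_smul, mul_comm, dist_eq_norm, coe_nnnorm]
  have h2 := h1.lipschitzOnWith.comp_eVariationOn_le (g := id) (mapsTo_univ _ (Icc (0 : ℝ) 1))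
  rwa [eVariationOn_id_Icc, sub_zero, ENNReal.ofReal_one, mul_one,
    ← ENNReal.ofReal_coe_nnreal] at h2

theorem line_mem (x y : E3) {t : ℝ} (ht : t ∈ Icc (0 : ℝ) 1) :
    AffineMap.lineMap x y t ∈ segment ℝ x y := by
  rw [segment_eq_image_lineMap]
  exact mem_image_of_mem _ ht

theorem af_line (c : E3) (A : M3) (x y : E3) (t : ℝ) :
    af c A (AffineMap.lineMap x y t) = af c A x + t • A (y - x) := by
  rw [af, af, AffineMap.lineMap_apply, vsub_eq_sub, vadd_eq_add, map_add, map_smul]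
  abel

theorem rad {ι : Type} [Fintype ι] {cl y : ι → E3} {ρ ρ' : ι → ℝ} (hB : D.Bls cl y ρ ρ') (q : E3) :
    ∑ j ∈ Finset.univ.filter (fun j => cl j = q), ρ' j ≤ D.ε := by
  have h1 := Finset.sum_le_sum fun j (_ : j ∈ Finset.univ.filter fun j => cl j = q) =>
    (hB.rad j).2.2
  rw [← Finset.mul_sum] at h1
  linarith [hB.sum q]

/-- the balls lie over their cubes -/
theorem ovr (h : D.Ok) (hR : ROOM) {ι : Type} [Fintype ι] {cl y : ι → E3} {ρ ρ' : ι → ℝ}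
    (hB : D.Bls cl y ρ ρ') (j : ι) {v : E3} (hv : v ∈ closedBall (y j) (ρ' j)) :
    ∃ x, D.α (cl j) x = v ∧ dist x (cl j) ≤ D.R + 8 * (D.b * D.ε) := by
  obtain ⟨r1, r2, -⟩ := hR (D.c (cl j)) (cl j) h.b_ge (h.bil _ (hB.mem j))
  obtain ⟨x, rfl⟩ := r1 v
  obtain ⟨x', h1, h2, h3⟩ := hB.near j
  have h4 : ρ' j ≤ D.ε := (Finset.single_le_sum (f := ρ')
    (s := Finset.univ.filter fun i => cl i = cl j) (fun i _ => ((hB.rad i).1.trans (hB.rad i).2.1).le)
    (Finset.mem_filter.2 ⟨Finset.mem_univ j, rfl⟩)).trans (rad hB (cl j))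
  have h5 : dist (D.α (cl j) x) (D.α (cl j) x') ≤ 8 * D.ε := by
    have h6 : dist (D.α (cl j) x) (y j) ≤ ρ' j := hv
    linarith [dist_triangle4 (D.α (cl j) x) (y j) (D.f x') (D.α (cl j) x'),
      dist_comm (y j) (D.f x'), (hB.rad j).2.1]
  have h7 := (r2 x x').2.trans (mul_le_mul_of_nonneg_left h5 (by linarith [h.b_ge]))
  exact ⟨x, rfl, by linarith [dist_triangle x x' (cl j), mem_closedBall.1 h1]⟩

end DetH

open DetH

theorem cut_of (hG : GEO1) (hL : HLIP) (h1 : CUT1) (h3 : CUT3) (h4 : CUT4) : CUT := by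
  intro D ι _ cl y ρ ρ' h hB hA
  obtain ⟨p1, p2, p3, p4, p5, -⟩ := pos h
  have p0 := h.h_pos
  have pω := h.ω_ge
  have c4 : IsCompact (D.N 4) := (cptK h).cthickening
  obtain ⟨δ, δ0, hδ⟩ := Metric.uniformContinuousOn_iff.1
    (c4.uniformContinuousOn_of_continuous (h.hom.cont_inv.mono h.thick)) (D.h / 8) (by positivity)
  obtain ⟨g, g', e, he, hS⟩ := h1 D h hB hA (δ / 2) (half_pos δ0)
  have key : ∀ x ∈ D.Ω, D.f x ∈ D.N 2 → dist (g.invFun (D.f x)) x ≤ D.h / 8 := fun x hx hN => by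
    have a1 := g.mapsTo_inv (h.hom.mapsTo hx)
    have a2 := hS.near _ a1
    rw [g.right_inv (h.hom.mapsTo hx), dist_comm] at a2
    obtain ⟨u, hu, a3⟩ := (mem_N h zero_le_two).1 hN
    have a4 := hδ (D.f (g.invFun (D.f x))) ((mem_N h (by norm_num)).2 ⟨u, hu, by
      linarith [dist_triangle (D.f (g.invFun (D.f x))) (D.f x) (D.f u), hS.le]⟩) _
      (N_mono h (by norm_num) hN) (by linarith)
    rw [h.hom.left_inv a1, h.hom.left_inv hx] at a4
    exact a4.le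
  have off : ∀ v ∈ D.Λ, v ∉ D.N 2 → g'.toFun (g.invFun v) = v := fun v hv hN => by
    rw [hS.off _ (g.mapsTo_inv hv) (by rwa [g.right_inv hv]), g.right_inv hv]
  refine ⟨fun v => g'.toFun (g.invFun v), fun v => g.toFun (g'.invFun v),
    ⟨g'.mapsTo.comp g.mapsTo_inv, g.mapsTo.comp g'.mapsTo_inv, fun v hv => ?_, fun v hv => ?_,
      g'.cont.comp g.cont_inv g.mapsTo_inv, g.cont.comp g'.cont_inv g'.mapsTo_inv⟩,
    hL g g' h.oΛ (cptK h).cthickening ((N_mono h (by norm_num)).trans h.thick) hS.off, off,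
    fun v hv => ?_, fun x hx => ?_, fun q hq x hx => ?_⟩
  · simp only [g'.left_inv (g.mapsTo_inv hv), g.right_inv hv]
  · simp only [g.left_inv (g'.mapsTo_inv hv), g'.right_inv hv]
  · have a1 := h4 D g g' h hB hS _ (g.mapsTo_inv hv)
    rwa [g.right_inv hv] at a1
  · have a1 := h.hom.mapsTo hx.1
    by_cases hN : D.f x ∈ D.N 2
    · have a2 := hS.fix _ (((hG D.w p0 p1).2.2.2.2.2 D.Ω D.𝓩 x hx.1).2 hx _ (g.mapsTo_inv a1)
        (key x hx.1 hN))
      rwa [g.right_inv a1] at a2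
    · exact Or.inl (off _ a1 hN)
  · obtain ⟨a1, a2⟩ := cube h hq (closedBall_subset_closedBall (by linarith) hx)
    have a3 := key x a1 (N_mono h one_le_two a2)
    have a4 := h3 D g g' h hB hS q hq (g.invFun (D.f x)) (mem_closedBall.2 (by
      linarith [dist_triangle (g.invFun (D.f x)) x q, mem_closedBall.1 hx]))
    have a5 := (af_lip h hq (g.invFun (D.f x)) x).trans
      (mul_le_mul_of_nonneg_left (a3.trans (by linarith : D.h / 8 ≤ D.a)) (by linarith [h.b_ge]))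
    refine (dist_triangle _ (D.α q (g.invFun (D.f x))) _).trans ?_
    linarith [h.a_le]

theorem det_of (hb : BALLS) (hc : CUT) (h2 : COLL2) (hR : ROOM) (hl : LEN2) (hw : VARW)
    (hz : VARZ) : DET := by
  classical
  intro D h hA
  obtain ⟨p1, p2, p3, p4, p5, p6⟩ := pos h
  have p0 := h.h_pos
  have pω := h.ω_ge
  have pm := h.m_ge
  have pb : 0 ≤ D.b := by linarith [h.b_ge]
  obtain ⟨N, cl, y, ρ, ρ', hB⟩ := hb D h
  obtain ⟨H, H', hC⟩ := hc D h hB hA
  have r0 := fun q : D.𝒬 => hR (D.c q) q h.b_ge (h.bil q q.2)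
  choose χ χ1 χ2 χ3 χ4 χ5 using fun q : D.𝒬 => (r0 q).2.2 (D.R + D.m)
  have ρ0 : ∀ j, 0 < ρ' j := fun j => (hB.rad j).1.trans (hB.rad j).2.1
  have sp : ∀ q ∈ D.𝒬, ∀ q' ∈ D.𝒬, ∀ x x', D.α q x = D.α q' x' → dist x q ≤ D.R + D.m →
      dist x' q' ≤ D.R + D.m → q = q' := fun q hq q' hq' x x' e a1 a2 => by
    by_contra hne
    exact Set.disjoint_left.1 (h.sep q hq q' hq' hne) ⟨x, a1, rfl⟩ ⟨x', a2, e.symm⟩
  obtain ⟨J, hJ, hΦ⟩ := h2 (fun j => (⟨cl j, hB.mem j⟩ : D.𝒬)) y ρ' D.ε χ p3.le ρ0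
    (fun n => by simpa only [Subtype.ext_iff] using rad hB n)
    (fun n => ⟨χ1 n, χ2 n, χ3 n⟩)
    (fun n m v a1 a2 => by
      obtain ⟨x, rfl⟩ := (r0 n).1 v
      obtain ⟨x', e⟩ := (r0 m).1 (af (D.c n) (D.A n) x)
      exact Subtype.ext (sp n n.2 m m.2 x x' e.symm (χ4 n x a1).le (χ4 m x' (e ▸ a2)).le))
    (fun j v hv => by
      obtain ⟨x, rfl, a1⟩ := ovr h hR hB j hv
      exact χ5 ⟨cl j, hB.mem j⟩ x _ (by dsimp only; linarith))
  obtain ⟨L, hL⟩ := hC.lip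
  obtain ⟨Φ, ζ, Φ1, Φ2, Φ3, Φ4, Φ5, Φ6⟩ := hΦ (L + 1)⁻¹ (by positivity)
  have σL : (L + 1)⁻¹ * L ≤ 19 := by
    rw [inv_mul_le_iff₀ (by positivity)]
    exact le_self_add.trans (le_mul_of_one_le_right' (by norm_num))
  have N1 : D.N 1 ⊆ D.Λ := (N_mono h (by norm_num)).trans h.thick
  have fix : ∀ v, v ∉ D.N 1 → Φ.toFun v = v := fun v hv => Φ3 v fun n => by
    by_contra hn
    obtain ⟨x, rfl⟩ := (r0 n).1 v
    obtain ⟨u, hu, -, a1⟩ := h.base n n.2
    exact hv ((mem_N h zero_le_one).2 ⟨u, hu, by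
      rw [one_mul]
      exact a1 x (χ4 n x ((χ2 n _).lt_of_ne' hn)).le⟩)
  have m1 : MapsTo Φ.toFun D.Λ D.Λ := fun v hv => by
    by_contra hn
    exact hn (by rwa [Φ.injOn (mem_univ _) (mem_univ _) (fix _ fun a => hn (N1 a))])
  have m2 : MapsTo Φ.invFun D.Λ D.Λ := fun v hv => by
    by_contra hn
    have a1 := fix _ fun a => hn (N1 a)
    rw [Φ.right_inv (mem_univ v)] at a1
    exact hn (a1 ▸ hv)
  have m3 : MapsTo (fun x => H (D.f x)) D.Ω D.Λ := hC.hom.mapsTo.comp h.hom.mapsTo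
  have m4 : MapsTo (fun v => H' (Φ.invFun v)) D.Λ D.Λ := hC.hom.mapsTo_inv.comp m2
  have cl1 : ∀ q ∈ D.𝒬, Close (fun x => Φ.toFun (H (D.f x))) (D.A q)
      (closedBall q (D.R - 4 * D.a)) (48 * D.b ^ 2 * D.ε) := fun q hq x hx x' hx' => by
    have a1 : ∀ x ∈ closedBall q (D.R - 4 * D.a),
        ‖Φ.toFun (H (D.f x)) - D.α q x‖ ≤ 24 * D.b ^ 2 * D.ε := fun x hx => by
      rw [← dist_eq_norm]
      linarith [dist_triangle (Φ.toFun (H (D.f x))) (H (D.f x)) (D.α q x), Φ4 (H (D.f x)),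
        hC.close q hq x hx]
    have e : Φ.toFun (H (D.f x')) - Φ.toFun (H (D.f x)) - D.A q (x' - x) =
        (Φ.toFun (H (D.f x')) - D.α q x') - (Φ.toFun (H (D.f x)) - D.α q x) := by
      rw [Dt.α, af, af, map_sub]
      abel
    rw [e]
    linarith [norm_sub_le (Φ.toFun (H (D.f x')) - D.α q x') (Φ.toFun (H (D.f x)) - D.α q x),
      a1 x hx, a1 x' hx']
  have pth : ∀ x x', segment ℝ x x' ⊆ D.Sf → ∀ s : Set (Fin N),
      (∀ z ∈ segment ℝ x x', ∀ j, H (D.f z) ∈ ball (y j) (ρ' j) → j ∈ s) →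
      Pth s y ρ' (fun t => D.f (AffineMap.lineMap x x' t))
        (fun t => H (D.f (AffineMap.lineMap x x' t))) ∧
      ∀ t t', 0 ≤ t → t' ≤ 1 →
        eVariationOn (fun τ : ℝ => Φ.toFun (H (D.f (AffineMap.lineMap x x' τ)))) (Icc t t') ≤
          (19 : ℝ≥0) * eVariationOn (fun τ : ℝ => D.f (AffineMap.lineMap x x' τ)) (Icc t t') :=
    fun x x' hs s hj => by
      have a0 : MapsTo (fun t : ℝ => AffineMap.lineMap x x' t) (Icc 0 1) D.Ω :=
        fun t ht => (hs (line_mem x x' ht)).1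
      have a1 := h.hom.cont.comp AffineMap.lineMap_continuous.continuousOn a0
      have a2 : Pth s y ρ' (fun t => D.f (AffineMap.lineMap x x' t))
          (fun t => H (D.f (AffineMap.lineMap x x' t))) :=
        ⟨a1, hC.hom.cont.comp a1 (h.hom.mapsTo.comp a0), hB.disj, fun t ht =>
          (hC.safe _ (hs (line_mem x x' ht))).imp_right fun ⟨j, a3⟩ =>
            ⟨j, hj _ (line_mem x x' ht) j a3, a3⟩⟩
      exact ⟨a2, hl a2 Φ1 Φ2 σL fun t ht t' ht' =>
        hL (h.hom.mapsTo (a0 ht)) (h.hom.mapsTo (a0 ht'))⟩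
  refine ⟨fun x => Φ.toFun (H (D.f x)), fun v => D.f' (H' (Φ.invFun v)),
    ⟨m1.comp m3, h.hom.mapsTo_inv.comp m4, fun x hx => ?_, fun v hv => ?_,
      Φ.cont.comp (hC.hom.cont.comp h.hom.cont h.hom.mapsTo) (mapsTo_univ _ _),
      h.hom.cont_inv.comp (hC.hom.cont_inv.comp (Φ.cont_inv.mono (subset_univ _)) m2) m4⟩,
    ⟨19 * L, fun x hx x' hx' => ?_⟩, fun x hx => ?_, fun x x' hs => ?_,
    fun q hq x hx x' hx' => (cl1 q hq x hx x' hx').trans (by linarith),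
    fun q hq x x' hs a1 a2 => ?_⟩
  · simp only [Φ.left_inv (mem_univ _), hC.hom.left_inv (h.hom.mapsTo hx), h.hom.left_inv hx]
  · simp only [h.hom.right_inv (m4 hv), hC.hom.right_inv (m2 hv), Φ.right_inv (mem_univ _)]
  · refine (Φ1 _ _).trans ?_
    rw [ENNReal.coe_mul, mul_assoc]
    exact mul_le_mul_right (hL (h.hom.mapsTo hx) (h.hom.mapsTo hx')) _
  · by_cases hN : D.f x ∈ D.N 2
    · obtain ⟨u, hu, a1⟩ := (mem_N h zero_le_two).1 hN
      exact Or.inr ⟨⟨u, hu, by linarith⟩, by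
        linarith [dist_triangle (Φ.toFun (H (D.f x))) (H (D.f x)) (D.f x), Φ4 (H (D.f x)),
          hC.move _ (h.hom.mapsTo hx)]⟩
    · refine Or.inl ?_
      simp only [hC.off _ (h.hom.mapsTo hx) hN, fix _ fun a => hN (N_mono h one_le_two a)]
  · exact (pth x x' hs univ fun _ _ _ _ => mem_univ _).2 0 1 le_rfl le_rfl
  · obtain ⟨r1, r2, -⟩ := r0 ⟨q, hq⟩
    have b0 : ∀ z ∈ segment ℝ x x', dist z q ≤ D.R - 4 * D.a := fun z hz => (hs hz).2
    obtain ⟨b1, b2⟩ := pth x x' (fun z hz => (hs hz).1)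
      (Finset.univ.filter fun j => cl j = q : Finset (Fin N)) fun z hz j hj => by
        obtain ⟨z₁, e₁, c1⟩ := ovr h hR hB j (ball_subset_closedBall hj)
        obtain ⟨z₂, e₂⟩ := r1 (H (D.f z))
        have c2 := (r2 z₂ z).2
        rw [e₂] at c2
        have c3 := c2.trans (mul_le_mul_of_nonneg_left (hC.close q hq z (hs hz).2) pb)
        refine Finset.mem_coe.2 (Finset.mem_filter.2 ⟨Finset.mem_univ j,
          sp _ (hB.mem j) q hq z₁ z₂ (e₁.trans e₂.symm) (by linarith) ?_⟩)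
        linarith [dist_triangle z₂ z q, b0 z hz]
    have b3 : eVariationOn (fun τ : ℝ => D.f (AffineMap.lineMap x x' τ) -
        (D.α q x + τ • D.A q (x' - x))) (Icc 0 1) ≤ ENNReal.ofReal D.ε := by
      simpa only [segVar, Dt.α, af_line] using a2
    have b4 : ∀ t ∈ Icc (0 : ℝ) 1, dist (D.f (AffineMap.lineMap x x' t))
        (D.α q (AffineMap.lineMap x x' t)) ≤ 2 * D.ε := fun t ht => by
      have c1 := (eVariationOn.edist_le _ ht (left_mem_Icc.2 zero_le_one)).trans a2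
      rw [edist_le_ofReal p3.le, AffineMap.lineMap_apply_zero, dist_eq_norm] at c1
      rw [dist_eq_norm] at a1 ⊢
      linarith [norm_le_norm_add_norm_sub' (D.f (AffineMap.lineMap x x' t) -
        D.α q (AffineMap.lineMap x x' t)) (D.f x - D.α q x)]
    have b5 : ∀ t ∈ Icc (0 : ℝ) 1, dist (H (D.f (AffineMap.lineMap x x' t)))
        (D.f (AffineMap.lineMap x x' t)) ≤ 22 * (D.b ^ 2 * D.ε) := fun t ht => by
      linarith [dist_triangle_right (H (D.f (AffineMap.lineMap x x' t)))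
        (D.f (AffineMap.lineMap x x' t)) (D.α q (AffineMap.lineMap x x' t)), b4 t ht,
        hC.close q hq _ (hs (line_mem x x' ht)).2]
    have v0 : 0 ≤ D.b ^ 2 * D.ε := by linarith
    have b6 : ENNReal.ofReal D.ε ≤ ENNReal.ofReal (D.b ^ 2 * D.ε) :=
      ENNReal.ofReal_le_ofReal (by linarith)
    have mu : ∀ k : ℕ, ENNReal.ofReal (k * (D.b ^ 2 * D.ε)) =
        k * ENNReal.ofReal (D.b ^ 2 * D.ε) := fun k => by
      rw [ENNReal.ofReal_mul (Nat.cast_nonneg k), ENNReal.ofReal_natCast]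
    have v1 := hw _ (D.α q x) (D.A q (x' - x)) b1 (fun j => (ρ0 j).le) Φ1 b2
    have w1 : ENNReal.ofReal (∑ j ∈ Finset.univ.filter (fun j => cl j = q), 2 * ρ' j) ≤
        (2 : ℕ) * ENNReal.ofReal (D.b ^ 2 * D.ε) := by
      rw [← mu, ← Finset.mul_sum]
      exact ENNReal.ofReal_le_ofReal (by push_cast; linarith [rad hB q])
    have w2 : ∀ t ∈ Icc (0 : ℝ) 1, edist (H (D.f (AffineMap.lineMap x x' t)))
        (D.f (AffineMap.lineMap x x' t)) ≤ (22 : ℕ) * ENNReal.ofReal (D.b ^ 2 * D.ε) :=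
      fun t ht => by
        rw [← mu, edist_le_ofReal (by positivity)]
        exact_mod_cast b5 t ht
    have v2 := hz (u := fun τ : ℝ => D.f (AffineMap.lineMap x x' τ)) (Φ := Φ.toFun)
      (D.α q x) (D.A q (x' - x))
      (fun k => ⟨(hJ ⟨q, hq⟩ k).1, (hJ ⟨q, hq⟩ k).2, Φ5 ⟨q, hq⟩ k⟩) fun t ht => by
        obtain ⟨z₂, e₂⟩ := r1 (D.f (AffineMap.lineMap x x' t))
        have c2 := (r2 z₂ (AffineMap.lineMap x x' t)).2
        rw [e₂] at c2
        have c3 := c2.trans (mul_le_mul_of_nonneg_left (b4 t ht) pb)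
        refine Φ6 ⟨q, hq⟩ _ ?_
        rw [← e₂]
        refine χ5 ⟨q, hq⟩ z₂ _ ?_
        linarith [dist_triangle z₂ (AffineMap.lineMap x x' t) q, b0 _ (line_mem x x' ht)]
    have w3 : ENNReal.ofReal (4 * D.ε) ≤ (4 : ℕ) * ENNReal.ofReal (D.b ^ 2 * D.ε) := by
      rw [← mu]
      exact ENNReal.ofReal_le_ofReal (by push_cast; linarith)
    have v4 := var_lin (D.α q x - Φ.toFun (H (D.f x)))
      (-(Φ.toFun (H (D.f x')) - Φ.toFun (H (D.f x)) - D.A q (x' - x)))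
    have w4 : ENNReal.ofReal ‖-(Φ.toFun (H (D.f x')) - Φ.toFun (H (D.f x)) - D.A q (x' - x))‖ ≤
        (48 : ℕ) * ENNReal.ofReal (D.b ^ 2 * D.ε) := by
      rw [← mu, norm_neg]
      exact ENNReal.ofReal_le_ofReal ((cl1 q hq x (hs (left_mem_segment ℝ x x')).2 x'
        (hs (right_mem_segment ℝ x x')).2).trans (le_of_eq (by push_cast; ring)))
    have e : (fun t : ℝ => Φ.toFun (H (D.f (AffineMap.lineMap x x' t))) -
        AffineMap.lineMap (Φ.toFun (H (D.f x))) (Φ.toFun (H (D.f x'))) t) = fun t : ℝ =>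
        ((Φ.toFun (H (D.f (AffineMap.lineMap x x' t))) - Φ.toFun (D.f (AffineMap.lineMap x x' t))) +
          (Φ.toFun (D.f (AffineMap.lineMap x x' t)) - D.f (AffineMap.lineMap x x' t))) +
        ((D.f (AffineMap.lineMap x x' t) - (D.α q x + t • D.A q (x' - x))) +
          (D.α q x - Φ.toFun (H (D.f x)) +
            t • (-(Φ.toFun (H (D.f x')) - Φ.toFun (H (D.f x)) - D.A q (x' - x))))) := by
      funext t
      rw [AffineMap.lineMap_apply (Φ.toFun (H (D.f x))), vsub_eq_sub, vadd_eq_add]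
      module
    rw [e, show 3000 * D.b ^ 2 * D.ε = (3000 : ℕ) * (D.b ^ 2 * D.ε) by push_cast; ring, mu]
    refine (var_add _ _ _).trans ((add_le_add (var_add _ _ _) (var_add _ _ _)).trans ?_)
    have b7 := b3.trans b6
    have w5 := w2 0 (left_mem_Icc.2 zero_le_one)
    have w6 := w2 1 (right_mem_Icc.2 zero_le_one)
    generalize ENNReal.ofReal (D.b ^ 2 * D.ε) = X at *
    calc _ ≤ 2 * (19 : ℝ≥0) * ((2 : ℕ) * X + 2 * X + (22 : ℕ) * X + (22 : ℕ) * X) +
          9 * ((4 : ℕ) * X + 2 * X) + (X + (48 : ℕ) * X) :=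
          add_le_add (add_le_add (v1.trans (by gcongr)) (v2.trans (by gcongr)))
            (add_le_add b7 (v4.trans w4))
      _ = 1927 * X := by push_cast; ring
      _ ≤ _ := by gcongr; norm_num

end P073.P2
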