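import Vale.Agent.P073Y.P2.Sk2
import Vale.Agent.P073Z.AVG

/-!
# The weights of the small squares
-/

open Set Metric Topology Filter MeasureTheory
open scoped NNReal ENNReal

namespace P073.P2

open An (M3)

namespace En

theorem ints (c : ℝ) {s L : ℝ} (hs : 0 < s) (hL : 0 ≤ L) : ∃ B : Finset ℤ,
    (B.card : ℝ) ≤ L / s + 1 ∧ ∀ m : ℤ, c ≤ m * s → m * s ≤ c + L → m ∈ B := by
  refine ⟨Finset.Icc ⌈c / s⌉ ⌊(c + L) / s⌋, ?_, fun m h1 h2 => Finset.mem_Icc.2
    ⟨Int.ceil_le.2 ((div_le_iff₀ hs).2 h1), Int.le_floor.2 ((le_div_iff₀ hs).2 h2)⟩⟩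
  have h1 := Int.le_ceil (c / s)
  have h2 := Int.floor_le ((c + L) / s)
  have h3 := div_nonneg hL hs.le
  rw [add_div] at h2
  rw [Int.card_Icc, ← Int.cast_natCast, Int.toNat_eq_max, add_div]
  push_cast
  exact max_le (by linarith) (by linarith)

theorem card_le (T : Finset ((Fin 3 → ℤ) × Fin 3)) (B : Fin 3 → Fin 3 → Finset ℤ)
    (β : Fin 3 → Fin 3 → ℝ) (h : ∀ k ∈ T, ∀ l, k.1 l ∈ B k.2 l)
    (h' : ∀ i l, ((B i l).card : ℝ) ≤ β i l) : (T.card : ℝ) ≤ ∑ i, ∏ l, β i l := by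
  have h1 := Finset.card_le_card_of_injOn (s := T)
    (t := Finset.univ.sigma fun i => Fintype.piFinset (B i)) (fun k => ⟨k.2, k.1⟩)
    (fun k hk => by simpa using h k hk) fun k _ k' _ e => by
      simp only [Sigma.mk.injEq, heq_eq_eq] at e
      exact Prod.ext e.2 e.1
  simp only [Finset.card_sigma, Fintype.card_piFinset] at h1
  refine (Nat.cast_le.2 h1).trans ?_
  push_cast
  exact Finset.sum_le_sum fun i _ => Finset.prod_le_prod (fun l _ => Nat.cast_nonneg _)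
    fun l _ => h' i l

variable {h : ℝ} {w : E3} {ζ : Fin 3 → ℤ} {i j k : Fin 3}

/-- the small cube -/
def bx (h : ℝ) (w : E3) (ζ : Fin 3 → ℤ) : Set E3 :=
  Icc (fun l => w l + ζ l * h) (fun l => w l + ζ l * h + h)

theorem asq_sub (hh : 0 < h) : asq h w ζ i ⊆ bx h w ζ := fun x hx => by
  refine ⟨fun l => ?_, fun l => ?_⟩ <;> by_cases e : l = i
  · exact e ▸ hx.1.ge
  · exact (hx.2 l e).1
  · exact e ▸ hx.1.le.trans (le_add_of_nonneg_right hh.le)
  · exact (hx.2 l e).2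

theorem ovl (hh : 0 < h) (ν : Measure E3) {g : E3 → ℝ≥0∞} (hg : Measurable g)
    (T : Finset ((Fin 3 → ℤ) × Fin 3)) :
    ∑ k ∈ T, ∫⁻ y in bx h w k.1, g y ∂ν ≤ 24 * ∫⁻ y, g y ∂ν := by
  classical
  have hm : ∀ ζ, MeasurableSet (bx h w ζ) := fun ζ => measurableSet_Icc
  simp_rw [← lintegral_indicator (hm _)]
  rw [← lintegral_finsetSum _ fun k _ => hg.indicator (hm _), ← lintegral_const_mul _ hg]
  refine lintegral_mono fun y => ?_
  simp only [indicator_apply]
  rw [← Finset.sum_filter, Finset.sum_const, nsmul_eq_mul]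
  refine mul_le_mul_left ?_ _
  choose B h1 h2 using fun l => ints (y l - w l - h) hh hh.le
  have h3 := card_le (T.filter fun k => y ∈ bx h w k.1) (fun _ => B) (fun _ _ => 2)
    (fun k hk l => by
      have h4 := (Finset.mem_filter.1 hk).2
      exact h2 l _ (by linarith [h4.2 l]) (by linarith [h4.1 l]))
    fun _ l => (h1 l).trans (by rw [div_self hh.ne']; norm_num)
  norm_num at h3
  exact_mod_cast h3

theorem corner (hh : 0 < h) : (fun l => w l + ζ l * h) ∈ asq h w ζ i :=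
  ⟨rfl, fun _ _ => ⟨le_rfl, le_add_of_nonneg_right hh.le⟩⟩

theorem count {a S : ℝ} {n : ℕ} {q : E3} (hh : 0 < h) (hn : 1 ≤ n) (ha : a = n * h) (hS : a ≤ S)
    (T : Finset ((Fin 3 → ℤ) × Fin 3))
    (hT : ∀ k ∈ T, (∃ m : ℤ, k.1 k.2 = m * n + 1) ∧ asq h w k.1 k.2 ⊆ closedBall q (S / 2)) :
    T.card * h ^ 2 ≤ 24 * (S ^ 3 / a) := by
  have h0 : h ≤ a := ha ▸ le_mul_of_one_le_left hh.le (by exact_mod_cast hn)
  have ha0 := hh.trans_le h0
  have hS0 := ha0.trans_le hS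
  choose B h1 h2 using fun l => ints (q l - S / 2 - w l) hh hS0.le
  choose C h3 h4 using fun l => ints (q l - S / 2 - w l - h) ha0 hS0.le
  have h5 := card_le T (fun i l => if l = i then (C l).image (· * n + 1) else B l)
    (fun i l => if l = i then 2 * (S / a) else 2 * (S / h)) (fun k hk l => by
      obtain ⟨⟨m, hm⟩, hs⟩ := hT k hk
      have h6 := abs_le.1 ((dist_le_pi_dist _ q l).trans (hs (corner hh)))
      split_ifs with e
      · subst e
        rw [hm] at h6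
        push_cast at h6
        exact Finset.mem_image.2 ⟨m, h4 _ _ (by rw [ha]; linarith) (by rw [ha]; linarith), hm.symm⟩
      · exact h2 l _ (by linarith) (by linarith)) fun i l => by
      split_ifs
      · exact (Nat.cast_le.2 Finset.card_image_le).trans
          ((h3 l).trans (by linarith [(one_le_div ha0).2 hS]))
      · exact (h1 l).trans (by linarith [(one_le_div hh).2 (h0.trans hS)])
  refine (mul_le_mul_of_nonneg_right h5 (sq_nonneg h)).trans_eq ?_
  simp [Fin.sum_univ_three, Fin.prod_univ_three]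
  field_simp
  norm_num

/-- a segment in a side of the square -/
theorem step {x : E3} (hh : 0 < h) (hr : ∃ c : ℚ, h = c) (hx : x ∈ asq h w ζ i) (hj : j ≠ i)
    (hk : k ≠ i) (hkj : k ≠ j) (hs : x j = w j + ζ j * h ∨ x j = w j + ζ j * h + h) :
    segment ℝ x (Function.update x k (w k + ζ k * h)) ⊆ abd h w ζ i ∧
    dist x (Function.update x k (w k + ζ k * h)) ≤ h ∧
    ∀ l, l ≠ k → Function.update x k (w k + ζ k * h) l = x l ∧ ∃ q : ℚ, x l = w l + q := by
  refine ⟨fun u hu => ?_, (dist_pi_le_iff hh.le).2 fun l => ?_, fun l hl => ⟨by simp [hl], ?_⟩⟩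
  · have h1 := fun l => Pi.segment_subset (s := univ) _ _ hu l trivial
    have h2 : ∀ l, l ≠ k → u l = x l := fun l hl => by simpa [hl] using h1 l
    refine ⟨⟨(h2 i hk.symm).trans hx.1, fun l hl => ?_⟩, j, hj, h2 j hkj.symm ▸ hs⟩
    by_cases e : l = k
    · subst e
      have h3 := h1 l
      beta_reduce at h3
      rw [Function.update_self, segment_symm, segment_eq_Icc (hx.2 l hl).1] at h3
      exact ⟨h3.1, h3.2.trans (hx.2 l hl).2⟩
    · exact h2 l e ▸ hx.2 l hl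
  · by_cases e : l = k
    · subst e
      rw [Function.update_self, Real.dist_eq, abs_le]
      constructor <;> linarith [hx.2 l hk]
    · simp [e, hh.le]
  · obtain ⟨c, rfl⟩ := hr
    have h1 : ∀ i j k l : Fin 3, j ≠ i → k ≠ i → k ≠ j → l ≠ k → l = i ∨ l = j := by decide
    rcases h1 i j k l hj hk hkj hl with rfl | rfl
    · exact ⟨ζ l * c, by simpa using hx.1⟩
    · rcases hs with hs | hs
      · exact ⟨ζ l * c, by simpa using hs⟩
      · exact ⟨ζ l * c + c, by simpa [add_assoc] using hs⟩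

/-- two steps to the corner -/
theorem path {u : E3 → E3} {m : ℝ} (hh : 0 < h) (hr : ∃ c : ℚ, h = c)
    (H : ∀ x y, segment ℝ x y ⊆ abd h w ζ i → dist x y ≤ h →
      (∃ k, ∀ l, l ≠ k → y l = x l ∧ ∃ q : ℚ, x l = w l + q) → dist (u x) (u y) ≤ m)
    {x : E3} (hx : x ∈ abd h w ζ i) : dist (u x) (u fun l => w l + ζ l * h) ≤ 2 * m := by
  obtain ⟨hx, j, hj, hs⟩ := hx
  obtain ⟨k, hk, hkj, h0⟩ := (by decide : ∀ i j : Fin 3, j ≠ i →
    ∃ k, k ≠ i ∧ k ≠ j ∧ ∀ l, l = i ∨ l = j ∨ l = k) i j hj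
  obtain ⟨h1, h2, h3⟩ := step hh hr hx hj hk hkj hs
  obtain ⟨h4, h5, h6⟩ := step hh hr (h1 (right_mem_segment ℝ _ _)).1 hk hj hkj.symm
    (Or.inl (Function.update_self ..))
  have h7 := (dist_triangle _ _ _).trans (add_le_add (H _ _ h1 h2 ⟨k, h3⟩) (H _ _ h4 h5 ⟨j, h6⟩))
  refine le_of_eq_of_le (congrArg (fun v => dist (u x) (u v)) (funext fun l => ?_))
    (h7.trans_eq (two_mul m).symm)
  rcases h0 l with rfl | rfl | rfl
  · simp [hj.symm, hk.symm, hx.1]
  · simp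
  · simp [hkj]

theorem abd_aux {a : ℝ} {n : ℕ} (hh : 0 < h) (hn : 1 ≤ n) (ha : a = n * h)
    (hm : ∃ m : ℤ, ζ i = m * n + 1) {y : E3} (hy : y ∈ abd h w ζ i) : a⁻¹ • (y - w) ∈ aux n := by
  obtain ⟨m, hm⟩ := hm
  obtain ⟨hy, j, hj, hs⟩ := hy
  have h0 : (n : ℝ) ≠ 0 := by positivity
  refine ⟨i, j, hj.symm, ⟨m, ?_⟩, ?_⟩
  · simp only [Pi.smul_apply, Pi.sub_apply, smul_eq_mul, hy.1, hm, ha]
    push_cast
    field_simp
    ring
  · rcases hs with hs | hs <;> [refine ⟨ζ j, ?_⟩; refine ⟨ζ j + 1, ?_⟩] <;>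
    · simp only [Pi.smul_apply, Pi.sub_apply, smul_eq_mul, hs, ha]
      push_cast
      field_simp
      ring

variable {Ω K : Set E3} {f : E3 → E3} {F : E3 → M3} {b S r ε₁ : ℝ} {q x₀ : E3}

theorem ph_meas (L : Loc Ω K f F b S r ε₁ w q x₀) : Measurable (ph F K b) :=
  (L.meas.enorm.add_const _).indicator L.cl.measurableSet.compl

theorem ph_le (L : Loc Ω K f F b S r ε₁ w q x₀) (x : E3) : ph F K b x ≤ ph F K b x ^ 2 := by
  by_cases hx : x ∈ Kᶜ
  · refine le_self_pow ?_ two_ne_zero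
    rw [ph, indicator_of_mem hx]
    exact (ENNReal.one_le_ofReal.2 L.b_ge).trans le_add_self
  · simp [ph, indicator_of_notMem hx]

theorem near (L : Loc Ω K f F b S r ε₁ w q x₀) {x : E3} (hx : x ∈ closedBall q (S / 2)) :
    dist x₀ x ≤ 3 * r := by
  linarith [dist_triangle_right x₀ x q, mem_closedBall.1 hx, L.near, L.S_pos, L.S_le]

theorem dev_le (L : Loc Ω K f F b S r ε₁ w q x₀) {x : E3} (hx : x ∈ closedBall q (S / 2)) :
    ‖F x - F x₀‖ₑ ≤ ph F K b x + ENNReal.ofReal ε₁ := by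
  by_cases h : x ∈ K
  · rw [← ofReal_norm]
    exact (ENNReal.ofReal_le_ofReal (L.ud x₀ L.mem x h (near L hx)).2).trans le_add_self
  · refine le_trans ?_ le_self_add
    rw [ph, indicator_of_mem (mem_compl h)]
    refine enorm_sub_le.trans (add_le_add_right ?_ _)
    rw [← ofReal_norm]
    exact ENNReal.ofReal_le_ofReal L.bd

/-- the oscillation on a segment -/
theorem seg (L : Loc Ω K f F b S r ε₁ w q x₀) (c : E3) {x y : E3} {J : ℝ≥0∞} (hJ : J ≠ ⊤)
    (h1 : segment ℝ x y ⊆ closedBall q (S / 2)) (h2 : dist x y ≤ h)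
    (h3 : ∃ k, ∀ l, l ≠ k → y l = x l ∧ ∃ q : ℚ, x l = w l + q)
    (h4 : ∫⁻ u in segment ℝ x y, ph F K b u ^ 2 ∂(μH[1]) ≤ J) :
    dist (f x - af c (F x₀) x) (f y - af c (F x₀) y) ≤
      h * ε₁ + min J.toReal √(h * J.toReal) := by
  have h0 := dist_nonneg.trans h2
  have hm : μH[1] (segment ℝ x y) ≤ ENNReal.ofReal h := by
    rw [hausdorffMeasure_segment, edist_dist]
    exact ENNReal.ofReal_le_ofReal h2
  have h5 := (lintegral_mono (ph_le L)).trans h4
  have h6 := AV.lintegral_rpow_le ((μH[1] : Measure E3).restrict (segment ℝ x y))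
    (ph_meas L).aemeasurable one_le_two
  simp only [ENNReal.rpow_two, show (2 : ℝ) - 1 = 1 by norm_num, ENNReal.rpow_one,
    Measure.restrict_apply_univ] at h6
  have h7 := ENNReal.toReal_mono (ENNReal.mul_ne_top ENNReal.ofReal_ne_top hJ)
    (h6.trans (mul_le_mul' hm h4))
  rw [ENNReal.toReal_pow, ENNReal.toReal_mul, ENNReal.toReal_ofReal h0] at h7
  have h8 := (edist_le_segVar (fun u => f u - af c (F x₀) u) (left_mem_segment ℝ x y)
    (right_mem_segment ℝ x y)).trans ((L.acl x y (fun u hu => L.sub (mem_closedBall'.2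
      (near L (h1 hu)))) (Or.inr h3) c (F x₀)).trans (setLIntegral_mono
        ((ph_meas L).add_const _) fun u hu => dev_le L (h1 hu)))
  rw [lintegral_add_right _ measurable_const, setLIntegral_const,
    ← ENNReal.ofReal_toReal (ne_top_of_le_ne_top hJ h5)] at h8
  have h9 := h8.trans (add_le_add_right (mul_le_mul_right hm _) _)
  rw [← ENNReal.ofReal_mul L.ε_pos, ← ENNReal.ofReal_add ENNReal.toReal_nonneg
    (mul_nonneg L.ε_pos h0), edist_le_ofReal (add_nonneg ENNReal.toReal_nonneg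
      (mul_nonneg L.ε_pos h0))] at h9
  refine h9.trans ?_
  rw [add_comm, mul_comm]
  exact add_le_add_right (le_min (ENNReal.toReal_mono hJ h5) (Real.le_sqrt_of_sq_le h7)) _

theorem arith {b h ε j m : ℝ} (hb : 1 ≤ b) (hh : 0 ≤ h) (h0 : 0 ≤ ε) (h1 : ε ≤ 1) (hj : 0 ≤ j)
    (h2 : m ≤ j) (h3 : m ^ 2 ≤ h * j) :
    (4 * (h * ε + m) + b * h) * (4 * (h * ε + m)) ≤ 36 * b * (ε * h ^ 2 + h * j) := by
  have h4 : (h * ε) ^ 2 ≤ ε * h ^ 2 := by
    nlinarith [mul_nonneg (mul_nonneg h0 (sub_nonneg.2 h1)) (sq_nonneg h)]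
  have h5 : 0 ≤ ε * h ^ 2 + h * j := by positivity
  have h6 := mul_le_mul_of_nonneg_left h2 (by positivity : 0 ≤ b * h)
  nlinarith [sq_nonneg (h * ε - m), mul_nonneg (sub_nonneg.2 hb) h5]

end En

open En in
theorem ener : ENER := by
  intro Ω K f F b ρ a h S r ε₁ t n w q x₀ c L G hr hh hn ha hS ht
  set ν : Measure E3 := (μH[1] : Measure E3).restrict
    {y ∈ closedBall q (S / 2) | a⁻¹ • (y - w) ∈ aux n}
  have h0 : (n : ℝ) ≠ 0 := by positivity
  have h1 : ENNReal.ofReal h * ∫⁻ y, ph F K b y ^ 2 ∂ν ≤ ENNReal.ofReal (t * ρ ^ 2) := by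
    have := G.aux
    rwa [show a / n = h by rw [ha, mul_div_cancel_left₀ _ h0]] at this
  have h2 : ∫⁻ y, ph F K b y ^ 2 ∂ν ≠ ⊤ := fun e => by
    rw [e, ENNReal.mul_top (ENNReal.ofReal_pos.2 hh).ne'] at h1
    exact ENNReal.ofReal_ne_top (top_le_iff.1 h1)
  set J : (Fin 3 → ℤ) → ℝ≥0∞ := fun ζ => ∫⁻ y in bx h w ζ, ph F K b y ^ 2 ∂ν
  have hJ : ∀ ζ, J ζ ≠ ⊤ := fun ζ => ne_top_of_le_ne_top h2 (setLIntegral_le_lintegral _ _)
  have hε := L.ε_pos
  have hb := L.b_ge
  refine ⟨fun k => 4 * (h * ε₁ + min (J k.1).toReal √(h * (J k.1).toReal)),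
    fun k => by positivity, fun ζ i hm hs x hx y hy => ?_, fun T hT => ?_⟩
  · have H := fun x hx => path (u := fun x => f x - af c (F x₀) x) (x := x) hh hr
      (fun x y h3 h4 h5 => seg L c (hJ ζ) (fun u hu => hs (h3 hu).1) h4 h5 (by
        simp only [J, ν]
        rw [Measure.restrict_restrict (show MeasurableSet (bx h w ζ) from measurableSet_Icc)]
        exact lintegral_mono_set fun u hu => ⟨asq_sub hh (h3 hu).1, hs (h3 hu).1,
          abd_aux hh hn ha hm (h3 hu)⟩)) hx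
    exact (dist_triangle_right _ _ _).trans ((add_le_add (H x hx) (H y hy)).trans_eq (by ring))
  · refine (Finset.sum_le_sum fun k _ => arith hb hh.le hε L.ε_le ENNReal.toReal_nonneg
      (min_le_left _ _) ((pow_le_pow_left₀ (by positivity) (min_le_right _ _) 2).trans_eq
        (Real.sq_sqrt (by positivity)))).trans ?_
    have h3 := count hh hn ha hS T hT
    have h4 := ENNReal.toReal_le_of_le_ofReal (by positivity : 0 ≤ 24 * (t * ρ ^ 2))
      (((mul_le_mul_right (ovl (w := w) hh ν ((ph_meas L).pow_const 2) T) _).trans_eq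
        (mul_left_comm _ _ _)).trans ((mul_le_mul_right h1 24).trans_eq (by
          rw [ENNReal.ofReal_mul (by norm_num : (0 : ℝ) ≤ 24), ENNReal.ofReal_ofNat])))
    rw [ENNReal.toReal_mul, ENNReal.toReal_ofReal hh.le,
      ENNReal.toReal_sum fun k _ => hJ k.1] at h4
    rw [← Finset.mul_sum, Finset.sum_add_distrib, Finset.sum_const, nsmul_eq_mul, ← Finset.mul_sum,
      mul_left_comm _ ε₁, mul_div_assoc]
    have h5 := mul_le_mul_of_nonneg_left h3 hε
    have h6 : 0 ≤ ε₁ * (S ^ 3 / a) := mul_nonneg hε (div_nonneg (pow_pos L.S_pos 3).le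
      (by rw [ha]; positivity))
    have h7 : 0 ≤ t * ρ ^ 2 := by positivity
    calc _ ≤ 36 * b * (24 * (ε₁ * (S ^ 3 / a) + t * ρ ^ 2)) :=
          mul_le_mul_of_nonneg_left (by linarith) (by positivity)
      _ ≤ _ := by nlinarith [mul_nonneg (zero_le_one.trans hb) (add_nonneg h6 h7)]

end P073.P2
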