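import Vale.Agent.P073Y.P2.Sk2

/-!
# The modified map for the exponent two: the output for a fixed shift
-/

open Set Metric Topology Filter MeasureTheory
open scoped NNReal ENNReal

namespace P073.P2

open P073.Zn P073.Gc

theorem null_image {Ω Λ X : Set E3} {f f' f₁ : E3 → E3} {L : ℝ≥0} (hf : HomeoOn f f' Ω Λ)
    (hL : ∀ x ∈ Ω, ∀ y ∈ Ω, edist (f₁ x) (f₁ y) ≤ L * edist (f x) (f y)) (hX : X ⊆ Ω)
    (h0 : volume (f '' X) = 0) : volume (f₁ '' X) = 0 := by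
  have h1 : LipschitzOnWith L (f₁ ∘ f') (f '' X) := by
    rintro _ ⟨x, hx, rfl⟩ _ ⟨y, hy, rfl⟩
    simpa only [Function.comp, hf.left_inv (hX hx), hf.left_inv (hX hy)] using
      hL x (hX hx) y (hX hy)
  have h2 := h1.hausdorffMeasure_image_le (d := (Fintype.card (Fin 3) : ℝ)) (by positivity)
  rw [hausdorffMeasure_pi_real, h0, mul_zero, ← image_comp] at h2
  rw [image_congr (g := (f₁ ∘ f') ∘ f) fun x hx => by
    simp only [Function.comp, hf.left_inv (hX hx)]]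
  exact le_zero_iff.1 h2

theorem fin_of (hG : GEO1) (hK : KW) (hI : INP) (hD : INTD) : FIN := by
  intro Ω Λ K V f f' F b N τ d δ C ρ S a h ε ε₁ t r ω n' n w 𝒬 x₀ f₁ f₁' P₁ P₂ Q H s hA h0 hF o
    hl hc hQ
  have ok := hI H s hA hF
  have hρ := s.ρ_pos
  have hh := s.h_pos
  have hb := H.b_ge
  have hn : (8:ℝ) ≤ n := by exact_mod_cast s.n_ge
  have hn' : (1:ℝ) ≤ n' := by exact_mod_cast s.n'_ge
  have ha8 : 8 * h ≤ a := s.a_eq ▸ mul_le_mul_of_nonneg_right hn hh.le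
  have ha : 0 < a := by linarith
  have haρ : a ≤ ρ := s.ρ_eq ▸ le_mul_of_one_le_left ha.le hn'
  have hρs : ρ ≤ N * ρ := le_mul_of_one_le_left hρ.le s.N_ge
  have haε : a ≤ ε := (le_mul_of_one_le_left ha.le hb).trans s.a_le
  have e2 : ε ≤ b ^ 2 * ε := le_mul_of_one_le_left (ha.le.trans haε) (one_le_pow₀ hb)
  have e3 : ε ≤ b ^ 3 * ε := le_mul_of_one_le_left (ha.le.trans haε) (one_le_pow₀ hb)
  have h1 := s.ε_m
  have h2 := s.ε_τ
  have h3 := s.S_ge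
  have h4 := s.S_r
  rw [mul_assoc] at h1 h2
  obtain ⟨-, g2, -, g4, -, -⟩ := hG (a := ρ) w hh (ha8.trans haρ)
  obtain ⟨-, -, -, -, g5, g6⟩ := hG (a := a) w hh ha8
  have hV : ∀ q ∈ 𝒬, closedBall (x₀ q) (3 * r) ⊆ V := fun q hq =>
    (closedBall_subset_cthickening (hF q hq).2.1 _).trans s.rV
  have loc : ∀ q ∈ P₁, _ := fun q hq => hD (ρ := ρ) (a := a) (n := n) (t := t)
    ⟨H.meas, H.cpt.isClosed, hA, s.ud, (hF _ (hQ q hq).1).2.1, (hF _ (hQ q hq).1).2.2.1,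
      (hV _ (hQ q hq).1).trans H.VΩ, hb, (H.bil _ (hF _ (hQ q hq).1).2.1).1, by linarith, h4,
      s.ε₁_pos, s.ε₁_le⟩ (hF _ (hQ q hq).1).2.2.2 hρ s.t_pos.le
  have sub : ∀ q ∈ P₁, ∀ u v : ℝ, u + (S / 2 - 3 * (N * ρ)) ≤ v →
      closedBall q u ⊆ closedBall (Q q) v := fun q hq u v e =>
    closedBall_subset_closedBall' (by linarith [(hQ q hq).2])
  have wire : ∀ q ∈ P₁, ∀ x y ζ, segment ℝ x y = (fun u => ρ⁻¹ • (u - w)) ⁻¹' kcell ζ →
      segment ℝ x y ⊆ closedBall q (2 * (N * ρ)) →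
      ∫⁻ u in segment ℝ x y, ‖F u - F (x₀ (Q q))‖ₑ ∂(μH[1]) ≤ ENNReal.ofReal ε :=
    fun q hq x y ζ e1 e2 => ((loc q hq).2 x y ζ e1
      (e2.trans (sub q hq _ _ (by linarith)))).trans (ENNReal.ofReal_le_ofReal s.wire)
  refine ⟨{z | (rcube ρ w z ∩ ⋃ q ∈ 𝒬, closedBall q (S / 2 - N * ρ / 4)).Nonempty}, o.hom, o.lip,
    fun x hx => (o.mdf x hx).imp_right fun ⟨⟨u, hu, e⟩, e'⟩ =>
      ⟨⟨u, hu, e.trans s.ω_d⟩, e'.trans s.ω_d⟩,
    g4 _ ((Bornology.isBounded_biUnion_finset _).2 fun _ _ => isBounded_closedBall),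
    fun z ⟨x, hx, hx'⟩ y hy => ?_, fun x y e => o.len x y fun u hu => ?_,
    o.lip.elim fun L hL => null_image H.hom hL inter_subset_left h0,
    ⟨hl, hc, fun q hq => H.bil _ (hF _ (hQ q hq).1).2.1, fun q hq x hx y hy => ?_,
      fun q hq => ?_, fun q hq x y ζ _ e1 e2 =>
        (wire q hq x y ζ e1 e2).trans (ENNReal.ofReal_le_ofReal (by linarith))⟩,
    fun q hq x y ζ hxy e1 e2 => ?_⟩
  · obtain ⟨q, hq, e⟩ := mem_iUnion₂.1 hx'
    refine hV q hq (mem_closedBall.2 ?_)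
    have e1 := mem_closedBall.1 ((g2 z).2.2.2 x hx hy)
    have e2 := dist_triangle4 y x q (x₀ q)
    rw [dist_comm q] at e2
    linarith [(hF q hq).2.2.1, mem_closedBall.1 e]
  · refine (g6 Ω _ u (e hu).1).1 (Or.inl fun hu' => (e hu).2 ?_)
    obtain ⟨z, ⟨q, hq, hz⟩, e1⟩ := mem_iUnion₂.1 hu'
    obtain ⟨z', e2⟩ := g5 n' z s.n'_ge
    rw [← s.ρ_eq] at e2
    exact mem_iUnion₂.2 ⟨z', ⟨u, e2 (interior_subset e1),
      mem_iUnion₂.2 ⟨q, hq, hz (interior_subset e1)⟩⟩, interior_mono e2 e1⟩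
  · have e := sub q hq (2 * (N * ρ)) (S / 2 - N * ρ / 4 - 4 * a) (by linarith)
    refine (o.close _ (hQ q hq).1 x (e hx) y (e hy)).trans ?_
    change 50 * b ^ 2 * ε ≤ τ * ρ
    linarith [mul_assoc 50 (b ^ 2) ε]
  · exact ((lintegral_mono_set (sub q hq _ _ (by linarith))).trans (loc q hq).1).trans
      (ENNReal.ofReal_le_ofReal s.int)
  obtain ⟨k1, k2, k3, k4⟩ := hK n' w x y ζ ha s.n'_ge hxy (s.ρ_eq ▸ e1)
  have hΩ : segment ℝ x y ⊆ Ω := e2.trans ((closedBall_subset_closedBall (by linarith)).trans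
    ((hl q (Or.inl hq)).2.1.trans H.VΩ))
  obtain ⟨c, hc'⟩ := s.rat
  have rat : ∀ u ∈ latt w (n' * a), ∀ k, ∃ c : ℚ, u k = w k + c := fun u hu k =>
    (hu k).elim fun m e => ⟨m * (n' * (n * c)), by rw [e, s.a_eq, hc']; push_cast; rfl⟩
  refine (o.var _ (hQ q hq).1 x y (subset_inter (fun u hu => (g6 Ω _ u (hΩ hu)).1
    (Or.inr (k4 u hu))) (e2.trans (sub q hq _ (S / 2 - N * ρ / 4 - 4 * a) (by linarith)))) ?_
    ((hA x y hΩ (Or.inl ⟨rat x k1, rat y k2⟩) _ _).trans (wire q hq x y ζ e1 e2))).trans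
    (ENNReal.ofReal_le_ofReal s.ε_τ)
  have e := ok.ray _ (hQ q hq).1 0 x (sub q hq _ (S / 2 - N * ρ / 4 + a) (by linarith)
    (e2 (left_mem_segment ℝ x y))) (fun j _ => k3 j) 0 (abs_zero.le.trans (by change 0 ≤ r; linarith))
  simpa only [zero_smul, add_zero, abs_zero, zero_div] using e

end P073.P2
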