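import Vale.Agent.P073Y.P2.Sk
import Vale.Agent.P073Y.Cut.Box

/-!
# Cubes, sheets, columns and safe points
-/

open Set Metric Topology Filter

namespace P073.P2

open P073.Zn P073.Gc

namespace G1

variable {a h : ℝ} {w x : E3} {z z' : Fin 3 → ℤ} {i j : Fin 3}

theorem mem_rcube (ha : 0 < a) :
    x ∈ rcube a w z ↔ ∀ j, w j + z j * a ≤ x j ∧ x j ≤ w j + z j * a + a := by
  simp only [rcube, ucube, mem_preimage, mem_Icc, Pi.le_def, Pi.smul_apply, Pi.sub_apply,
    smul_eq_mul, ← forall_and, le_inv_mul_iff₀ ha, inv_mul_le_iff₀ ha]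
  exact forall_congr' fun j => by constructor <;> rintro ⟨h1, h2⟩ <;> constructor <;> linarith

theorem rcube_eq (ha : 0 < a) (w : E3) (z : Fin 3 → ℤ) :
    rcube a w z = Icc (fun j => w j + z j * a) fun j => w j + z j * a + a := by
  ext x
  simp only [mem_rcube ha, mem_Icc, Pi.le_def, forall_and]

theorem mem_int (ha : 0 < a) :
    x ∈ interior (rcube a w z) ↔ ∀ j, w j + z j * a < x j ∧ x j < w j + z j * a + a := by
  simp only [rcube_eq ha, ← pi_univ_Icc, interior_pi_set finite_univ, interior_Icc, mem_univ_pi,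
    mem_Ioo]

theorem noint (ha : 0 < a) (m : ℤ) (h1 : 0 < m * a) (h2 : m * a < a) : False := by
  have h3 : (0 : ℝ) < m := (mul_pos_iff_of_pos_right ha).1 h1
  have h4 : (m : ℝ) < 1 := by nlinarith
  have h5 : 0 < m := by exact_mod_cast h3
  have h6 : m < 1 := by exact_mod_cast h4
  omega

theorem uniq (ha : 0 < a) (h1 : x ∈ interior (rcube a w z)) (h2 : x ∈ interior (rcube a w z')) :
    z = z' := funext fun j => by
  obtain ⟨h3, h4⟩ := (mem_int ha).1 h1 j
  obtain ⟨h5, h6⟩ := (mem_int ha).1 h2 j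
  have h7 : (z j : ℝ) < z' j + 1 := lt_of_mul_lt_mul_right (by linarith) ha.le
  have h8 : (z' j : ℝ) < z j + 1 := lt_of_mul_lt_mul_right (by linarith) ha.le
  have h9 : z j < z' j + 1 := by exact_mod_cast h7
  have h10 : z' j < z j + 1 := by exact_mod_cast h8
  omega

theorem sheet_col (hh : 0 < h) : sheet a h w z i ⊆ colB a h w z i := fun x hx =>
  ⟨by rw [hx.1, sub_self, abs_zero]; linarith, hx.2⟩

/-- points near a column -/
theorem near (hh : 0 < h) (ha : 8 * h ≤ a) {y : E3} (hy : y ∈ colB a h w z i)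
    (hx : dist y x ≤ h / 8) : x ∈ interior (rcube a w z) ∧ ∀ j, j ≠ i →
      0 < x j - (w j + z j * a) - (x i - (w i + z i * a)) ∧
        x j - (w j + z j * a) - (x i - (w i + z i * a)) < a := by
  have h1 := fun k => abs_le.1 ((dist_le_pi_dist y x k).trans hx)
  have h2 := abs_le.1 hy.1
  refine ⟨(mem_int (by linarith)).2 fun j => ?_, fun j hj => ?_⟩
  · by_cases hj : j = i
    · subst hj
      constructor <;> linarith [h1 j, h2.1, h2.2]
    · constructor <;> linarith [h1 j, hy.2 j hj]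
  · constructor <;> linarith [h1 j, h1 i, hy.2 j hj, h2.1, h2.2]

theorem col_int (hh : 0 < h) (ha : 8 * h ≤ a) : colB a h w z i ⊆ interior (rcube a w z) :=
  fun _ hx => (near hh ha hx (by rw [dist_self]; linarith)).1

theorem same (hh : 0 < h) (ha : 8 * h ≤ a) (h1 : x ∈ sheet a h w z i)
    (h2 : x ∈ colB a h w z' j) : z = z' ∧ i = j := by
  have e := uniq (by linarith) (col_int hh ha (sheet_col hh h1)) (col_int hh ha h2)
  subst e
  refine ⟨rfl, by_contra fun e => ?_⟩
  linarith [(h1.2 j (Ne.symm e)).1, (abs_le.1 h2.1).2]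

/-- the lower corner of the column -/
noncomputable def lo (a h : ℝ) (w : E3) (z : Fin 3 → ℤ) (i : Fin 3) : E3 :=
  fun j => if j = i then w i + z i * a + h - h / 2 else w j + z j * a + 2 * h

/-- the upper corner of the column -/
noncomputable def hi (a h : ℝ) (w : E3) (z : Fin 3 → ℤ) (i : Fin 3) : E3 :=
  fun j => if j = i then w i + z i * a + h + h / 2 else w j + z j * a + a - 2 * h

theorem col_eq : colB a h w z i = Icc (lo a h w z i) (hi a h w z i) := by
  ext x
  refine ⟨fun hx => ⟨fun j => ?_, fun j => ?_⟩, fun hx => ⟨?_, fun j hj => ?_⟩⟩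
  · by_cases hj : j = i
    · rw [lo, if_pos hj, hj]
      linarith [(abs_le.1 hx.1).1]
    · rw [lo, if_neg hj]
      exact (hx.2 j hj).1
  · by_cases hj : j = i
    · rw [hi, if_pos hj, hj]
      linarith [(abs_le.1 hx.1).2]
    · rw [hi, if_neg hj]
      exact (hx.2 j hj).2
  · have h1 := hx.1 i
    have h2 := hx.2 i
    simp only [lo, hi, if_true] at h1 h2
    exact abs_le.2 ⟨by linarith, by linarith⟩
  · have h1 := hx.1 j
    have h2 := hx.2 j
    simp only [lo, hi, if_neg hj] at h1 h2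
    exact ⟨h1, h2⟩

theorem sheet_eq (hh : 0 < h) :
    sheet a h w z i = {y ∈ Icc (lo a h w z i) (hi a h w z i) | y i = w i + z i * a + h} := by
  rw [← col_eq]
  exact Subset.antisymm (fun x hx => ⟨sheet_col hh hx, hx.1⟩) fun x hx => ⟨hx.2, hx.1.2⟩

end G1

open G1 in
theorem geo1 : GEO1 := by
  intro a h w hh ha
  have h0 : 0 < a := by linarith
  have pl : ∀ z, Disjoint (plns w a) (interior (rcube a w z)) := fun z =>
    disjoint_left.2 fun x ⟨i, k, e⟩ hx => by
      obtain ⟨h1, h2⟩ := (mem_int h0).1 hx i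
      exact noint h0 (k - z i) (by push_cast; linarith) (by push_cast; linarith)
  refine ⟨fun z i => ⟨sheet_col hh, col_int hh ha, ?_, ?_, fun x hx z' j hx' => ?_⟩,
    fun z => ⟨pl z, rcube_eq h0 w z ▸ isCompact_Icc, fun x hx => ?_, fun x hx y hy => ?_⟩,
    fun x => ⟨fun j => ⌊(x j - w j) / a⌋, (mem_rcube h0).2 fun j => ?_⟩, fun Y hY => ?_,
    fun n z hn => ⟨fun j => z j / n, fun x hx => (mem_rcube (by positivity)).2 fun j => ?_⟩,
    fun Ω 𝓩 x hx => ⟨fun H => ⟨hx, fun z hz i => disjoint_left.2 fun y hy hy' => ?_⟩,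
      fun H y hy hd => ⟨hy, fun z hz i hc => (disjoint_left.1 (H.2 z hz i) hd hc).elim⟩⟩⟩
  · rw [sheet_eq hh]
    exact (convex_Icc _ _).inter
      ((convex_singleton _).linear_preimage (LinearMap.proj i : E3 →ₗ[ℝ] ℝ))
  · obtain ⟨j, hj⟩ := exists_ne i
    refine ⟨fun k => if k = i then w i + z i * a + h else w k + z k * a + 2 * h,
      ⟨if_pos rfl, fun k hk => ?_⟩, j, hj, Or.inl (if_neg hj)⟩
    simp only [if_neg hk]
    constructor <;> linarith
  · obtain ⟨rfl, rfl⟩ := same hh ha hx hx'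
    exact hx
  · rw [rcube_eq h0, Cut.Box.frontier_box] at hx
    obtain ⟨-, i, e | e⟩ := hx
    · exact ⟨i, z i, e⟩
    · exact ⟨i, z i + 1, by rw [e]; push_cast; ring⟩
  · refine (dist_pi_le_iff h0.le).2 fun j => abs_le.2 ?_
    constructor <;> linarith [(mem_rcube h0).1 hx j, (mem_rcube h0).1 hy j]
  · have h1 := (le_div_iff₀ h0).1 (Int.floor_le ((x j - w j) / a))
    have h2 := (div_lt_iff₀ h0).1 (Int.lt_floor_add_one ((x j - w j) / a))
    constructor <;> linarith
  · obtain ⟨R, hR⟩ := hY.subset_closedBall 0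
    refine (finite_Icc (fun j => ⌈(-R - w j - a) / a⌉) fun j => ⌊(R - w j) / a⌋).subset ?_
    rintro z ⟨x, hx, hx'⟩
    have h1 := fun j => abs_le.1 ((norm_le_pi_norm x j).trans (mem_closedBall_zero_iff.1 (hR hx')))
    exact ⟨fun j => Int.ceil_le.2 ((div_le_iff₀ h0).2
        (by linarith [h1 j, (mem_rcube h0).1 hx j])),
      fun j => Int.le_floor.2 ((le_div_iff₀ h0).2 (by linarith [h1 j, (mem_rcube h0).1 hx j]))⟩
  · have hn' : (0 : ℤ) < n := by exact_mod_cast hn
    have h1 : ((z j / n : ℤ) : ℝ) * n ≤ z j := by exact_mod_cast Int.ediv_mul_le (z j) hn'.ne'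
    have h2 : (z j : ℝ) + 1 ≤ ((z j / n : ℤ) + 1) * n := by
      exact_mod_cast Int.lt_ediv_add_one_mul_self (z j) hn'
    have h3 := (mem_rcube h0).1 hx j
    constructor <;> nlinarith [h3.1, h3.2]
  · obtain ⟨h1, h2⟩ := near hh ha hy' hy
    rcases H with H | H | ⟨v, hv, t, H⟩
    · exact H (mem_biUnion hz h1)
    · exact disjoint_left.1 (pl z) H h1
    · obtain ⟨j, hj⟩ := exists_ne i
      obtain ⟨k, hk⟩ := hv i
      obtain ⟨l, hl⟩ := hv j
      obtain ⟨h3, h4⟩ := h2 j hj
      rw [H i, H j, hk, hl] at h3 h4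
      exact noint h0 (l - z j - (k - z i)) (by push_cast; linarith) (by push_cast; linarith)

end P073.P2
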