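import Vale.Agent.P073Y.P2.Sk
import Vale.Agent.P073Y.Gc.Rp

/-!
# Gaps of the moved cubes, Kuhn wires of a coarser lattice
-/

open Set Metric Topology Filter

namespace P073.P2

open P073.Zn P073.Gc

namespace Geo2

theorem far {a h w t : ℝ} (ha : 0 ≤ a) {z : ℤ} (q : ℤ) (h1 : w + z * a + 2 * h ≤ t)
    (h2 : t ≤ w + z * a + a - 2 * h) : 2 * h ≤ |t - (w + q * a)| := by
  rcases le_or_gt q z with k | k
  · have : (q : ℝ) * a ≤ z * a := by gcongr
    exact le_abs.2 (Or.inl (by linarith))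
  · have k1 : (z : ℝ) + 1 ≤ q := by exact_mod_cast k
    have : ((z : ℝ) + 1) * a ≤ q * a := by gcongr
    exact le_abs.2 (Or.inr (by linarith))

theorem third : ∀ i j : Fin 3, j ≠ i → ∃ k, ∀ l, l ≠ k → l = i ∨ l = j := by decide

theorem gap {a h : ℝ} {w x : E3} (hh : 0 < h) (ha : 8 * h ≤ a) {i j : Fin 3} (hj : j ≠ i)
    {p q : ℤ} (hi : x i = w i + p * a + h) (hq : |x j - (w j + q * a)| ≤ 2 * h) : Gap a h w x := by
  obtain ⟨k, hk⟩ := third i j hj
  set x' : E3 := Function.update (Function.update x i (w i + p * a)) j (w j + q * a) with hx'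
  have e1 : x' i = w i + p * a := by simp [hx', Function.update_of_ne hj.symm]
  have e2 : x' j = w j + q * a := by simp [hx']
  refine ⟨x', k, fun l hl => ?_, ?_, ?_⟩
  · rcases hk l hl with rfl | rfl
    exacts [⟨p, e1⟩, ⟨q, e2⟩]
  · refine (dist_pi_le_iff (by positivity)).2 fun l => ?_
    rw [Real.dist_eq]
    by_cases h1 : l = j
    · rwa [h1, e2]
    by_cases h2 : l = i
    · rw [h2, e1, hi, add_sub_cancel_left, abs_of_pos hh]
      linarith
    simp [hx', Function.update_of_ne h1, Function.update_of_ne h2, hh.le]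
  · rw [segment_eq_image']
    rintro _ ⟨s, ⟨s0, s1⟩, rfl⟩ z l ⟨h1, h2⟩
    refine ⟨?_, h2⟩
    have ha0 : 0 ≤ a := by linarith
    have e3 : (x + s • (x' - x)) i - (w i + p * a) = (1 - s) * h := by
      simp only [Pi.add_apply, Pi.smul_apply, Pi.sub_apply, smul_eq_mul, e1, hi]
      ring
    have e4 : (x + s • (x' - x)) j - (w j + q * a) = (1 - s) * (x j - (w j + q * a)) := by
      simp only [Pi.add_apply, Pi.smul_apply, Pi.sub_apply, smul_eq_mul, e2]
      ring
    by_cases hl : l = i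
    · subst hl
      have k1 := far ha0 q (h2 j hj).1 (h2 j hj).2
      rw [e4, abs_mul, abs_of_nonneg (sub_nonneg.2 s1)] at k1
      have k2 : s = 0 := by
        nlinarith [mul_le_mul_of_nonneg_left hq (sub_nonneg.2 s1)]
      subst k2
      simp only [zero_smul, add_zero] at h1 ⊢
      rw [hi] at h1 ⊢
      have k3 : |((p - z l : ℤ) : ℝ)| * a < 1 * a := by
        rw [← abs_of_nonneg ha0, ← abs_mul, abs_of_nonneg ha0]
        have : ((p - z l : ℤ) : ℝ) * a = w l + p * a + h - (w l + z l * a + h) := by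
          push_cast
          ring
        rw [this]
        linarith
      have k4 : |p - z l| < 1 := by
        exact_mod_cast lt_of_mul_lt_mul_right k3 ha0
      rw [sub_eq_zero.1 (Int.abs_lt_one_iff.1 k4)]
    · have k1 := far ha0 p (h2 i (Ne.symm hl)).1 (h2 i (Ne.symm hl)).2
      rw [e3, abs_of_nonneg (mul_nonneg (sub_nonneg.2 s1) hh.le)] at k1
      nlinarith

theorem ex_int {a : ℝ} (ha : 0 < a) (t : ℝ) : ∃ z : ℤ, z * a ≤ t ∧ t ≤ z * a + a := by
  refine ⟨⌊t / a⌋, (le_div_iff₀ ha).1 (Int.floor_le _), ?_⟩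
  have := (div_lt_iff₀ ha).1 (Int.lt_floor_add_one (t / a))
  linarith

theorem int_near {c : ℝ} {S T : ℤ}
    (hS : ∀ k : ℤ, ((k : ℝ) ≤ c → (k : ℝ) ≤ S) ∧ (c ≤ k → (S : ℝ) ≤ k))
    (hT : ∀ k : ℤ, ((k : ℝ) ≤ c → (k : ℝ) ≤ T) ∧ (c ≤ k → (T : ℝ) ≤ k)) :
    T - S ≤ 1 ∧ S - T ≤ 1 := by
  have h1 := Int.floor_le c
  have h2 : c ≤ ((⌊c⌋ + 1 : ℤ) : ℝ) := by
    push_cast
    exact (Int.lt_floor_add_one c).le
  have a1 : ⌊c⌋ ≤ S := by exact_mod_cast (hS _).1 h1
  have a2 : S ≤ ⌊c⌋ + 1 := by exact_mod_cast (hS _).2 h2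
  have a3 : ⌊c⌋ ≤ T := by exact_mod_cast (hT _).1 h1
  have a4 : T ≤ ⌊c⌋ + 1 := by exact_mod_cast (hT _).2 h2
  omega

end Geo2

open Geo2

theorem geo2 : GEO2 := by
  intro a h w hh ha
  have ha0 : 0 < a := by linarith
  refine ⟨?_, fun x => ?_, fun z x hx => ?_⟩
  · rintro z i x ⟨⟨h1, -⟩, j, hj, h2 | h2⟩
    · refine gap hh ha hj (q := z j) h1 ?_
      rw [h2, add_sub_cancel_left, abs_of_pos (by positivity)]
    · refine gap hh ha hj (q := z j + 1) h1 ?_
      have : x j - (w j + ((z j + 1 : ℤ) : ℝ) * a) = -(2 * h) := by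
        rw [h2]
        push_cast
        ring
      rw [this, abs_neg, abs_of_pos (by positivity)]
  · choose z h1 h2 using fun i => ex_int ha0 (x i - w i - h)
    exact ⟨z, fun i => by linarith [h1 i], fun i => by linarith [h2 i]⟩
  · have key : ∃ (i : Fin 3) (p : ℤ), x i = w i + p * a + h := by
      by_contra hc
      push Not at hc
      have h1 := isClosed_Icc.frontier_subset hx
      refine hx.2 (mem_interior_iff_mem_nhds.2 (pi_Icc_mem_nhds (fun i => ?_) fun i => ?_))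
      · exact lt_of_le_of_ne (h1.1 i) (hc i (z i)).symm
      · refine lt_of_le_of_ne (h1.2 i) fun h2 => hc i (z i + 1) ?_
        rw [h2]
        push_cast
        ring
    obtain ⟨i, p, hi⟩ := key
    by_cases hc : ∃ j, j ≠ i ∧ ∃ q : ℤ, |x j - (w j + q * a)| ≤ 2 * h
    · obtain ⟨j, hj, q, hq⟩ := hc
      exact Or.inl (gap hh ha hj hi hq)
    push Not at hc
    choose z' h1 h2 using fun j => ex_int ha0 (x j - w j)
    refine Or.inr ⟨Function.update z' i p, i, by simpa using hi, fun j hj => ?_⟩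
    rw [Function.update_of_ne hj]
    have k1 := hc j hj (z' j)
    have k2 := hc j hj (z' j + 1)
    rw [abs_of_nonneg (by linarith [h1 j])] at k1
    push_cast at k2
    rw [abs_of_nonpos (by linarith [h2 j])] at k2
    constructor <;> linarith

theorem kw : KW := by
  intro a n w x y ζ ha hn _ h
  have hσ : (0 : ℝ) < n * a := by positivity
  obtain ⟨t, ht⟩ := exists_rp (Z := fun u => ((n : ℝ) * a)⁻¹ • (u - w))
    ((AffineEquiv.vaddConst ℝ w).symm.trans
    (LinearEquiv.smulOfNeZero ℝ E3 ((n : ℝ) * a)⁻¹ (by positivity)).toAffineEquiv)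
    (fun _ => rfl) h
  have hx : x ∈ t := extremePoints_convexHull_subset (ht.hull ▸ end_extreme x y)
  have hy : y ∈ t := extremePoints_convexHull_subset
    (ht.hull ▸ segment_symm ℝ y x ▸ end_extreme y x)
  choose X hX using ht.int hx
  choose Y hY using ht.int hy
  have e : ∀ {u : E3} {U : Fin 3 → ℤ}, (∀ i, (((n : ℝ) * a)⁻¹ • (u - w)) i = U i) →
      ∀ i, u i = w i + U i * (n * a) := fun {u U} hU i => by
    rw [← hU i, Pi.smul_apply, Pi.sub_apply, smul_eq_mul]
    field_simp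
    ring
  have ex : ∀ i, x i = w i + ((X i * n : ℤ) : ℝ) * a := fun i => by
    rw [e hX i]
    push_cast
    ring
  refine ⟨fun i => ⟨_, e hX i⟩, fun i => ⟨_, e hY i⟩, fun i => ⟨_, ex i⟩, ?_⟩
  have kx : ((n : ℝ) * a)⁻¹ • (x - w) ∈ kcell ζ := h.subset (left_mem_segment ℝ x y)
  have ky : ((n : ℝ) * a)⁻¹ • (y - w) ∈ kcell ζ := h.subset (right_mem_segment ℝ x y)
  have d1 : ∀ i, Y i - X i ≤ 1 ∧ X i - Y i ≤ 1 := fun i =>
    int_near (fun k => hX i ▸ kx.1 i k) fun k => hY i ▸ ky.1 i k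
  have d2 : ∀ i j, (Y i - Y j) - (X i - X j) ≤ 1 ∧ (X i - X j) - (Y i - Y j) ≤ 1 := fun i j =>
    int_near (c := ζ i - ζ j) (fun k => by simpa only [hX, Int.cast_sub] using kx.2 i j k)
      fun k => by simpa only [hY, Int.cast_sub] using ky.2 i j k
  rw [segment_eq_image']
  rintro _ ⟨s, -, rfl⟩
  by_cases hc : ∃ i, Y i = X i
  · obtain ⟨i, hi⟩ := hc
    refine Or.inl ⟨i, X i * n, ?_⟩
    have : y i = x i := by rw [e hX i, e hY i, hi]
    simp [this, ex i]
  push Not at hc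
  refine Or.inr ⟨x, fun i => ⟨_, ex i⟩, s * (y 0 - x 0), fun j => ?_⟩
  have k : Y j - X j = Y 0 - X 0 := by
    have := d1 j
    have := d1 0
    have := d2 j 0
    have := hc j
    have := hc 0
    omega
  have k' : (Y j : ℝ) - X j = Y 0 - X 0 := by exact_mod_cast k
  have : y j - x j = y 0 - x 0 := by
    rw [e hX j, e hY j, e hX 0, e hY 0]
    linear_combination (n * a) * k'
  simp [this]

end P073.P2
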