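import Vale.Agent.P073Y.P2.Sk2
import Vale.Agent.P073Y.Gc.Ring

/-!
# Good cubes give admissible data; the small cubes
-/

open Set Metric Topology Filter MeasureTheory
open scoped NNReal ENNReal

namespace P073.P2

open P073.Zn P073.Gc
open An (M3)

theorem Ener.weaken {u : E3 → E3} {b h : ℝ} {n : ℕ} {w : E3} {Y Y' : Set E3} {E E' : ℝ}
    (H : Ener u b h n w Y E) (hY : Y' ⊆ Y) (hE : E ≤ E') : Ener u b h n w Y' E' := by
  obtain ⟨W, h1, h2, h3⟩ := H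
  exact ⟨W, h1, fun ζ i hm hs => h2 ζ i hm (hs.trans hY),
    fun T hT => (h3 T fun k hk => ⟨(hT k hk).1, (hT k hk).2.trans hY⟩).trans hE⟩

theorem inp_of (hR : RAYD) (hE : ENER) (hS : SEP) : INP := by
  intro Ω Λ K V f f' F b N τ d δ C ρ S a h ε ε₁ t r ω n' n w 𝒬 x₀ H c hA hF
  have b1 := H.b_ge
  have n8 : (8 : ℝ) ≤ n := by exact_mod_cast c.n_ge
  have a0 : 0 < a := by
    rw [c.a_eq]
    exact mul_pos (by linarith) c.h_pos
  have s0 : 0 < N * ρ := mul_pos (by linarith [c.N_ge]) c.ρ_pos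
  have sS := c.S_ge
  have Sr := c.S_r
  have aε : a ≤ ε := (le_mul_of_one_le_left a0.le b1).trans c.a_le
  have εs : 800 * ε ≤ N * ρ := by
    have h1 := mul_le_mul_of_nonneg_right (one_le_pow₀ (n := 3) b1) (a0.le.trans aε)
    linarith [c.ε_m]
  have loc : ∀ q ∈ 𝒬, Loc Ω K f F b S r ε₁ w q (x₀ q) := fun q hq =>
    ⟨H.meas, H.cpt.isClosed, hA, c.ud, (hF q hq).2.1, (hF q hq).2.2.1,
      (closedBall_subset_cthickening (hF q hq).2.1 _).trans (c.rV.trans H.VΩ), b1,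
      (H.bil _ (hF q hq).2.1).1, by linarith, Sr, c.ε₁_pos, c.ε₁_le⟩
  have sp := fun q (hq : q ∈ 𝒬) q' (hq' : q' ∈ 𝒬) (hne : q ≠ q') =>
    hS b1 s0 (by linarith) c.ε₁_pos c.sep c.ud c.far (hF q hq).1 (hF q' hq').1 hne (hF q hq).2.1
      (hF q' hq').2.1 (hF q hq).2.2.1 (hF q' hq').2.2.1 (H.bil _ (hF q hq).2.1)
      (H.bil _ (hF q' hq').2.1)
  have e : S / 2 - N * ρ / 4 + N * ρ / 8 = S / 2 - N * ρ / 8 := by ring
  refine ⟨H.oΩ, H.oΛ, H.hom, H.cpt, H.KV.trans H.VΩ, c.thick, b1, c.h_pos, c.n_ge, c.a_eq, c.a_le,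
    (?_ : 100 * b ^ 3 * ε ≤ N * ρ / 8), c.ε_ω, (?_ : 2 * (S / 2 - N * ρ / 4) ≤ r), (?_ : a ≤ r),
    fun q hq => H.bil _ (hF q hq).2.1, fun q hq q' hq' hne => ?_, fun q hq q' hq' hne => ?_,
    fun q hq => ⟨x₀ q, (hF q hq).2.1, (hF q hq).2.2.1.trans (?_ : S / 2 ≤ r / 2), fun y hy => ?_⟩,
    c.fwd, c.inv, fun q hq x hx => c.mod x ?_, fun q hq i x hx hL s hs => ?_, fun q hq => ?_⟩
  · linarith [c.ε_m]
  · linarith
  · linarith
  · have h1 : ∀ q : E3, closedBall q (S / 2 - N * ρ / 4) ⊆ closedBall q (S / 2 - N * ρ / 8) :=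
      fun q => closedBall_subset_closedBall (by linarith)
    exact (sp q hq q' hq' hne).1.mono (h1 q) (h1 q')
  · have h1 := (sp q hq q' hq' hne).2
    rw [← e] at h1
    exact h1
  · linarith
  · have h1 : dist y q ≤ S / 2 - N * ρ / 4 + N * ρ / 8 := hy
    have h2 := (F (x₀ q)).le_of_opNorm_le (H.bil _ (hF q hq).2.1).1 (y - x₀ q)
    have h3 : dist y (x₀ q) ≤ S := by linarith [dist_triangle_right y (x₀ q) q, (hF q hq).2.2.1]
    change dist (f (x₀ q) - F (x₀ q) (x₀ q) + F (x₀ q) y) (f (x₀ q)) ≤ ω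
    rw [dist_eq_norm] at h3 ⊢
    rw [show f (x₀ q) - F (x₀ q) (x₀ q) + F (x₀ q) y - f (x₀ q) = F (x₀ q) (y - x₀ q) by
      rw [map_sub]; abel]
    exact h2.trans ((mul_le_mul_of_nonneg_left h3 (by linarith)).trans c.S_ω)
  · have h1 : dist x q ≤ S / 2 - N * ρ / 4 := hx
    refine mem_cthickening_of_dist_le x (x₀ q) r K (hF q hq).2.1 ?_
    linarith [dist_triangle_right x (x₀ q) q, (hF q hq).2.2.1]
  · have h1 : dist x q ≤ S / 2 - N * ρ / 4 + a := hx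
    obtain ⟨κ, hκ⟩ := c.rat
    refine (hR (loc q hq) (hF q hq).2.2.2 ⟨n * κ, by rw [c.a_eq, hκ]; push_cast; rfl⟩ c.t_pos c.t_le
      i x (mem_closedBall.2 (by linarith)) hL s hs).trans (?_ : _ ≤ ε + |s| / (4 * b))
    have h2 : (2 * t + 3 * ε₁) * |s| ≤ |s| / (4 * b) := by
      rw [le_div_iff₀ (by linarith), mul_right_comm]
      exact mul_le_of_le_one_left (abs_nonneg s) c.ray₁
    linarith [c.ray₂]
  · exact (hE _ (loc q hq) (hF q hq).2.2.2 c.rat c.h_pos (le_trans (by norm_num) c.n_ge) c.a_eq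
      (by linarith) c.t_pos.le).weaken
      (closedBall_subset_closedBall (show S / 2 - N * ρ / 4 ≤ S / 2 by linarith)) c.en

theorem small : SMALL := by
  classical
  intro K V s S 𝒬 𝒬' hK hs hS hV h1 h2
  have S0 : 0 < S := by linarith
  obtain ⟨T, hT⟩ := (cand_finite hK hs).exists_finset
  choose! Q hQ using fun q (h : ∃ Q ∈ 𝒬, dist q Q ≤ S / 2 - 3 * s) => h
  refine ⟨T.filter fun q => ∃ Q ∈ 𝒬, dist q Q ≤ S / 2 - 3 * s,
    T.filter fun q => ¬ ∃ Q ∈ 𝒬, dist q Q ≤ S / 2 - 3 * s, Q, fun q hq => ?_, fun x hx => ?_,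
    fun q hq => hQ q (Finset.mem_filter.1 hq).2, ?_⟩
  · obtain ⟨h3, y, h4⟩ := (hT q).1 (hq.elim (fun h => (Finset.mem_filter.1 h).1)
      fun h => (Finset.mem_filter.1 h).1)
    refine ⟨h3, fun x hx => hV (mem_cthickening_of_dist_le x y _ K h4.2 ?_), y, h4⟩
    linarith [dist_triangle_right x y q, mem_closedBall.1 hx, mem_closedBall.1 h4.1]
  · obtain ⟨q, h3, h4⟩ := exists_lat hs x
    have h5 := (hT q).2 ⟨h3, x, h4, hx⟩
    by_cases h6 : ∃ Q ∈ 𝒬, dist q Q ≤ S / 2 - 3 * s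
    · exact Or.inl (mem_cubes.2 ⟨q, Finset.mem_filter.2 ⟨h5, h6⟩, h4⟩)
    · exact Or.inr (mem_cubes.2 ⟨q, Finset.mem_filter.2 ⟨h5, h6⟩, h4⟩)
  · refine (lcount (w := 0) hs _ (fun q hq i => by
        simpa using ((hT q).1 (Finset.mem_filter.1 hq).1).1 i)
      (Y := reg 𝒬 𝒬' S (3 * s) s) fun q hq v hv => ?_).trans
      ((vol_reg (θ := 5 * s / S) S0 (by linarith) hs.le (by linarith)
        (by rw [div_mul_cancel₀ _ S0.ne']; linarith)).trans (add_le_add le_rfl ?_))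
    · obtain ⟨h3, h4⟩ := Finset.mem_filter.1 hq
      obtain ⟨-, y, h5, h6⟩ := (hT q).1 h3
      obtain ⟨z, h7, h8⟩ := exists_lat S0 y
      have h9 : dist v z ≤ S / 2 + s := by
        linarith [dist_triangle v y z, dist_triangle_right v y q, mem_ball.1 hv,
          mem_closedBall.1 h5]
      rcases h2 z h7 ⟨y, h8, h6⟩ with h | h
      · refine Or.inr (mem_biUnion h ⟨h9, fun h10 => h4 ⟨z, h, ?_⟩⟩)
        linarith [dist_triangle_left q z v, mem_ball.1 hv, mem_ball.1 h10]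
      · exact Or.inl (mem_cubes.2 ⟨z, h, h9⟩)
    · rw [← ENNReal.ofReal_ofNat 24, ← ENNReal.ofReal_mul (by norm_num),
        show 24 * (5 * s / S) = 120 * s / S by ring]
      refine mul_le_mul_right (lcount (w := 0) S0 𝒬 (fun q hq i => by simpa using (h1 q hq).1 i)
        fun q hq v hv => ?_) _
      obtain ⟨y, h3, h4⟩ := (h1 q hq).2
      refine hV (mem_cthickening_of_dist_le v y _ K h4 ?_)
      linarith [dist_triangle_right v y q, mem_ball.1 hv, mem_closedBall.1 h3]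

end P073.P2
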