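import Vale.Agent.P073Y.P2.Sk

/-!
# Lengths of paths after the surgery and the collapse
-/

open Set Metric Topology Filter MeasureTheory
open scoped NNReal ENNReal

namespace P073.P2

namespace LenA

variable {ι : Type} {s : Set ι} {c : ι → E3} {r : ι → ℝ} {u w : ℝ → E3} {Φ : E3 → E3}
  {K σ L : ℝ≥0}

/-- a piece of the path inside the balls has its ends in one closed ball -/
theorem one (h : Pth s c r u w) {a b : ℝ} (ha : 0 ≤ a) (hab : a < b) (hb : b ≤ 1)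
    (hi : ∀ τ ∈ Ioo a b, ∃ i, w τ ∈ ball (c i) (r i)) :
    ∃ i, w a ∈ closedBall (c i) (r i) ∧ w b ∈ closedBall (c i) (r i) := by
  obtain ⟨τ, hτ⟩ := nonempty_Ioo.2 hab
  obtain ⟨i, h0⟩ := hi τ hτ
  have hc : ContinuousOn w (Icc a b) := h.cw.mono (Icc_subset_Icc ha hb)
  have h1 : w '' Ioo a b ⊆ ball (c i) (r i) :=
    (isPreconnected_Ioo.image w (hc.mono Ioo_subset_Icc_self)).subset_left_of_subset_union
      (v := ⋃ j ∈ {j | j ≠ i}, ball (c j) (r j)) isOpen_ball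
      (isOpen_biUnion fun _ _ => isOpen_ball)
      (disjoint_iUnion₂_right.2 fun j hj => h.disj i j (Ne.symm hj)) (by
        rintro _ ⟨t, ht, rfl⟩
        obtain ⟨j, hj⟩ := hi t ht
        by_cases e : j = i
        exacts [.inl (e ▸ hj), .inr (mem_biUnion e hj)]) ⟨_, ⟨τ, hτ, rfl⟩, h0⟩
  have h2 : w '' Icc a b ⊆ closedBall (c i) (r i) := by
    rw [← closure_Ioo hab.ne] at hc ⊢
    exact hc.image_closure.trans
      (closure_minimal (h1.trans ball_subset_closedBall) isClosed_closedBall)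
  exact ⟨i, h2 ⟨a, left_mem_Icc.2 hab.le, rfl⟩, h2 ⟨b, right_mem_Icc.2 hab.le, rfl⟩⟩

theorem two (h : Pth s c r u w) (hΦ : LipschitzWith K Φ)
    (hσ : ∀ i, LipschitzOnWith σ Φ (closedBall (c i) (r i))) (hK : σ * L ≤ K)
    (hL : ∀ t ∈ Icc (0:ℝ) 1, ∀ t' ∈ Icc (0:ℝ) 1, edist (w t) (w t') ≤ L * edist (u t) (u t'))
    {a b : ℝ} (ha : 0 ≤ a) (hab : a ≤ b) (hb : b ≤ 1) :
    edist (Φ (w a)) (Φ (w b)) ≤ K * eVariationOn u (Icc a b) := by
  have ev : ∀ {a b : ℝ}, a ≤ b → (K : ℝ≥0∞) * edist (u a) (u b) ≤ K * eVariationOn u (Icc a b) :=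
    fun hab => mul_le_mul_right (eVariationOn.edist_le u (left_mem_Icc.2 hab) (right_mem_Icc.2 hab)) _
  have key : ∀ {a b : ℝ}, 0 ≤ a → a ≤ b → b ≤ 1 → (∀ τ ∈ Ioo a b, ∃ i, w τ ∈ ball (c i) (r i)) →
      edist (Φ (w a)) (Φ (w b)) ≤ K * eVariationOn u (Icc a b) := fun {a b} ha hab hb hi => by
    rcases hab.eq_or_lt with rfl | h1
    · rw [edist_self]
      exact zero_le
    obtain ⟨i, h2, h3⟩ := one h ha h1 hb hi
    refine (hσ i h2 h3).trans ((mul_le_mul_right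
      (hL a ⟨ha, hab.trans hb⟩ b ⟨ha.trans hab, hb⟩) _).trans (le_trans ?_ (ev hab)))
    rw [← mul_assoc, ← ENNReal.coe_mul]
    exact mul_le_mul_left (ENNReal.coe_le_coe.2 hK) _
  set F := Icc a b ∩ w ⁻¹' (⋃ i, ball (c i) (r i))ᶜ with hF
  have hc : IsCompact F := isCompact_Icc.of_isClosed_subset
    ((h.cw.mono (Icc_subset_Icc ha hb)).preimage_isClosed_of_isClosed isClosed_Icc
      (isOpen_iUnion fun _ => isOpen_ball).isClosed_compl) inter_subset_left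
  have out : ∀ τ ∈ Icc a b, τ ∉ F → ∃ i, w τ ∈ ball (c i) (r i) := fun τ h1 h2 =>
    mem_iUnion.1 (not_not.1 fun h3 => h2 ⟨h1, h3⟩)
  have eq : ∀ τ ∈ F, w τ = u τ := fun τ hτ =>
    (h.dich τ ⟨ha.trans hτ.1.1, hτ.1.2.trans hb⟩).resolve_right fun ⟨i, _, hi⟩ =>
      hτ.2 (mem_iUnion.2 ⟨i, hi⟩)
  rcases F.eq_empty_or_nonempty with e | e
  · exact key ha hab hb fun τ hτ => out τ (Ioo_subset_Icc_self hτ) (e ▸ notMem_empty τ)
  obtain ⟨x, hx⟩ := hc.exists_isLeast e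
  obtain ⟨y, hy⟩ := hc.exists_isGreatest e
  have hxy := hx.2 hy.1
  have h1 := key ha hx.1.1.1 (hx.1.1.2.trans hb) fun τ hτ =>
    out τ ⟨hτ.1.le, hτ.2.le.trans hx.1.1.2⟩ fun h => (hx.2 h).not_gt hτ.2
  have h2 := key (ha.trans hy.1.1.1) hy.1.1.2 hb fun τ hτ =>
    out τ ⟨hy.1.1.1.trans hτ.1.le, hτ.2.le⟩ fun h => (hy.2 h).not_gt hτ.1
  have h3 : edist (Φ (w x)) (Φ (w y)) ≤ K * eVariationOn u (Icc x y) := by
    rw [eq x hx.1, eq y hy.1]
    exact (hΦ _ _).trans (ev hxy)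
  have e1 := eVariationOn.Icc_add_Icc u hx.1.1.1 hxy (mem_univ x)
  have e2 := eVariationOn.Icc_add_Icc u hy.1.1.1 hy.1.1.2 (mem_univ y)
  simp only [univ_inter] at e1 e2
  rw [← e2, ← e1, mul_add, mul_add]
  exact (edist_triangle4 _ (Φ (w x)) (Φ (w y)) _).trans (add_le_add (add_le_add h1 h3) h2)

end LenA

theorem len2 : LEN2 := by
  intro ι _ s c r u w Φ K σ L h hΦ hσ hK hL t t' ht ht'
  refine iSup_le ?_
  rintro ⟨n, E, hE, hm⟩
  refine (Finset.sum_le_sum fun i _ => (edist_comm _ _).trans_le (LenA.two h hΦ hσ hK hL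
    (ht.trans (hm i).1) (hE i.le_succ) ((hm (i + 1)).2.trans ht'))).trans ?_
  rw [← Finset.mul_sum, eVariationOn.sum' u hE]
  exact mul_le_mul_right (eVariationOn.mono u (Icc_subset_Icc (hm 0).1 (hm n).2)) _

end P073.P2
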