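import Vale.Agent.P073Y.P2.Sk
import Vale.Agent.P073Y.Ms.Start
import Vale.Agent.P073Y.Gc.Pre
import Vale.Agent.P073Z.MESH
import Vale.Agent.P073Z.ACC.Mid

/-!
# Uniform approximation by PL homeomorphisms
-/

open Set Metric Topology Filter MeasureTheory
open scoped NNReal ENNReal

namespace P073.P2

theorem plap : PLAP := by
  intro Ω Λ f f' F hΩ hΛ cΩ _ bΛ hf _ hF hw e he
  obtain ⟨K₂, H⟩ := M2.tgt
  obtain ⟨M₀, Mt, S, -, hM⟩ := mesh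
  obtain ⟨δ, ς, T, d1, -, s1, s2, s3, -⟩ := M2.exists_gauges hΩ hΛ hf (o := fun _ => 1)
    ⟨continuousOn_const, fun _ _ => one_pos⟩ (show 0 < e / 4 by positivity) (O := fun _ => ∅)
    (fun x _ => ⟨univ, univ_mem, by simp⟩) (a := fun _ => 1) fun _ => one_pos
  obtain ⟨w, hw'⟩ := (Gc.ae_good hΩ hf.cont hF hw).exists
  obtain ⟨𝓜⟩ := hM ⟨0, Fin.elim0, Fin.elim0, Fin.elim0, ς, 0, 1, w⟩ hΩ
    ⟨fun j => j.elim0, le_rfl, fun j => j.elim0, s1, s2, fun j => j.elim0, fun j => j.elim0⟩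
  have hc : ∀ i, 𝓜.Q.cell i ⊆ Ω := fun i => (𝓜.Q.cell_subset_carrier i).trans_eq 𝓜.carrier
  have h0 : ∀ y, y ∉ Inf.gim (M2.none 𝓜.Q f STR.kap 1) := fun y hy => (M2.gim_none _ _ _ _).subset hy
  obtain ⟨g, -, -, -, h⟩ := H (fun _ => M2.none 𝓜.Q f STR.kap 1) (fun _ => 1)
    ⟨hΩ, hΛ, cΩ, hf.mapsTo.image_subset.antisymm (fun y hy => ⟨_, hf.mapsTo_inv hy,
      hf.right_inv hy⟩) ▸ cΩ.isPreconnected.image f hf.cont, bΛ, hf, genbv hΩ hf.cont hF hw⟩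
    T 𝓜.cvx 𝓜.carrier (fun i x y h1 h2 => by
      obtain ⟨-, ⟨u, a1, a2⟩, v, b1, b2⟩ := Mid.ends 𝓜.cvx h1 h2
      exact Mid.segVar_lt_top (hw' x y (h2 ▸ hc i) (𝓜.rat u a1 x a2) (𝓜.rat v b1 y b2)))
    (fun _ => one_pos) (fun _ => one_pos) (fun i x hx y hy => s3 x (hc i hx) y (hc i hy)
      (dist_comm x y ▸ 𝓜.small i x hx y hy)) (fun _ y hy => (h0 y hy).elim)
    fun _ _ _ y hy => (h0 y hy).elim
  exact ⟨g, fun x hx => by linarith [h x hx, d1 (f x)]⟩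

end P073.P2
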