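import Vale.Agent.P073Y.P2.Sk2

/-!
# The modified map for the exponent two: assembly
-/

open Set Metric Topology Filter MeasureTheory
open scoped NNReal ENNReal

namespace P073.P2

open P073.Zn P073.Gc

theorem ph_meas {F : E3 → An.M3} {K : Set E3} (hF : Measurable F) (hK : IsClosed K) (b : ℝ) :
    Measurable (ph F K b) :=
  (hF.enorm.add_const _).indicator hK.measurableSet.compl

theorem ph_le_sq (F : E3 → An.M3) (K : Set E3) {b : ℝ} (hb : 1 ≤ b) (x : E3) :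
    ph F K b x ≤ ph F K b x ^ 2 := by
  by_cases hx : x ∈ Kᶜ
  · have h : 1 ≤ ph F K b x := by
      rw [ph, indicator_of_mem hx]
      exact le_add_left (ENNReal.one_le_ofReal.2 hb)
    rw [sq]
    exact le_mul_of_one_le_right' h
  · rw [ph, indicator_of_notMem hx]
    exact zero_le

theorem mean_null {Z : Set E3} (hZ : MeasurableSet Z) (h : volume Z = 0) :
    Mean 1 (Z.indicator fun _ => ⊤) 0 := by
  refine ⟨measurable_const.indicator hZ, ?_⟩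
  rw [lintegral_indicator hZ, setLIntegral_const, Measure.restrict_apply hZ,
    measure_mono_null inter_subset_left h]
  simp

theorem pre2_of (h1 : PLAP) (h2 : DET) (h3 : ACL) (h4 : NULLP) (h5 : UD) (h6 : BADQ) (h7 : SCAL)
    (h8 : INP) (h9 : SMALL) (h10 : FIN) : PRE 2 := by
  classical
  obtain ⟨C, h6⟩ := h6
  refine ⟨19, by norm_num, ?_⟩
  intro Ω Λ K V f f' F b hΩ hΛ hc hbΩ hbΛ hf hF hl hw hi hK hV hKV hVΩ hvol hb hbil hcont hmax
    N τ d δ hN hτ hd hδ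
  have H : Hyp Ω Λ K V f f' F b := ⟨hΩ, hΛ, hf, hF, hi, hK, hV, hKV, hVΩ, hvol, hb, hbil,
    h5 hΩ hf.cont hl hw hK (hKV.trans hVΩ) hcont hmax⟩
  obtain ⟨k₁, hk⟩ := h7 H N τ d δ C hN hτ hd hδ
  refine ⟨k₁, fun k hk' => ?_⟩
  obtain ⟨S, a, h, ε, ε₁, t, r, ω, n', n, sc⟩ := hk k hk'
  set ρ : ℝ := 2⁻¹ ^ k with hρ
  have ρ0 := sc.ρ_pos
  have s0 : 0 < N * ρ := by positivity
  have S0 : 0 < S := by linarith [sc.S_ge]
  have a0 : 0 < a := by
    rw [sc.a_eq]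
    exact mul_pos (Nat.cast_pos.2 (by linarith [sc.n_ge])) sc.h_pos
  have aρ : a ≤ ρ := by
    rw [sc.ρ_eq]
    exact le_mul_of_one_le_left a0.le (Nat.one_le_cast.2 sc.n'_ge)
  have ρS : ρ ≤ S := by nlinarith [sc.S_ge]
  have r0 : 0 ≤ 2 * r := by linarith [sc.S_r]
  obtain ⟨Φ, m1, m2⟩ := h6 (X := cthickening (3 * r) K) (ph_meas hF hK.isClosed b)
    (ph_le_sq F K hb) isClosed_cthickening.measurableSet a0 aρ ρS sc.ρ_le r0 sc.t_pos
    (show 1 ≤ n by linarith [sc.n_ge])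
  have ae := (h3 hΩ hf.cont hF hl hw).and (h4 hΩ hbΛ hf ρ0)
  obtain ⟨Z, z1, z2, z3⟩ := exists_measurable_superset_of_null (ae_iff.1 ae)
  have m0 : Mean 1 (fun _ => δ / 2) (δ / 2) := ⟨measurable_const, (setLIntegral_const _ _).le⟩
  refine ⟨_, (((m1.const_mul 8).add m0).add (mean_null z2 z3)).mono ?_, fun w hw' => ?_⟩
  · rw [add_zero]
    exact (add_le_add sc.small le_rfl).trans (ENNReal.add_halves δ).le
  have hwZ : w ∉ Z := fun h => by simp [indicator_of_mem h] at hw'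
  obtain ⟨g1, g2⟩ : Acl Ω f F w ∧ volume (f '' (Ω ∩ plns w ρ)) = 0 := by
    by_contra h
    exact hwZ (z1 h)
  obtain ⟨T, hT⟩ := (cand_finite hK S0).exists_finset
  choose! x₀ hx₀ using fun q (hq : q ∈ T) => ((hT q).1 hq).2
  set G : E3 → Prop := fun q => Gq (ph F K b) ρ a S (2 * r) t n w q with hG
  have fam : Fam K F b ρ a S r t n w (T.filter G) x₀ := fun q hq => by
    obtain ⟨q1, q2⟩ := Finset.mem_filter.1 hq
    exact ⟨((hT q).1 q1).1, (hx₀ q q1).2, (hx₀ q q1).1, q2⟩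
  obtain ⟨f₁, f₁', out⟩ := h2 _ (h8 H sc g1 fam) (h1 hΩ hΛ hc hbΩ hbΛ hf hF hl hw)
  obtain ⟨P₁, P₂, Q, p1, p2, p3, p4⟩ := h9 (V := V) (T.filter G) (T.filter fun q => ¬ G q) hK s0
    sc.S_ge ((cthickening_mono (by linarith [sc.S_r]) K).trans sc.rV)
    (fun q hq => (hT q).1 (Finset.mem_filter.1 hq).1) fun q q1 q2 => by
      by_cases hq : G q
      · exact Or.inl (Finset.mem_filter.2 ⟨(hT q).2 ⟨q1, q2⟩, hq⟩)
      · exact Or.inr (Finset.mem_filter.2 ⟨(hT q).2 ⟨q1, q2⟩, hq⟩)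
  obtain ⟨𝓣, pre⟩ := h10 H sc g1 g2 fam out p1 p2 p3
  refine ⟨P₁, P₂, _, 𝓣, f₁, f₁', pre, p4.trans (le_trans (add_le_add (mul_le_mul_right
    (m2 w _ fun q hq => ?_) 8) sc.collar) le_self_add)⟩
  obtain ⟨q1, q2⟩ := Finset.mem_filter.1 hq
  refine ⟨((hT q).1 q1).1, fun x hx => mem_cthickening_of_dist_le x (x₀ q) _ K (hx₀ q q1).2 ?_, q2⟩
  linarith [dist_triangle_right x (x₀ q) q, mem_closedBall.1 hx, mem_closedBall.1 (hx₀ q q1).1,
    sc.S_r]

end P073.P2
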