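import Vale.Agent.P073Y.P2.Sk2

/-!
# The cubes with a heavy ray
-/

open Set Metric Topology Filter MeasureTheory
open scoped NNReal ENNReal

namespace P073.P2

open P073.Zn P073.Gc

namespace RaysX

theorem step {S : ℝ} (hS : 0 < S) {m m' : ℤ} (h : m ≠ m') :
    m * S + S ≤ m' * S ∨ m' * S + S ≤ m * S := by
  refine (lt_or_gt_of_ne h).imp (fun h => ?_) fun h => ?_
  · have h1 : (m : ℝ) + 1 ≤ m' := by exact_mod_cast h
    nlinarith
  · have h1 : (m' : ℝ) + 1 ≤ m := by exact_mod_cast h
    nlinarith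

theorem fib {α β : Type} [DecidableEq β] (T : Finset α) (κ : α → β) (D : Finset β)
    (hD : ∀ a ∈ T, κ a ∈ D) {c : ℝ≥0∞} {B : β → ℝ≥0∞}
    (h : ∀ b ∈ D, c * (T.filter (κ · = b)).card ≤ B b) : c * T.card ≤ ∑ b ∈ D, B b := by
  rw [Finset.card_eq_sum_card_fiberwise (f := κ) (t := D) hD, Nat.cast_sum, Finset.mul_sum]
  exact Finset.sum_le_sum h

/-- the lateral coordinates -/
def lt (i : Fin 3) (y : E3) : Fin 2 → ℝ := fun k => y (i.succAbove k)

theorem lt_meas (i : Fin 3) : Measurable (lt i) :=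
  measurable_pi_lambda _ fun _ => measurable_pi_apply _

theorem seg {x y : E3} {i : Fin 3} {s : ℝ} (hs : 0 ≤ s)
    (h : y ∈ segment ℝ (x - s • ev i) (x + s • ev i)) : dist y x ≤ s ∧ ∀ j, j ≠ i → y j = x j := by
  have hn : ‖s • ev i‖ = s := by
    rw [norm_smul, ev, Pi.norm_single, norm_one, mul_one, Real.norm_of_nonneg hs]
  refine ⟨(convex_closedBall x s).segment_subset ?_ ?_ h, fun j hj => ?_⟩
  · rw [mem_closedBall, dist_eq_norm, sub_sub_cancel_left, norm_neg, hn]
  · rw [mem_closedBall, dist_eq_norm, add_sub_cancel_left, hn]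
  · obtain ⟨α, β, -, -, h1, rfl⟩ := h
    simp only [ev, Pi.add_apply, Pi.sub_apply, Pi.smul_apply, Pi.single_eq_of_ne hj, smul_eq_mul]
    linear_combination x j * h1

/-- one line -/
theorem one (h : VIT1) (ν : Measure E3) (i : Fin 3) (T : Finset E3) (x : E3 → E3) (s : E3 → ℝ)
    {S t : ℝ} (hS : 0 < S) (ht : 0 ≤ t)
    (hT : ∀ q ∈ T, q ∈ lat0 S ∧ dist (x q) q ≤ S / 2 ∧ 0 ≤ s q ∧
      ENNReal.ofReal (t * (s q + S)) ≤ ν ((fun y => y i) ⁻¹' closedBall (x q i) (s q)))
    (hi : ∀ q ∈ T, ∀ q' ∈ T, q i = q' i → q = q') :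
    ENNReal.ofReal (t * S) * T.card ≤ 10 * ν univ := by
  classical
  choose! m hm using fun q hq => (hT q hq).1 i
  choose! φ h1 h2 using fun k (hk : k ∈ T.image m) => Finset.mem_image.1 hk
  have h3 := h (ν.map fun y => y i) (T.image m) (fun k => x (φ k) i) (fun k => s (φ k)) hS ht
    fun k hk => by
      obtain ⟨-, a1, a2, a3⟩ := hT _ (h1 k hk)
      refine ⟨?_, a2, ?_⟩
      · rw [← h2 k hk, ← hm _ (h1 k hk), h2 k hk, ← Real.dist_eq]
        exact (dist_le_pi_dist _ _ i).trans a1
      · rwa [Measure.map_apply (measurable_pi_apply i) measurableSet_closedBall]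
  rwa [Measure.map_apply (measurable_pi_apply i) .univ, preimage_univ,
    Finset.card_image_of_injOn fun q hq q' hq' e => hi q hq q' hq' (by
      rw [hm q hq, hm q' hq', e])] at h3

end RaysX

open RaysX

theorem vit1 : VIT1 := by
  intro μ T x s S t hS ht hT
  have hr : ∀ m ∈ T, 0 ≤ s m + S := fun m hm => add_nonneg (hT m hm).2.1 hS.le
  obtain ⟨u, hu, hd, hc⟩ := Vitali.exists_disjoint_subfamily_covering_enlargement_closedBall
    (T : Set ℤ) x (fun m => s m + S) (∑ m ∈ T, (s m + S))
    (fun a ha => Finset.single_le_sum hr ha) 5 (by norm_num)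
  lift u to Finset ℤ using T.finite_toSet.subset hu
  have h1 : ENNReal.ofReal S * T.card ≤ ∑ b ∈ u, ENNReal.ofReal (2 * (5 * (s b + S))) :=
    calc _ = ∑ m ∈ T, volume (Ioo (m * S - S / 2) (m * S + S / 2)) := by
          rw [Finset.sum_congr rfl fun m _ => show _ = ENNReal.ofReal S by
            rw [Real.volume_Ioo]; congr 1; ring, Finset.sum_const, nsmul_eq_mul, mul_comm]
      _ = volume (⋃ m ∈ T, Ioo (m * S - S / 2) (m * S + S / 2)) := by
          refine (measure_biUnion_finset (fun m _ m' _ h => disjoint_left.2 fun y h1 h2 => ?_)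
            fun _ _ => measurableSet_Ioo).symm
          rcases step hS h with h | h <;> linarith [h1.1, h1.2, h2.1, h2.2]
      _ ≤ volume (⋃ b ∈ u, closedBall (x b) (5 * (s b + S))) := by
          refine measure_mono (iUnion₂_subset fun m hm y hy => ?_)
          obtain ⟨b, hb, h⟩ := hc m hm
          obtain ⟨a1, a2, -⟩ := hT m hm
          refine mem_iUnion₂.2 ⟨b, hb, h ?_⟩
          rw [mem_closedBall, Real.dist_eq, abs_le]
          rw [abs_le] at a1
          constructor <;> linarith [hy.1, hy.2, a1.1, a1.2]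
      _ ≤ _ := (measure_biUnion_finset_le _ _).trans_eq
          (Finset.sum_congr rfl fun _ _ => Real.volume_closedBall _ _)
  calc _ = ENNReal.ofReal t * (ENNReal.ofReal S * T.card) := by
        rw [ENNReal.ofReal_mul ht, mul_assoc]
    _ ≤ ∑ b ∈ u, 10 * μ (closedBall (x b) (s b)) := by
        refine (mul_le_mul_right h1 _).trans ((Finset.mul_sum _ _ _).trans_le
          (Finset.sum_le_sum fun b hb => ?_))
        refine le_of_eq_of_le ?_ (mul_le_mul_right (hT b (hu hb)).2.2 10)
        rw [← ENNReal.ofReal_mul ht, ← ENNReal.ofReal_ofNat 10,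
          ← ENNReal.ofReal_mul (by norm_num)]
        congr 1
        ring
    _ ≤ _ := by
        rw [← Finset.mul_sum]
        refine mul_le_mul_right (sum_measure_le_measure_univ
          (fun _ _ => measurableSet_closedBall.nullMeasurableSet) fun b hb b' hb' h => ?_) _
        exact ((hd hb hb' h).mono (closedBall_subset_closedBall (by linarith))
          (closedBall_subset_closedBall (by linarith))).aedisjoint

theorem rays_of (h : VIT1) : RAYS := by
  intro u X a S r t w T _ _ ha hS ht hT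
  classical
  choose! i x hx hl s hs hν using fun q hq => (hT q hq).2.2
  set G := {y ∈ X | a⁻¹ • (y - w) ∈ gridLines}
  set ν := ((μH[1] : Measure E3).restrict G).withDensity u with e
  have h0 : ν univ = ∫⁻ y in G, u y ∂(μH[1]) := by
    rw [e, withDensity_apply _ .univ, Measure.restrict_univ]
  refine (fib T (fun q => (i q, fun k => decide (lt (i q) q k ≤ lt (i q) (x q) k))) Finset.univ
    (fun _ _ => Finset.mem_univ _) (B := fun _ => 10 * ν univ) ?_).trans_eq (by
      rw [h0, Finset.sum_const, nsmul_eq_mul, ← mul_assoc]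
      norm_num)
  rintro ⟨d, c⟩ -
  refine (fib _ (fun q => lt d (x q)) _
    (fun q hq => Finset.mem_image_of_mem (fun q => lt d (x q)) hq)
    (B := fun p => 10 * ν (lt d ⁻¹' {p})) fun p _ => ?_).trans (by
      rw [← Finset.mul_sum, sum_measure_preimage_singleton _ fun p _ =>
        lt_meas d (measurableSet_singleton p)]
      exact mul_le_mul_right (measure_mono (subset_univ _)) _)
  have hp := lt_meas d (measurableSet_singleton p)
  rw [← Measure.restrict_apply_univ]
  refine one h _ d _ x s hS ht (fun q hq₀ => ?_) fun q hq q' hq' hd => ?_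
  · obtain ⟨hq, h1⟩ := Finset.mem_filter.1 (Finset.mem_filter.1 hq₀).1
    obtain rfl := (Finset.mem_filter.1 hq₀).2
    obtain rfl := (Prod.mk.inj h1).1
    have hm : MeasurableSet ((fun y : E3 => y (i q)) ⁻¹' closedBall (x q (i q)) (s q)) :=
      measurable_pi_apply _ measurableSet_closedBall
    refine ⟨(hT q hq).1, hx q hq, (hs q hq).1, (hν q hq).trans ?_⟩
    rw [Measure.restrict_apply hm, e, withDensity_apply _ (hm.inter hp),
      Measure.restrict_restrict (hm.inter hp)]
    refine lintegral_mono_set fun y hy => ?_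
    obtain ⟨b1, b2⟩ := seg (hs q hq).1 hy
    refine ⟨⟨(dist_le_pi_dist y _ _).trans b1, funext fun k => b2 _ (Fin.succAbove_ne _ k)⟩,
      (hT q hq).2.1 ?_, i q, fun j hj => ?_⟩
    · exact (dist_triangle y (x q) q).trans
        ((add_le_add (b1.trans (hs q hq).2) (hx q hq)).trans_eq (add_comm _ _))
    · obtain ⟨k, hk⟩ := hl q hq j hj
      refine ⟨k, ?_⟩
      rw [Pi.smul_apply, Pi.sub_apply, b2 j hj, hk, smul_eq_mul]
      field_simp
      ring
  · obtain ⟨hq, p1⟩ := Finset.mem_filter.1 hq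
    obtain ⟨hq, h1⟩ := Finset.mem_filter.1 hq
    obtain ⟨hq', p2⟩ := Finset.mem_filter.1 hq'
    obtain ⟨hq', h2⟩ := Finset.mem_filter.1 hq'
    obtain ⟨e1, c1⟩ := Prod.mk.inj h1
    obtain ⟨e2, c2⟩ := Prod.mk.inj h2
    rw [e1] at c1
    rw [e2] at c2
    funext j
    rcases eq_or_ne j d with rfl | hj
    · exact hd
    obtain ⟨k, rfl⟩ := Fin.exists_succAbove_eq hj
    obtain ⟨m, hm⟩ := (hT q hq).1 (d.succAbove k)
    obtain ⟨m', hm'⟩ := (hT q' hq').1 (d.succAbove k)
    have a1 := abs_le.1 ((Real.dist_eq _ _).ge.trans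
      ((dist_le_pi_dist (x q) q (d.succAbove k)).trans (hx q hq)))
    have a2 := abs_le.1 ((Real.dist_eq _ _).ge.trans
      ((dist_le_pi_dist (x q') q' (d.succAbove k)).trans (hx q' hq')))
    have a3 : x q (d.succAbove k) = x q' (d.succAbove k) := congrFun (p1.trans p2.symm) k
    have a4 : q (d.succAbove k) ≤ x q (d.succAbove k) ↔
        q' (d.succAbove k) ≤ x q' (d.succAbove k) :=
      decide_eq_decide.1 (congrFun (c1.trans c2.symm) k)
    rw [hm, hm'] at a4 ⊢
    rw [hm] at a1
    rw [hm'] at a2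
    by_contra hn
    have a5 := step hS (m := m) (m' := m') fun e => hn (by rw [e])
    by_cases a6 : m * S ≤ x q (d.succAbove k)
    · rcases a5 with a5 | a5 <;> linarith [a4.1 a6, a1.2, a2.2]
    · rcases a5 with a5 | a5 <;> linarith [not_le.1 a6, not_le.1 (mt a4.2 a6), a1.1, a2.1]

end P073.P2
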