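import Vale.Agent.P073Y.P2.Sk2
import Vale.Agent.P073Y.Gc.Solid

/-!
# The modified map for the exponent two: the scales
-/

open Set Metric Topology Filter MeasureTheory
open scoped NNReal ENNReal

namespace P073.P2

open P073.Zn P073.Gc
open An (M3)

namespace Scl

theorem ev_le {ι : Type} {l : Filter ι} {u : ι → ℝ} (h : Tendsto u l (𝓝 0)) (c : ℝ) {c' : ℝ}
    (hc : 0 < c') : ∀ᶠ i in l, c * u i ≤ c' := by
  have h1 := h.const_mul c
  rw [mul_zero] at h1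
  exact h1.eventually (ge_mem_nhds hc)

theorem sm (c : ℝ) {c' : ℝ} (hc : 0 < c') : ∀ᶠ t in 𝓝[>] (0 : ℝ), c * t ≤ c' :=
  ev_le (u := id) (tendsto_id'.2 nhdsWithin_le_nhds) c hc

theorem ex_pos {P : ℝ → Prop} (h : ∀ᶠ t in 𝓝[>] (0 : ℝ), P t) : ∃ t, 0 < t ∧ P t :=
  (eventually_mem_nhdsWithin.and h).exists

theorem unif {f : E3 → E3} {X Y : Set E3} (hX : IsCompact X) (hY : X ⊆ Y) (hf : ContinuousOn f Y)
    {e : ℝ} (he : 0 < e) :
    ∃ c, 0 < c ∧ ∀ x ∈ X, ∀ y ∈ X, dist x y ≤ c → dist (f x) (f y) ≤ e :=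
  Metric.uniformContinuousOn_iff_le.1 (hX.uniformContinuousOn_of_continuous (hf.mono hY)) e he

theorem near {X : Set E3} {x y : E3} {r s : ℝ} (hr : 0 ≤ r) (hs : 0 ≤ s)
    (hx : x ∈ cthickening r X) (h : dist y x ≤ s) : y ∈ cthickening (s + r) X :=
  cthickening_cthickening_subset hs hr X (mem_cthickening_of_dist_le y x s _ hx h)

theorem sq_le (x y : ℝ≥0∞) : (x + y) ^ 2 ≤ 4 * x ^ 2 + 4 * y ^ 2 := by
  rcases le_total x y with h | h
  · calc (x + y) ^ 2 ≤ (y + y) ^ 2 := by gcongr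
      _ = 4 * y ^ 2 := by ring
      _ ≤ _ := le_add_self
  · calc (x + y) ^ 2 ≤ (x + x) ^ 2 := by gcongr
      _ = 4 * x ^ 2 := by ring
      _ ≤ _ := le_self_add

variable {Ω Λ K V : Set E3} {f f' : E3 → E3} {F : E3 → M3} {b : ℝ}

theorem small (H : Hyp Ω Λ K V f f' F b) {e : ℝ≥0∞} (he : 0 < e) :
    ∃ r, 0 < r ∧ cthickening r K ⊆ V ∧ ∫⁻ x in cthickening r K, ph F K b x ^ 2 ≤ e := by
  obtain ⟨r₀, h0, h1⟩ := H.cpt.exists_cthickening_subset_open H.oV H.KV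
  have h2 : ∫⁻ x in cthickening r₀ K, (‖F x‖ₑ + ENNReal.ofReal b) ^ 2 ≠ ⊤ := by
    refine ne_top_of_le_ne_top ?_ ((lintegral_mono_set h1).trans
      (lintegral_mono fun x => sq_le _ _))
    have h3 := H.int
    simp only [ENNReal.rpow_two] at h3
    rw [lintegral_add_right _ measurable_const, lintegral_const_mul' _ _ (by simp),
      setLIntegral_const]
    exact ENNReal.add_ne_top.2 ⟨ENNReal.mul_ne_top (by simp) h3.ne, ENNReal.mul_ne_top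
      (ENNReal.mul_ne_top (by simp) (ENNReal.pow_ne_top ENNReal.ofReal_ne_top)) H.vol.ne⟩
  obtain ⟨r, h3, h4, h5⟩ := tail _ H.cpt.isClosed h0 h2 he
  refine ⟨r, h3, (cthickening_mono h4 K).trans h1, le_trans (le_of_eq ?_) h5⟩
  have h6 := H.cpt.isClosed.measurableSet.compl
  rw [sdiff_eq, inter_comm, ← Measure.restrict_restrict h6, ← lintegral_indicator h6]
  refine lintegral_congr fun x => ?_
  by_cases hx : x ∈ Kᶜ
  · rw [ph, indicator_of_mem hx, indicator_of_mem hx]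
  · rw [ph, indicator_of_notMem hx, indicator_of_notMem hx, zero_pow two_ne_zero]

theorem fwd (H : Hyp Ω Λ K V f f' F b) {L : Set E3} (hL : IsCompact L) (hΛ : L ⊆ Λ) {e : ℝ}
    (he : 0 < e) : ∃ r, 0 < r ∧ ∀ y ∈ Ω, f y ∈ L → ∀ x, dist x y ≤ r →
      x ∈ Ω ∧ dist (f x) (f y) ≤ e := by
  have h1 : IsCompact (f' '' L) := hL.image_of_continuousOn (H.hom.cont_inv.mono hΛ)
  obtain ⟨r₁, h2, h3⟩ := h1.exists_cthickening_subset_open H.oΩ
    (image_subset_iff.2 fun y hy => H.hom.mapsTo_inv (hΛ hy))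
  obtain ⟨r₂, h4, h5⟩ := unif h1.cthickening h3 H.hom.cont he
  refine ⟨min r₁ r₂, lt_min h2 h4, fun y hy hf x hx => ?_⟩
  have h6 : y ∈ f' '' L := ⟨f y, hf, H.hom.left_inv hy⟩
  have h7 := mem_cthickening_of_dist_le x y r₁ _ h6 (hx.trans (min_le_left _ _))
  exact ⟨h3 h7, h5 x h7 y (self_subset_cthickening _ h6) (hx.trans (min_le_right _ _))⟩

/-- the scale free constants -/
structure Cst (b N τ c m e t : ℝ) (n' : ℕ) : Prop where
  m_ge : 10 ≤ m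
  m_c : 120 / m ≤ c
  e_pos : 0 < e
  e1 : 800 * b ^ 3 * e ≤ N
  e2 : 3000 * b ^ 2 * e ≤ τ
  n1 : 1 ≤ n'
  n2 : b ≤ e * n'
  t0 : 0 < t
  t1 : 1 * t ≤ 1 / 2
  t2 : 20 * b * t ≤ 1
  t3 : 5 * (m * N) * t ≤ e
  t4 : 10000 * b * ((m * N) ^ 3 * n' + 1) * t ≤ e ^ 2
  t5 : 2 * t ≤ e
  t6 : (2 * (m * N) ^ 3 + 2) * t ≤ τ
  t7 : 100 * b * (m * N) * t ≤ N

theorem cst (b : ℝ) {N τ c : ℝ} (hN : 1 ≤ N) (hτ : 0 < τ) (hc : 0 < c) :
    ∃ m e t n', Cst b N τ c m e t n' := by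
  have hN0 : 0 < N := by linarith
  obtain ⟨m, hm, hmc⟩ : ∃ m : ℝ, 10 ≤ m ∧ 120 / m ≤ c := ⟨max 10 (120 / c), le_max_left _ _, by
    rw [div_le_comm₀ (lt_max_of_lt_left (by norm_num)) hc]
    exact le_max_right _ _⟩
  obtain ⟨e, he, he1, he2⟩ := ex_pos ((sm (800 * b ^ 3) hN0).and (sm (3000 * b ^ 2) hτ))
  obtain ⟨n', hn1, hn2⟩ : ∃ n' : ℕ, 1 ≤ n' ∧ b ≤ e * n' := ⟨⌈b / e⌉₊ + 1, by simp, by
    rw [← div_le_iff₀' he]
    push_cast
    linarith [Nat.le_ceil (b / e)]⟩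
  obtain ⟨t, t0, t1, t2, t3, t4, t5, t6, t7⟩ := ex_pos ((sm 1 one_half_pos).and
    ((sm (20 * b) one_pos).and ((sm (5 * (m * N)) he).and
    ((sm (10000 * b * ((m * N) ^ 3 * n' + 1)) (pow_pos he 2)).and ((sm 2 he).and
    ((sm (2 * (m * N) ^ 3 + 2) hτ).and (sm (100 * b * (m * N)) hN0)))))))
  exact ⟨m, e, t, n', hm, hmc, he, he1, he2, hn1, hn2, t0, t1, t2, t3, t4, t5, t6, t7⟩

theorem Cst.num {b N τ c m e t ρ : ℝ} {n' : ℕ} (h : Cst b N τ c m e t n') (hN : 1 ≤ N)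
    (hρ : 0 < ρ) : 10 * (N * ρ) ≤ m * N * ρ ∧ 120 * (N * ρ) / (m * N * ρ) ≤ c ∧
    b * (ρ / n') ≤ e * ρ ∧ 800 * b ^ 3 * (e * ρ) ≤ N * ρ ∧ 3000 * b ^ 2 * (e * ρ) ≤ τ * ρ ∧
    (2 * t + 3 * t) * (m * N * ρ) ≤ e * ρ ∧
    10000 * b * (t * (m * N * ρ) ^ 3 / (ρ / n') + t * ρ ^ 2) ≤ (e * ρ) ^ 2 ∧
    (t + t) * ρ ≤ e * ρ ∧ 2 * t * (m * N * ρ) ^ 3 + 2 * t * ρ ^ 3 ≤ τ * ρ ^ 3 ∧
    100 * b * t * (m * N * ρ) ≤ N * ρ ∧ m * N * ρ / (ρ / n') = m * N * n' := by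
  have hn0 : (0 : ℝ) < n' := by exact_mod_cast h.n1
  have hN0 : 0 < N := by linarith
  have hm : 0 < m := by linarith [h.m_ge]
  have k : ∀ {x y : ℝ}, x ≤ y → ∀ j : ℕ, x * ρ ^ j ≤ y * ρ ^ j := fun hx j =>
    mul_le_mul_of_nonneg_right hx (pow_pos hρ j).le
  refine ⟨?_, ?_, ?_, by linarith [k h.e1 1], by linarith [k h.e2 1], by linarith [k h.t3 1], ?_,
    by linarith [k h.t5 1], by linarith [k h.t6 3], by linarith [k h.t7 1], by field_simp⟩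
  · linarith [mul_le_mul_of_nonneg_right h.m_ge (mul_pos hN0 hρ).le]
  · refine le_trans (le_of_eq ?_) h.m_c
    field_simp
  · rw [← mul_div_assoc, div_le_iff₀ hn0]
    linarith [k h.n2 1]
  · have s1 : t * (m * N * ρ) ^ 3 / (ρ / n') = t * (m * N) ^ 3 * n' * ρ ^ 2 := by field_simp
    rw [s1]
    linarith [k h.t4 2]

theorem modl (H : Hyp Ω Λ K V f f' F b) {r e : ℝ} (a : ℝ) (hr : 0 < r) (he : 0 < e)
    (hV : cthickening (3 * r) K ⊆ V) : ∃ n : ℕ, 8 ≤ n ∧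
      ∀ x ∈ cthickening r K, ∀ y, dist y x ≤ 4 * (a / n) → dist (f y) (f x) ≤ e := by
  obtain ⟨e₂, he₂, k7⟩ := unif H.cpt.cthickening (hV.trans H.VΩ) H.hom.cont he
  obtain ⟨n, hn8, hn⟩ := ((eventually_ge_atTop 8).and (ev_le
    (tendsto_const_div_atTop_nhds_zero_nat a) 4 (lt_min he₂ (mul_pos two_pos hr)))).exists
  refine ⟨n, hn8, fun x hx y h => ?_⟩
  have h1 := near hr.le (mul_pos two_pos hr).le hx (h.trans (hn.trans (min_le_right _ _)))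
  exact k7 y (cthickening_mono (by linarith) _ h1) x (cthickening_mono (by linarith) _ hx)
    (h.trans (hn.trans (min_le_left _ _)))

end Scl

open Scl

theorem scal : SCAL := by
  intro Ω Λ K V f f' F b H N τ d δ C hN hτ hd hδ
  have hδ2 : δ / 2 ≠ 0 := (ENNReal.half_pos hδ.ne').ne'
  obtain ⟨c, hc, hcV⟩ := ENNReal.exists_nnreal_pos_mul_lt H.vol.ne hδ2
  obtain ⟨m, e, t, n', Q⟩ := cst b hN hτ (NNReal.coe_pos.2 hc)
  have hn0 : (0 : ℝ) < n' := by exact_mod_cast Q.n1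
  have hK : IsCompact (f '' K) :=
    H.cpt.image_of_continuousOn (H.hom.cont.mono (H.KV.trans H.VΩ))
  obtain ⟨ω₀, hω0, hω1⟩ := hK.exists_cthickening_subset_open H.oΛ
    (image_subset_iff.2 fun y hy => H.hom.mapsTo (H.VΩ (H.KV hy)))
  obtain ⟨ω, hω, hωd, hω2⟩ := ex_pos ((sm 3 hd).and (sm 4 hω0))
  have hL := (cthickening_mono hω2 _).trans hω1
  obtain ⟨r₁, hr1, k1⟩ := fwd H hK.cthickening hL (e := ω / 10) (by positivity)
  obtain ⟨r₂, hr2, k2⟩ := H.ud t Q.t0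
  obtain ⟨η, hη, k3⟩ := ENNReal.exists_nnreal_pos_mul_lt
    (a := 8 * (C * ENNReal.ofReal ((m * N * n') ^ 3 / t))) (ENNReal.mul_ne_top (by simp)
      (ENNReal.mul_ne_top ENNReal.coe_ne_top ENNReal.ofReal_ne_top)) hδ2
  obtain ⟨r₃, hr3, k4, k5⟩ := small H (e := η) (ENNReal.coe_pos.2 hη)
  obtain ⟨r, hr, q1, q2, q3⟩ := ex_pos ((sm 2 hr1).and ((sm 3 hr2).and (sm 3 hr3)))
  have hV := (cthickening_mono q3 _).trans k4
  obtain ⟨e₁, he₁, k6⟩ := unif hK.cthickening hL H.hom.cont_inv (half_pos hr)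
  have hρ : Tendsto (fun k : ℕ => (2⁻¹ : ℝ) ^ k) atTop (𝓝 0) :=
    tendsto_pow_atTop_nhds_zero_of_lt_one (by norm_num) (by norm_num)
  obtain ⟨k₁, hk⟩ := eventually_atTop.1 ((ev_le hρ (4 * (m * N)) hr).and
    ((ev_le hρ (b * (m * N)) hω).and ((ev_le hρ (100 * e) hω).and
    ((ev_le hρ (10 * e) he₁).and (ev_le hρ (4 * b * (m * N)) he₁)))))
  refine ⟨k₁, fun k hk₁ => ?_⟩
  obtain ⟨p1, p2, p3, p4, p5⟩ := hk k hk₁
  have hq : ∃ c : ℚ, (2⁻¹ : ℝ) ^ k = c := ⟨2⁻¹ ^ k, by push_cast; rfl⟩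
  have hρ1 : (2⁻¹ : ℝ) ^ k ≤ 1 := pow_le_one₀ (by norm_num) (by norm_num)
  have hρ0 : (0 : ℝ) < 2⁻¹ ^ k := by positivity
  clear hk hρ
  generalize (2⁻¹ : ℝ) ^ k = ρ at *
  obtain ⟨n, hn8, hn⟩ := modl H (ρ / n') hr (mul_pos Q.e_pos hρ0) hV
  have hn0' : (0 : ℝ) < n := by exact_mod_cast (by omega : 0 < n)
  obtain ⟨s1, s2, s3, s4, s5, s6, s7, s8, s9, s10, s11⟩ := Q.num hN hρ0
  refine ⟨m * N * ρ, ρ / n', ρ / n' / n, e * ρ, t, t, r, ω, n', n,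
    { ρ_pos := hρ0, ρ_le := hρ1, N_ge := hN, rat := ?_, h_pos := div_pos (div_pos hρ0 hn0) hn0'
      n_ge := hn8, n'_ge := Q.n1, a_eq := (mul_div_cancel₀ _ hn0'.ne').symm
      ρ_eq := (mul_div_cancel₀ _ hn0.ne').symm, S_ge := s1, collar := ?_
      a_le := s3, ε_m := s4, ε_τ := s5, ε_ω := by linarith only [p3], ω_d := hωd
      thick := hL, S_r := by linarith only [p1], S_ω := by linarith only [p2], rV := hV
      fwd := fun y hy hf x hx => k1 y hy hf x (hx.trans q1)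
      inv := fun y hy y' hy' h => k6 y hy y' hy' (by linarith only [h, p4]), far := ?_, mod := hn
      ud := fun x hx y hy h => k2 x hx y hy (h.trans q2), t_pos := Q.t0
      t_le := by linarith only [Q.t1], ε₁_pos := Q.t0.le, ε₁_le := by linarith only [Q.t1]
      ray₁ := by linarith only [Q.t2], ray₂ := s6, en := s7, wire := s8, int := s9, sep := s10
      small := ?_ }⟩
  · obtain ⟨c, rfl⟩ := hq
    exact ⟨c / n' / n, by push_cast; rfl⟩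
  · exact le_trans (mul_le_mul_left (ENNReal.ofReal_le_of_le_toReal s2) _) hcV.le
  · intro x hx y hy h
    by_contra hlt
    have h1 := k6 _ (self_subset_cthickening _ (mem_image_of_mem f hx)) _
      (self_subset_cthickening _ (mem_image_of_mem f hy)) (by linarith only [hlt, not_le.1 hlt, p5])
    rw [H.hom.left_inv (H.VΩ (H.KV hx)), H.hom.left_inv (H.VΩ (H.KV hy))] at h1
    linarith only [h, h1, hr]
  · rw [s11, ← mul_assoc, ← mul_assoc, mul_assoc 8]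
    refine le_trans ?_ k3.le
    rw [mul_comm (η : ℝ≥0∞)]
    exact mul_le_mul_right ((lintegral_mono_set (cthickening_mono q3 _)).trans k5) _

end P073.P2
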