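import Vale.Agent.P073Y.P2.Geo1
import Vale.Agent.P073Z.A2.PL

/-!
# The data of the surgery for the sheets
-/

open Set Metric Topology Filter

namespace P073.P2

open P073.Bd (Band I)
open G1 A2

namespace G1

variable {a h : ℝ} {w x : E3} {z : Fin 3 → ℤ} {i : Fin 3}

/-- the column as a band -/
noncomputable def band (a h : ℝ) (w : E3) (z : Fin 3 → ℤ) (i : Fin 3) : Band E3 where
  B := colB a h w z i
  u := fun x => 2 / h * (x i - (w i + z i * a + h))
  M := fun q => Function.update q.1 i (w i + z i * a + h + h / 2 * q.2)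

theorem upd_mem (hh : 0 < h) (hx : x ∈ colB a h w z i) {s : ℝ} (hs : s ∈ I) :
    Function.update x i (w i + z i * a + h + h / 2 * s) ∈ colB a h w z i := by
  refine ⟨?_, fun j hj => by rw [Function.update_of_ne hj]; exact hx.2 j hj⟩
  rw [Function.update_self, add_sub_cancel_left]
  exact abs_le.2 ⟨by nlinarith [hs.1], by nlinarith [hs.2]⟩

theorem band_ok (hh : 0 < h) : (band a h w z i).Ok := by
  have hc : ConicalSet (colB a h w z i) := col_eq ▸ Convex.conicalSet (convex_Icc _ _)
  have hc' : ConicalSet (colB a h w z i ×ˢ I) :=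
    conicalSet_prod hc (Convex.conicalSet (convex_Icc _ _))
  refine ⟨show IsCompact (colB a h w z i) from col_eq ▸ isCompact_Icc,
    show LocCone (colB a h w z i) from col_eq ▸ locCone_Icc_pi _ _,
    pl_mul _ (pl_sub (pl_proj i hc) (pl_const _ hc)), pl_pi hc' fun j => ?_, fun x hx => ?_,
    fun x hx s hs => ⟨upd_mem hh hx hs, ?_⟩, fun x _ => ?_,
    fun x _ s _ t _ => Function.update_idem ..⟩
  · by_cases hj : j = i
    · simp only [band, hj, Function.update_self]
      exact pl_add (pl_const _ hc') (pl_mul _ (pl_snd hc'))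
    · simp only [band, Function.update_of_ne hj]
      exact pl_comp_univ (pl_proj j conicalSet_univ) (pl_fst hc')
  · have h1 := abs_le.1 hx.1
    simp only [band, mem_Icc, div_mul_eq_mul_div, le_div_iff₀ hh, div_le_iff₀ hh]
    constructor <;> linarith [h1.1, h1.2]
  · simp only [band, Function.update_self]
    field_simp
    ring
  · simp only [band]
    rw [Function.update_eq_self_iff]
    field_simp
    ring

theorem disc (hh : 0 < h) (ha : 8 * h ≤ a) : ConBall 2 (sheet a h w z i) (rim a h w z i) := by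
  have H := Cut.Box.conBall_sect (lo := lo a h w z i) (hi := hi a h w z i) (fun j => by
    simp only [lo, hi]
    split_ifs <;> linarith) i (a := w i + z i * a + h) (by
    simp only [lo, hi, if_true]
    constructor <;> linarith)
  have e : rim a h w z i = {y ∈ frontier (Icc (lo a h w z i) (hi a h w z i)) |
      y i = w i + z i * a + h} := by
    rw [Cut.Box.frontier_box, rim, sheet_eq hh]
    ext y
    refine ⟨fun ⟨h1, j, hj, h2⟩ => ⟨⟨h1.1, j, by simpa only [lo, hi, if_neg hj] using h2⟩, h1.2⟩,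
      fun ⟨⟨h1, j, h2⟩, h3⟩ => ⟨⟨h1, h3⟩, j, fun hj => ?_, ?_⟩⟩
    · simp only [lo, hi, hj, if_true, h3] at h2
      rcases h2 with h2 | h2 <;> linarith
    · by_cases hj : j = i
      · simp only [lo, hi, hj, if_true, h3] at h2
        rcases h2 with h2 | h2 <;> linarith
      · simpa only [lo, hi, if_neg hj] using h2
  rwa [e, sheet_eq hh]

end G1

theorem sheet' : SHEET := by
  intro Ω Λ a h w 𝓩 ι U O hΩ hΛ hh ha hsub hU hd hO
  have h1 : ∀ k : 𝓩 × Fin 3, colB a h w k.1 k.2 ⊆ Ω := fun k =>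
    ((col_int hh ha).trans interior_subset).trans (hsub _ k.1.2)
  refine ⟨⟨prot Ω a h w 𝓩, fun k => sheet a h w k.1 k.2, fun k => rim a h w k.1 k.2,
    fun k => band a h w k.1 k.2, U, O, hΩ, hΛ, fun x hx => hx.1,
    fun k => ⟨disc hh ha, fun x hx => ⟨h1 k (sheet_col hh hx), fun z _ j hj => ?_⟩⟩,
    fun k l hkl x hx => (hkl ?_).elim,
    fun k => ⟨band_ok hh, h1 k, fun x hx => ⟨sheet_col hh hx, ?_⟩⟩,
    fun k x hx s hs hp => ?_, hU, hd, hO⟩, rfl, rfl, rfl, fun k => ⟨rfl, rfl⟩⟩
  · obtain ⟨rfl, rfl⟩ := same hh ha hx hj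
    exact hx
  · obtain ⟨e1, e2⟩ := same hh ha hx.1 (sheet_col hh hx.2)
    exact Prod.ext (Subtype.ext e1) e2
  · simp only [band, hx.1, sub_self, mul_zero]
  · have h2 := (hp.2 _ k.1.2 k.2 (upd_mem hh (sheet_col hh hx.1) hs)).1
    simp only [band, Function.update_self] at h2
    nlinarith

theorem sheet_of (_ : GEO1) : SHEET := sheet'

end P073.P2
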