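import Vale.Agent.P073Y.P2.Sk
import Vale.Agent.P073Z.A1b
import Vale.Agent.P073Z.A2.PL
import Vale.Agent.P073.ConGlue

/-!
# Tools: half lines, the maximum principle, the change of the target, the room over a cube
-/

open Set Metric Topology Filter
open scoped NNReal

namespace P073.P2

open P073.Gc

/-- a path which leaves every bounded set leaves a compact subset of an open set inside it -/
theorem tl_exit {Ω C : Set E3} (hΩ : IsOpen Ω) (hC : IsCompact C) (hCΩ : C ⊆ Ω) {γ : ℝ → E3}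
    (hγ : Continuous γ) (h0 : γ 0 ∈ Ω) (hu : ∀ R, ∃ b, 0 ≤ b ∧ R < ‖γ b‖) :
    ∃ τ, 0 ≤ τ ∧ (∀ t ∈ Icc 0 τ, γ t ∈ Ω) ∧ γ τ ∉ C := by
  by_contra hne
  push Not at hne
  obtain ⟨R, hR⟩ := hC.isBounded.exists_norm_le
  obtain ⟨b, hb, hRb⟩ := hu R
  have hS : IsClosed (γ ⁻¹' C) := hC.isClosed.preimage hγ
  have key : Icc 0 b ⊆ γ ⁻¹' C := by
    refine (hS.inter isClosed_Icc).Icc_subset_of_forall_mem_nhdsGT_of_Icc_subset
      (hne 0 le_rfl fun t ht => by rw [le_antisymm ht.2 ht.1]; exact h0) fun t ht hs => ?_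
    have h1 : γ ⁻¹' Ω ∈ 𝓝 t := (hΩ.preimage hγ).mem_nhds (hCΩ (hs ⟨ht.1, le_rfl⟩))
    obtain ⟨δ, hδ, hb⟩ := Metric.mem_nhds_iff.1 h1
    filter_upwards [Ioo_mem_nhdsGT (show t < t + δ by linarith)] with u hu
    refine hne u (ht.1.trans hu.1.le) fun v hv => ?_
    rcases le_total v t with h | h
    · exact hCΩ (hs ⟨hv.1, h⟩)
    · refine hb ?_
      rw [mem_ball, Real.dist_eq, abs_of_nonneg (sub_nonneg.2 h)]
      linarith [hv.2, hu.2]
  exact absurd (hR _ (key ⟨hb, le_rfl⟩)) (not_le.2 hRb)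

theorem tl_ev_self (i : Fin 3) : ev i i = 1 := by simp [ev]

theorem tl_ev_ne {i j : Fin 3} (h : j ≠ i) : ev i j = 0 := by simp [ev, h]

theorem half : HALF := by
  intro Ω C hΩ hC hCΩ x hx i p
  obtain ⟨s, hs1, hs⟩ : ∃ s : ℝ, |s| = 1 ∧ ∀ τ, 0 ≤ τ → |x i + s * τ - p i| = |x i - p i| + τ := by
    rcases le_total (p i) (x i) with h | h
    · refine ⟨1, abs_one, fun τ hτ => ?_⟩
      rw [abs_of_nonneg (by linarith), abs_of_nonneg (by linarith)]; ring
    · refine ⟨-1, by simp, fun τ hτ => ?_⟩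
      rw [abs_of_nonpos (by linarith), abs_of_nonpos (by linarith)]; ring
  have co : ∀ t : ℝ, (x + t • ev i) i = x i + t := fun t => by simp [tl_ev_self]
  obtain ⟨τ, hτ, hin, hout⟩ := tl_exit hΩ hC hCΩ (γ := fun τ => x + (s * τ) • ev i) (by fun_prop)
    (by simpa using hx) fun R => by
      refine ⟨|R| + |x i| + 1, by positivity, ?_⟩
      have h1 := norm_le_pi_norm (x + (s * (|R| + |x i| + 1)) • ev i) i
      rw [co, Real.norm_eq_abs] at h1
      have h2 : |s * (|R| + |x i| + 1)| = |R| + |x i| + 1 := by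
        rw [abs_mul, hs1, one_mul, abs_of_nonneg (by positivity)]
      have h3 := abs_sub (x i + s * (|R| + |x i| + 1)) (x i)
      rw [add_sub_cancel_left, h2] at h3
      linarith [le_abs_self R]
  have seg : ∀ y ∈ segment ℝ x (x + (s * τ) • ev i), ∃ t ∈ Icc 0 τ, y = x + (s * t) • ev i := by
    intro y hy
    rw [segment_eq_image'] at hy
    obtain ⟨θ, hθ, rfl⟩ := hy
    refine ⟨θ * τ, ⟨mul_nonneg hθ.1 hτ, mul_le_of_le_one_left hτ hθ.2⟩, ?_⟩
    simp only [add_sub_cancel_left, smul_smul]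
    congr 2; ring
  refine ⟨s * τ, fun y hy => ?_, hout, fun y hy => ?_⟩
  · obtain ⟨t, ht, rfl⟩ := seg y hy
    exact hin t ht
  · obtain ⟨t, ht, rfl⟩ := seg y hy
    have h1 := dist_le_pi_dist (x + (s * t) • ev i) p i
    rw [co, Real.dist_eq, hs t ht.1] at h1
    refine ⟨s * t, rfl, ?_, (dist_pi_le_iff dist_nonneg).2 fun j => ?_⟩
    · rw [abs_mul, hs1, one_mul, abs_of_nonneg ht.1]
      linarith [abs_nonneg (x i - p i)]
    · by_cases hj : j = i
      · rw [hj, Real.dist_eq]; linarith [ht.1]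
      · have h2 := dist_le_pi_dist (x + (s * t) • ev i) p j
        simpa [tl_ev_ne hj] using h2

theorem maxp : MAXP := by
  intro Ω Λ B g g' p r _ hΛ H hB hBΩ hfr x hx
  have hc : ContinuousOn (fun x => dist (g x) p) B :=
    continuous_id.dist continuous_const |>.comp_continuousOn (H.cont.mono hBΩ)
  obtain ⟨x₀, h0, hmax⟩ := hB.exists_isMaxOn ⟨x, hx⟩ hc
  refine (hmax hx).trans (hfr x₀ ?_)
  rw [hB.isClosed.frontier_eq]
  refine ⟨h0, fun hi => ?_⟩
  have ho : IsOpen (Λ ∩ g' ⁻¹' interior B) :=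
    H.cont_inv.isOpen_inter_preimage hΛ isOpen_interior
  have hsub : Λ ∩ g' ⁻¹' interior B ⊆ closedBall p (dist (g x₀) p) := fun y hy => by
    have := hmax (interior_subset hy.2)
    simp only [mem_ofPred_eq, H.right_inv hy.1] at this
    exact this
  have hm : g x₀ ∈ Λ ∩ g' ⁻¹' interior B :=
    ⟨H.mapsTo (hBΩ h0), by rw [mem_preimage, H.left_inv (hBΩ h0)]; exact hi⟩
  have := interior_maximal hsub ho hm
  rw [interior_closedBall', mem_ball] at this
  exact lt_irrefl _ this

/-- a map which is PL near a point of an open set is PL at this point in the space -/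
theorem tl_pl_at {ψ k : E3 → E3} {U : Set E3} {y : E3} (hU : IsOpen U) (hy : y ∈ U)
    (hk : PLOn k U) (he : EqOn ψ k U) :
    ContinuousWithinAt ψ univ y ∧ ConicalWithinAt ψ univ y := by
  have hn := hU.mem_nhds hy
  refine ⟨(((hk.1.congr he) y hy).continuousAt hn).continuousWithinAt, ?_⟩
  exact (hk.2 y hy).congr_nhds (by filter_upwards [hn] with z hz using by simp [hz])
    (Eventually.of_forall fun z hz => he hz) (he hy)

/-- a PL map which is the identity off a compact set is Lipschitz -/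
theorem tl_lip_supp {ψ : E3 → E3} {C : Set E3} (hψ : PLOn ψ univ) (hC : IsCompact C)
    (hid : ∀ y, y ∉ C → ψ y = y) : ∃ L : ℝ≥0, LipschitzWith L ψ := by
  obtain ⟨R, hR⟩ := hC.isBounded.exists_norm_le
  have hl := locCone_closedBall_pi 3 (R + 1)
  obtain ⟨M, hM⟩ := lip (isCompact_closedBall (0 : E3) (R + 1)) hl
    (A2.pl_mono hψ hl.conicalSet (subset_univ _))
  obtain ⟨D, hD⟩ := hC.exists_bound_of_continuousOn (f := fun y => ψ y - y)
    ((hψ.1.mono (subset_univ _)).sub continuousOn_id)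
  have hin : ∀ y ∈ C, y ∈ closedBall (0 : E3) (R + 1) := fun y hy => by
    rw [mem_closedBall_zero_iff]; linarith [hR y hy]
  have aux : ∀ y ∈ C, ∀ y', dist (ψ y) (ψ y') ≤ (M + (|D| + 1)) * dist y y' := by
    intro y hy y'
    have hd := dist_nonneg (x := y) (y := y')
    have hD0 := abs_nonneg D
    have hM0 := M.coe_nonneg
    by_cases h : y' ∈ closedBall (0 : E3) (R + 1)
    · have := hM.dist_le_mul y (hin y hy) y' h
      nlinarith
    · have h1 : y' ∉ C := fun h' => h (hin y' h')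
      rw [mem_closedBall_zero_iff, not_le] at h
      have h2 := norm_sub_norm_le y' y
      rw [← dist_eq_norm, dist_comm] at h2
      have h3 : 1 ≤ dist y y' := by linarith [hR y hy]
      have h4 := dist_triangle (ψ y) y y'
      have h5 := hD y hy
      rw [← dist_eq_norm] at h5
      rw [hid y' h1]
      nlinarith [le_abs_self D]
  refine ⟨M + (⟨|D|, abs_nonneg D⟩ + 1), LipschitzWith.of_dist_le_mul fun y y' => ?_⟩
  change dist (ψ y) (ψ y') ≤ (M + (|D| + 1)) * dist y y'
  by_cases hy : y ∈ C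
  · exact aux y hy y'
  by_cases hy' : y' ∈ C
  · rw [dist_comm, dist_comm y]; exact aux y' hy' y
  rw [hid y hy, hid y' hy']
  nlinarith [dist_nonneg (x := y) (y := y'), abs_nonneg D, M.coe_nonneg]

open Classical in
theorem hlip : HLIP := by
  intro Ω Λ C g g' hΛ hC hCΛ hg
  let k := g.symm.trans g'
  let ψ : E3 → E3 := fun y => if y ∈ Λ then k.toFun y else y
  have h1 : EqOn ψ k.toFun Λ := fun y hy => if_pos hy
  have h2 : ∀ y, y ∉ C → ψ y = y := fun y hy => by
    by_cases h : y ∈ Λ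
    · rw [h1 h]
      have := hg _ (g.mapsTo_inv h) (by rw [g.right_inv h]; exact hy)
      rw [g.right_inv h] at this
      exact this
    · exact if_neg h
  have h3 : ∀ y, ContinuousWithinAt ψ univ y ∧ ConicalWithinAt ψ univ y := fun y => by
    by_cases h : y ∈ Λ
    · exact tl_pl_at hΛ h ⟨k.cont, k.conical⟩ h1
    · have ho := hC.isClosed.isOpen_compl
      exact tl_pl_at ho (fun h' => h (hCΛ h')) (A2.pl_id (IsOpen.conicalSet ho)) fun z hz => h2 z hz
  obtain ⟨L, hL⟩ := tl_lip_supp ⟨fun y _ => (h3 y).1, fun y _ => (h3 y).2⟩ hC h2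
  refine ⟨L, fun y hy y' hy' => ?_⟩
  have := hL y y'
  rw [h1 hy, h1 hy'] at this
  exact this

theorem room : ROOM := by
  intro b A c q hb hA
  have hb0 : 0 < b := by linarith
  have inj : Function.Injective A.toLinearMap := by
    rw [injective_iff_map_eq_zero]
    intro u hu
    have := hA.2 u
    rw [show A u = 0 from hu, norm_zero, mul_zero] at this
    exact norm_le_zero_iff.1 this
  let e : E3 ≃L[ℝ] E3 := (LinearEquiv.ofInjectiveEndo A.toLinearMap inj).toContinuousLinearEquiv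
  have he : ∀ x, e x = A x := fun x => rfl
  have h1 : ∀ y, ∃ x, af c A x = y := fun y =>
    ⟨e.symm (y - c), by rw [af, ← he, e.apply_symm_apply, add_sub_cancel]⟩
  have h2 : ∀ x y, dist (af c A x) (af c A y) ≤ b * dist x y ∧
      dist x y ≤ b * dist (af c A x) (af c A y) := fun x y => by
    have : dist (af c A x) (af c A y) = ‖A (x - y)‖ := by
      rw [af, af, dist_add_left, dist_eq_norm, map_sub]
    rw [this, dist_eq_norm]
    exact ⟨(A.le_opNorm _).trans (mul_le_mul_of_nonneg_right hA.1 (norm_nonneg _)), hA.2 _⟩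
  refine ⟨h1, h2, fun R => ?_⟩
  have hu : ConicalSet (univ : Set E3) := A2.conicalSet_univ
  have hv : ∀ x, e.symm (af c A x - c) - q = x - q := fun x => by
    rw [af, add_sub_cancel_left, ← he, e.symm_apply_apply]
  have hi : 0 < (2 * b)⁻¹ := by positivity
  refine ⟨fun y => max 0 ((2 * b)⁻¹ * (R - ‖e.symm (y - c) - q‖)), ?_, fun y => le_max_left _ _,
    fun y y' => ?_, fun x hx => ?_, fun x t hx => ?_⟩
  · exact A2.pl_max (A2.pl_const _ hu) (A2.pl_mul _ (A2.pl_sub (A2.pl_const _ hu)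
      (A2.pl_comp_univ (A2.pl_norm_pi 3) (A2.pl_sub (A2.pl_comp_univ (A2.pl_cle e.symm hu)
        (A2.pl_sub (A2.pl_id hu) (A2.pl_const _ hu))) (A2.pl_const _ hu)))))
  · obtain ⟨x, rfl⟩ := h1 y
    obtain ⟨x', rfl⟩ := h1 y'
    simp only [hv]
    refine (abs_max_sub_max_le_max _ _ _ _).trans (max_le (by simp; positivity) ?_)
    rw [← mul_sub, abs_mul, abs_of_pos hi, sub_sub_sub_cancel_left, ← dist_eq_norm,
      ← dist_eq_norm]
    have h3 := abs_dist_sub_le x' x q
    rw [dist_comm x' x] at h3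
    calc (2 * b)⁻¹ * |dist x' q - dist x q|
        ≤ (2 * b)⁻¹ * (b * dist (af c A x) (af c A x')) :=
          mul_le_mul_of_nonneg_left (h3.trans (h2 x x').2) hi.le
      _ = dist (af c A x) (af c A x') / 2 := by field_simp
  · simp only [hv, lt_max_iff, lt_irrefl, false_or] at hx
    rw [dist_eq_norm]
    exact sub_pos.1 ((mul_pos_iff_of_pos_left hi).1 hx)
  · simp only [hv]
    refine le_max_of_le_right ?_
    rw [← dist_eq_norm, ← div_eq_inv_mul, le_div_iff₀ (by positivity)]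
    linarith

end P073.P2
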