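import Vale.Agent.P073Y.P2.Sk

/-!
# Variations along almost straight paths
-/

open Set Metric Topology Filter MeasureTheory
open scoped NNReal ENNReal

namespace P073.P2

namespace VarA

theorem var_le {E F G : Type} [PseudoEMetricSpace E] [PseudoEMetricSpace F]
    [PseudoEMetricSpace G] {f : ℝ → E} (g : ℝ → F) (h : ℝ → G) (s : Set ℝ)
    (H : ∀ x y, edist (f x) (f y) ≤ edist (g x) (g y) + edist (h x) (h y)) :
    eVariationOn f s ≤ eVariationOn g s + eVariationOn h s := by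
  refine iSup_le fun ⟨n, u, hu, us⟩ => (Finset.sum_le_sum fun i _ => H _ _).trans ?_
  rw [Finset.sum_add_distrib]
  exact add_le_add (eVariationOn.sum_le hu us) (eVariationOn.sum_le hu us)

theorem var_cut {E : Type} [PseudoEMetricSpace E] (f : ℝ → E) {a b c : ℝ} (h : a ≤ b)
    (h' : b ≤ c) : eVariationOn f (Icc a c) =
      eVariationOn f (Icc a b) + eVariationOn f (Icc b c) := by
  simpa only [univ_inter] using (eVariationOn.Icc_add_Icc f h h' (mem_univ b)).symm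

theorem var_lip {E F : Type} [PseudoEMetricSpace E] [PseudoEMetricSpace F] {Φ : E → F} {K : ℝ≥0}
    (h : LipschitzWith K Φ) (u : ℝ → E) (s : Set ℝ) :
    eVariationOn (fun τ => Φ (u τ)) s ≤ K * eVariationOn u s :=
  h.lipschitzOnWith.comp_eVariationOn_le (mapsTo_univ u s)

theorem esub (a b c d : E3) : edist (a - b) (c - d) ≤ edist a c + edist b d := by
  rw [sub_eq_add_neg, sub_eq_add_neg, ← edist_neg_neg b d]
  exact edist_add_add_le _ _ _ _

/-- an almost straight path -/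
theorem var_path (u : ℝ → E3) (p v : E3) {s t : ℝ} (h : s ≤ t) : eVariationOn u (Icc s t) ≤
    edist (u t) (u s) + 2 * eVariationOn (fun τ => u τ - (p + τ • v)) (Icc s t) := by
  have h0 : ∀ x y : ℝ, edist (p + x • v) (p + y • v) = ‖v‖₊ * edist x y := fun x y => by
    rw [edist_add_left, edist_eq_enorm_sub, ← sub_smul, enorm_smul, mul_comm, edist_eq_enorm_sub]
    rfl
  have h1 := var_lip (Φ := fun τ : ℝ => p + τ • v) (fun x y => (h0 x y).le) id (Icc s t)
  rw [eVariationOn_id_Icc, ← abs_of_nonneg (sub_nonneg.2 h), ← Real.dist_eq, ← edist_dist,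
    ← h0] at h1
  have h2 := esub (u t) (u t - (p + t • v)) (u s) (u s - (p + s • v))
  rw [sub_sub_cancel, sub_sub_cancel] at h2
  refine (var_le (fun τ => p + τ • v) (fun τ => u τ - (p + τ • v)) _ fun x y => ?_).trans ?_
  · simpa only [add_sub_cancel] using
      edist_add_add_le (p + x • v) (u x - (p + x • v)) (p + y • v) (u y - (p + y • v))
  · rw [two_mul, ← add_assoc]
    exact add_le_add_left (h1.trans (h2.trans (add_le_add_right (eVariationOn.edist_le
      (fun τ => u τ - (p + τ • v)) (right_mem_Icc.2 h) (left_mem_Icc.2 h)) _))) _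

theorem var_zero {f : ℝ → E3} {s : Set ℝ} (h : ∀ t ∈ s, f t = 0) : eVariationOn f s = 0 :=
  eVariationOn.constant_on (by
    rintro _ ⟨x, hx, rfl⟩ _ ⟨y, hy, rfl⟩
    rw [h x hx, h y hy])

/-- the first excursion -/
theorem first {ι : Type} (s : Finset ι) {c : ι → E3} {r : ι → ℝ} {u w : ℝ → E3} {a : ℝ}
    (cu : ContinuousOn u (Icc a 1)) (cw : ContinuousOn w (Icc a 1))
    (disj : ∀ i j, i ≠ j → Disjoint (ball (c i) (r i)) (ball (c j) (r j)))
    (hd : ∀ t ∈ Icc a 1, w t = u t ∨ ∃ i ∈ s, w t ∈ ball (c i) (r i))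
    (hne : ∃ t ∈ Icc a 1, w t ≠ u t) : ∃ i ∈ s, ∃ t₀ t₁, a ≤ t₀ ∧ t₀ ≤ t₁ ∧ t₁ ≤ 1 ∧
      (t₀ = a ∨ ∀ t ∈ Icc a t₀, w t = u t) ∧ w t₀ ∈ closedBall (c i) (r i) ∧
      w t₁ ∈ closedBall (c i) (r i) ∧ (t₁ = 1 ∨ (w t₁ = u t₁ ∧
        ∀ t ∈ Icc t₁ 1, w t = u t ∨ ∃ j ∈ s, j ≠ i ∧ w t ∈ ball (c j) (r j))) := by
  have cl : ∀ i, IsClosed (Icc a 1 ∩ w ⁻¹' closure (ball (c i) (r i))) := fun i =>
    cw.preimage_isClosed_of_isClosed isClosed_Icc isClosed_closure
  have h1 : closure {t ∈ Icc a 1 | w t ≠ u t} ⊆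
      ⋃ i ∈ s, Icc a 1 ∩ w ⁻¹' closure (ball (c i) (r i)) :=
    closure_minimal (fun t ht => by
      obtain ⟨i, hi, h⟩ := (hd t ht.1).resolve_left ht.2
      exact mem_iUnion₂.2 ⟨i, hi, ht.1, subset_closure h⟩)
      (s.finite_toSet.isClosed_biUnion fun i _ => cl i)
  obtain ⟨t₀, h2, h3⟩ := (isCompact_Icc.of_isClosed_subset isClosed_closure
    (closure_minimal (sep_subset _ fun t => w t ≠ u t) isClosed_Icc)).exists_isLeast
    (Nonempty.closure hne)
  obtain ⟨i, hi, h4⟩ := mem_iUnion₂.1 (h1 h2)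
  obtain ⟨t₁, h5, h6⟩ := (isCompact_Icc.of_isClosed_subset (cl i)
    inter_subset_left).exists_isGreatest ⟨t₀, h4⟩
  refine ⟨i, hi, t₀, t₁, h4.1.1, h6 h4, h5.1.2, ?_, closure_ball_subset_closedBall h4.2,
    closure_ball_subset_closedBall h5.2, ?_⟩
  · refine h4.1.1.eq_or_lt.imp Eq.symm fun h t ht => ?_
    have h7 : EqOn w u (Ico a t₀) := fun x hx => by_contra fun hx' =>
      (h3 (subset_closure ⟨⟨hx.1, hx.2.le.trans h4.1.2⟩, hx'⟩)).not_gt hx.2
    have h8 : Icc a t₀ ⊆ Icc a 1 := Icc_subset_Icc_right h4.1.2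
    exact h7.of_subset_closure (cw.mono h8) (cu.mono h8) Ico_subset_Icc_self
      (closure_Ico h.ne).ge ht
  · refine h5.1.2.eq_or_lt.imp id fun h => ?_
    have h7 : w t₁ = u t₁ := (hd t₁ h5.1).resolve_right fun ⟨j, _, hj⟩ => by
      rcases eq_or_ne i j with rfl | hij
      · have h8 : ∀ᶠ t in 𝓝[>] t₁, t ∈ Ioo t₁ 1 ∧ w t ∈ ball (c i) (r i) :=
          Eventually.and (Ioo_mem_nhdsGT h) (((cw t₁ h5.1).mono_of_mem_nhdsWithin (mem_of_superset
            (Ioo_mem_nhdsGT h) fun x hx => ⟨h5.1.1.trans hx.1.le, hx.2.le⟩)).eventually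
            (isOpen_ball.mem_nhds hj))
        obtain ⟨t, h9, h10⟩ := h8.exists
        exact (h6 ⟨⟨h5.1.1.trans h9.1.le, h9.2.le⟩, subset_closure h10⟩).not_gt h9.1
      · exact disjoint_left.1 ((disj i j hij).closure_left isOpen_ball) h5.2 hj
    refine ⟨h7, fun t ht => ?_⟩
    rcases ht.1.eq_or_lt with rfl | h8
    · exact Or.inl h7
    · have h9 : t ∈ Icc a 1 := ⟨h5.1.1.trans ht.1, ht.2⟩
      exact (hd t h9).imp id fun ⟨j, hj, h10⟩ =>
        ⟨j, hj, fun e => (h6 ⟨h9, subset_closure (e ▸ h10)⟩).not_gt h8, h10⟩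

theorem main {ι : Type} {c : ι → E3} {r : ι → ℝ} {u w : ℝ → E3} {Φ : E3 → E3} {K : ℝ≥0}
    (p v : E3) (cu : ContinuousOn u (Icc 0 1)) (cw : ContinuousOn w (Icc 0 1))
    (disj : ∀ i j, i ≠ j → Disjoint (ball (c i) (r i)) (ball (c j) (r j))) (hr : ∀ i, 0 ≤ r i)
    (hΦ : LipschitzWith K Φ) (hl : ∀ t t', 0 ≤ t → t' ≤ 1 →
      eVariationOn (fun τ => Φ (w τ)) (Icc t t') ≤ K * eVariationOn u (Icc t t'))
    (s : Finset ι) : ∀ a ∈ Icc (0 : ℝ) 1,
    (∀ t ∈ Icc a 1, w t = u t ∨ ∃ i ∈ s, w t ∈ ball (c i) (r i)) →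
    eVariationOn (fun τ => Φ (w τ) - Φ (u τ)) (Icc a 1) ≤ 2 * K *
      (ENNReal.ofReal (∑ i ∈ s, 2 * r i) +
        2 * eVariationOn (fun τ => u τ - (p + τ • v)) (Icc a 1) +
        edist (w a) (u a) + edist (w 1) (u 1)) := by
  classical
  induction s using Finset.strongInduction with
  | H s ih =>
  intro a ha hd
  by_cases hne : ∃ t ∈ Icc a 1, w t ≠ u t
  swap
  · rw [var_zero fun t ht => by
      rw [not_not.1 fun h => hne ⟨t, ht, h⟩, sub_self]]
    exact zero_le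
  have hsub := Icc_subset_Icc_left (b := (1 : ℝ)) ha.1
  obtain ⟨i, hi, t₀, t₁, h1, h2, h3, h4, h5, h6, h7⟩ :=
    first s (cu.mono hsub) (cw.mono hsub) disj hd hne
  have e1 : eVariationOn (fun τ => Φ (w τ) - Φ (u τ)) (Icc a t₀) = 0 ∧
      edist (w t₀) (u t₀) ≤ edist (w a) (u a) := by
    rcases h4 with rfl | h4
    · exact ⟨eVariationOn.subsingleton _ (by rw [Icc_self]; exact subsingleton_singleton), le_rfl⟩
    · exact ⟨var_zero fun t ht => by rw [h4 t ht, sub_self],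
        by rw [h4 t₀ (right_mem_Icc.2 h1), edist_self]; exact zero_le⟩
  have e2 : edist (u t₁) (u t₀) ≤
      edist (w t₁) (u t₁) + ENNReal.ofReal (2 * r i) + edist (w a) (u a) := by
    refine (edist_triangle4 _ (w t₁) (w t₀) _).trans
      (add_le_add (add_le_add (edist_comm _ _).le ?_) e1.2)
    rw [edist_dist]
    exact ENNReal.ofReal_le_ofReal ((dist_triangle_right _ _ (c i)).trans
      (by linarith [mem_closedBall.1 h5, mem_closedBall.1 h6]))
  have e3 : eVariationOn (fun τ => Φ (w τ) - Φ (u τ)) (Icc t₀ t₁) ≤ 2 * K *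
      (edist (w t₁) (u t₁) + ENNReal.ofReal (2 * r i) + edist (w a) (u a) +
        2 * eVariationOn (fun τ => u τ - (p + τ • v)) (Icc a t₁)) := by
    refine (var_le (fun τ => Φ (w τ)) (fun τ => Φ (u τ)) _ fun x y => esub _ _ _ _).trans
      ((add_le_add (hl t₀ t₁ (ha.1.trans h1) h3) (var_lip hΦ u _)).trans ?_)
    rw [← two_mul, ← mul_assoc]
    exact mul_le_mul_right ((var_path u p v h2).trans (add_le_add e2
      (mul_le_mul_right (eVariationOn.mono _ (Icc_subset_Icc_left h1)) _))) _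
  have e4 : eVariationOn (fun τ => Φ (w τ) - Φ (u τ)) (Icc t₁ 1) + 2 * K * edist (w t₁) (u t₁) ≤
      2 * K * (ENNReal.ofReal (∑ j ∈ s.erase i, 2 * r j) +
        2 * eVariationOn (fun τ => u τ - (p + τ • v)) (Icc t₁ 1) + edist (w 1) (u 1)) := by
    rcases h7 with rfl | ⟨h7, h8⟩
    · rw [eVariationOn.subsingleton _ (by rw [Icc_self]; exact subsingleton_singleton), zero_add]
      exact mul_le_mul_right le_add_self _
    · have := ih (s.erase i) (Finset.erase_ssubset hi) t₁ ⟨ha.1.trans (h1.trans h2), h3⟩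
        fun t ht => (h8 t ht).imp id fun ⟨j, j1, j2, j3⟩ => ⟨j, Finset.mem_erase.2 ⟨j2, j1⟩, j3⟩
      rw [h7, edist_self, add_zero] at this
      rwa [h7, edist_self, mul_zero, add_zero]
  rw [var_cut _ (h1.trans h2) h3, var_cut _ h1 h2, e1.1, zero_add, var_cut _ (h1.trans h2) h3,
    ← Finset.add_sum_erase s _ hi, ENNReal.ofReal_add (mul_nonneg zero_le_two (hr i))
      (Finset.sum_nonneg fun j _ => mul_nonneg zero_le_two (hr j))]
  refine (add_le_add_left e3 _).trans ?_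
  calc _ = eVariationOn (fun τ => Φ (w τ) - Φ (u τ)) (Icc t₁ 1) + 2 * K * edist (w t₁) (u t₁) +
        2 * K * (ENNReal.ofReal (2 * r i) + edist (w a) (u a) +
          2 * eVariationOn (fun τ => u τ - (p + τ • v)) (Icc a t₁)) := by ring
    _ ≤ _ := (add_le_add_left e4 _).trans_eq (by ring)

/-- a function which vanishes off `J` is controlled by the measure of `J` -/
theorem gauge {J : Set ℝ} (hJ : MeasurableSet J) (hf : volume J ≠ ⊤) {η : ℝ → ℝ} {L : ℝ≥0}
    (hη : LipschitzWith L η) (h0 : ∀ t, t ∉ J → η t = 0) : ∃ ψ : ℝ → ℝ,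
    (∀ x y, ψ y - ψ x ≤ volume.real J) ∧
    ∀ x y δ, 0 ≤ δ → x - δ ≤ y → |η y - η x| ≤ L * (ψ y - ψ x + 2 * δ) := by
  have fin : ∀ X, volume (J ∩ X) ≠ ⊤ := fun X => measure_ne_top_of_subset inter_subset_left hf
  obtain ⟨ψ, hψ⟩ : ∃ ψ : ℝ → ℝ, ∀ t, ψ t = volume.real (J ∩ Iic t) := ⟨_, fun _ => rfl⟩
  have h1 : ∀ x y, x ≤ y → ψ y - ψ x = volume.real (J ∩ Ioc x y) := fun x y h => by
    rw [hψ, hψ, ← Iic_union_Ioc_eq_Iic h, inter_union_distrib_left, measureReal_union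
      ((Iic_disjoint_Ioc le_rfl).mono inter_subset_right inter_subset_right)
      (hJ.inter measurableSet_Ioc) (fin _) (fin _), add_sub_cancel_left]
  have h2 : ∀ x y, x ≤ y → (∀ t ∈ Ioo x y, η t ≠ 0) → |η y - η x| ≤ L * (ψ y - ψ x) :=
    fun x y h h' => by
      refine (hη.dist_le_mul y x).trans (mul_le_mul_of_nonneg_left ?_ L.coe_nonneg)
      rw [h1 x y h, Real.dist_eq, abs_of_nonneg (sub_nonneg.2 h),
        ← Real.volume_real_Ioo_of_le h]
      exact measureReal_mono (fun t ht => ⟨by_contra fun h => h' t ht (h0 t h), ht.1, ht.2.le⟩)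
        (fin _)
  have h3 : ∀ x y, x ≤ y → |η y - η x| ≤ L * (ψ y - ψ x) := fun x y h => by
    by_cases hne : (Icc x y ∩ η ⁻¹' {0}).Nonempty
    swap
    · exact h2 x y h fun t ht h' => hne ⟨t, Ioo_subset_Icc_self ht, h'⟩
    have hc : IsCompact (Icc x y ∩ η ⁻¹' {0}) :=
      isCompact_Icc.inter_right (isClosed_singleton.preimage hη.continuous)
    obtain ⟨a, a1, a2⟩ := hc.exists_isLeast hne
    obtain ⟨b, b1, b2⟩ := hc.exists_isGreatest hne
    have e1 := h2 x a a1.1.1 fun t ht h' =>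
      (a2 ⟨⟨ht.1.le, ht.2.le.trans a1.1.2⟩, h'⟩).not_gt ht.2
    have e2 := h2 b y b1.1.2 fun t ht h' =>
      (b2 ⟨⟨b1.1.1.trans ht.1.le, ht.2.le⟩, h'⟩).not_gt ht.1
    have e3 : 0 ≤ ψ b - ψ a := (h1 a b (b2 a1)).symm ▸ measureReal_nonneg
    rw [show η a = 0 from a1.2] at e1
    rw [show η b = 0 from b1.2] at e2
    refine (abs_sub_le _ 0 _).trans ?_
    nlinarith [mul_nonneg L.coe_nonneg e3]
  refine ⟨ψ, fun x y => ?_, fun x y δ hδ h => ?_⟩
  · rw [hψ, hψ]
    exact (sub_le_self _ measureReal_nonneg).trans (measureReal_mono inter_subset_left hf)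
  · rcases le_total x y with h' | h'
    · exact (h3 x y h').trans (mul_le_mul_of_nonneg_left (by linarith) L.coe_nonneg)
    · have e1 : ψ x - ψ y ≤ x - y := by
        rw [h1 y x h', ← Real.volume_real_Ioc_of_le h']
        exact measureReal_mono inter_subset_right measure_Ioc_lt_top.ne
      rw [abs_sub_comm]
      exact (h3 y x h').trans (mul_le_mul_of_nonneg_left (by linarith) L.coe_nonneg)

/-- one coordinate -/
theorem coord {J : Set ℝ} (hJ : MeasurableSet J) {η : ℝ → ℝ} (hη : LipschitzWith 3 η)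
    (h0 : ∀ t, t ∉ J → η t = 0) (y : ℝ → ℝ) (p v : ℝ) (s : Set ℝ) :
    eVariationOn (fun τ => η (y τ)) s ≤
      3 * (volume J + 2 * eVariationOn (fun τ => y τ - (p + τ * v)) s) := by
  rcases eq_or_ne (volume J) ⊤ with hf | hf
  · rw [hf, top_add, ENNReal.mul_top three_ne_zero]
    exact le_top
  obtain ⟨ψ, h1, h2⟩ := gauge hJ hf hη h0
  obtain ⟨φ, h3, h4⟩ : ∃ φ : ℝ → ℝ, (∀ x y, φ y - φ x ≤ volume.real J) ∧ ∀ a b, a ≤ b →
      |η (y b) - η (y a)| ≤ 3 * (φ b - φ a + 2 * |y b - (p + b * v) - (y a - (p + a * v))|) := by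
    rcases le_total 0 v with hv | hv
    · exact ⟨fun t => ψ (y t), fun _ _ => h1 _ _, fun a b h => h2 _ _ _ (abs_nonneg _) (by
        nlinarith [neg_abs_le (y b - (p + b * v) - (y a - (p + a * v)))])⟩
    · refine ⟨fun t => -ψ (y t), fun a b => by linarith [h1 (y b) (y a)], fun a b h => ?_⟩
      rw [abs_sub_comm]
      exact (h2 _ _ _ (abs_nonneg (y b - (p + b * v) - (y a - (p + a * v)))) (by
        nlinarith [le_abs_self (y b - (p + b * v) - (y a - (p + a * v)))])).trans_eq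
        (by push_cast; ring)
  refine iSup_le fun ⟨n, u, hu, us⟩ => ?_
  have h5 := eVariationOn.sum_le (f := fun τ => y τ - (p + τ * v)) (n := n) hu us
  have h6 := Finset.sum_le_sum fun i (_ : i ∈ Finset.range n) => h4 _ _ (hu i.le_succ)
  simp only [edist_dist, Real.dist_eq] at h5 ⊢
  rw [← ENNReal.ofReal_sum_of_nonneg fun _ _ => abs_nonneg _] at h5 ⊢
  rw [← Finset.mul_sum, Finset.sum_add_distrib, Finset.sum_range_sub fun i => φ (u i),
    ← Finset.mul_sum] at h6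
  refine (ENNReal.ofReal_le_ofReal (h6.trans (mul_le_mul_of_nonneg_left
    (add_le_add_left (h3 _ _) _) (by norm_num)))).trans ?_
  rw [ENNReal.ofReal_mul (by norm_num), ENNReal.ofReal_ofNat, ENNReal.ofReal_add
    measureReal_nonneg (by positivity), ENNReal.ofReal_mul zero_le_two, ENNReal.ofReal_ofNat,
    ofReal_measureReal hf]
  exact mul_le_mul_right (add_le_add_right (mul_le_mul_right h5 _) _) _

theorem var_pi (f : ℝ → E3) (s : Set ℝ) :
    eVariationOn f s ≤ ∑ k, eVariationOn (fun τ => f τ k) s := by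
  refine iSup_le fun ⟨n, u, hu, us⟩ => (Finset.sum_le_sum fun i _ => edist_pi_le_iff.2 fun k =>
    Finset.single_le_sum (f := fun k => edist (f (u (i + 1)) k) (f (u i) k))
      (fun _ _ => zero_le) (Finset.mem_univ k)).trans ?_
  rw [Finset.sum_comm]
  exact Finset.sum_le_sum fun k _ => eVariationOn.sum_le (f := fun τ => f τ k) hu us

end VarA

open VarA

theorem varw : VARW := fun s _ _ _ _ _ _ p v h hr hΦ hl =>
  main p v h.cu h.cw h.disj hr hΦ hl s 0 (left_mem_Icc.2 zero_le_one) h.dich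

theorem varz : VARZ := by
  intro u Φ ζ J a p v hJ hΦ
  refine (var_pi _ _).trans ((Finset.sum_le_sum (g := fun _ => 3 * (a +
    2 * eVariationOn (fun τ => u τ - (p + τ • v)) (Icc 0 1))) fun k _ => ?_).trans_eq ?_)
  · obtain ⟨h1, h2, h3, h4⟩ := hJ k
    have h5 : LipschitzWith 3 fun t => ζ k t - t :=
      (h3.sub LipschitzWith.id).weaken two_add_one_eq_three.le
    have h6 := var_lip (LipschitzWith.eval (α := fun _ : Fin 3 => ℝ) k)
      (fun τ => u τ - (p + τ • v)) (Icc 0 1)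
    rw [ENNReal.coe_one, one_mul] at h6
    rw [eVariationOn.eq_of_eqOn (f' := fun τ => ζ k (u τ k) - u τ k) fun t ht => by
      simp only [Pi.sub_apply, hΦ t ht k]]
    exact (coord h1 h5 (fun t ht => sub_eq_zero.2 (h4 t ht)) (fun τ => u τ k) (p k) (v k) _).trans
      (mul_le_mul_right (add_le_add h2 (mul_le_mul_right h6 _)) _)
  · rw [Fin.sum_univ_three]
    ring

end P073.P2
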