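import Vale.Agent.P073Y.P2.Acl
import Vale.Agent.P073Y.P2.Badq
import Vale.Agent.P073Y.P2.Balls
import Vale.Agent.P073Y.P2.Coll2
import Vale.Agent.P073Y.P2.Cut1
import Vale.Agent.P073Y.P2.Cut2
import Vale.Agent.P073Y.P2.Det
import Vale.Agent.P073Y.P2.Ener
import Vale.Agent.P073Y.P2.Fin
import Vale.Agent.P073Y.P2.Geo1
import Vale.Agent.P073Y.P2.Geo2
import Vale.Agent.P073Y.P2.Inp
import Vale.Agent.P073Y.P2.Len2
import Vale.Agent.P073Y.P2.Plap
import Vale.Agent.P073Y.P2.Pre2
import Vale.Agent.P073Y.P2.Rayd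
import Vale.Agent.P073Y.P2.Rays
import Vale.Agent.P073Y.P2.Scal
import Vale.Agent.P073Y.P2.Sheet
import Vale.Agent.P073Y.P2.Tool
import Vale.Agent.P073Y.P2.Var
import Vale.Agent.P073Y.Sg.All

/-!
# The modified map for the exponent two exists
-/

namespace P073.P2

theorem away : AWAY := away_of geo1 half

theorem cut : CUT :=
  cut_of geo1 hlip (cut1_of (sheet_of geo1) geo1 geo2 half Sg.surgb)
    (cut3_of geo1 geo2 maxp room (cut2_of away room)) (cut4_of geo1 maxp away)

theorem det : DET := det_of (balls_of geo1 geo2) cut coll2 room len2 varw varz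

theorem inp : INP := inp_of rayd ener sep

theorem pre2 : PRE 2 :=
  pre2_of plap det acl nullp ud (badq_of (rays_of vit1)) scal inp small (fin_of geo1 kw inp intd)

end P073.P2
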