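import Vale.Agent.P073Y.P2.Sk2
import Vale.Agent.P073Y.Gc.Pre
import Vale.Agent.P073Y.Ks.Ksel2
import Vale.Agent.P073Z.HAJ

/-!
# Variation on rational lines, uniform differentiability, null planes
-/

open Set Metric Topology Filter MeasureTheory
open scoped NNReal ENNReal

namespace P073.P2

open P073.Zn P073.Gc
open An (M3)
open Vale.Agent.P073.HB (WeakDeriv GoodSeg)

namespace AclA

variable {f : E3 → E3} {F : E3 → M3}

theorem good_sub {a v : E3} (h : GoodSeg f F a v) {α β : ℝ} (hα : α ∈ Icc (0:ℝ) 1)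
    (hβ : β ∈ Icc (0:ℝ) 1) : GoodSeg f F (a + α • v) ((β - α) • v) := by
  have e0 : ∀ s : ℝ, a + α • v + s • (β - α) • v = a + (α + (β - α) * s) • v := fun s => by
    rw [smul_smul, add_smul, add_assoc, mul_comm]
  have e : (fun s : ℝ => F (a + α • v + s • (β - α) • v) ((β - α) • v)) =
      fun s => (β - α) • F (a + (α + (β - α) * s) • v) v := by
    funext s
    rw [map_smul, e0]
  refine ⟨?_, fun t ht => ?_⟩
  · change IntervalIntegrable (fun s : ℝ => F (a + α • v + s • (β - α) • v) ((β - α) • v))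
      volume 0 1
    rw [e]
    rcases eq_or_ne (β - α) 0 with h0 | h0
    · simp [h0]
    · have h1 := ((h.1.mono_set (c := α) (d := β) (by
        rw [uIcc_of_le zero_le_one]
        exact uIcc_subset_Icc hα hβ)).comp_add_left α).comp_mul_left (c := β - α)
      rw [sub_self, zero_div, div_self h0] at h1
      exact h1.smul (β - α)
  · change _ = f (a + α • v) + ∫ s in (0 : ℝ)..t, F (a + α • v + s • (β - α) • v) ((β - α) • v)
    rw [e, intervalIntegral.integral_smul,
      intervalIntegral.smul_integral_comp_add_mul fun s => F (a + s • v) v, mul_zero, add_zero,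
      ← h.diff hα ⟨by nlinarith [hα.1, hβ.1, ht.1, ht.2], by nlinarith [hα.2, hβ.2, ht.1, ht.2]⟩,
      e0, add_sub_cancel]

theorem good_af {x v : E3} (h : GoodSeg f F x v) (c : E3) (A : M3) :
    GoodSeg (fun u => f u - af c A u) (fun u => F u - A) x v := by
  refine ⟨h.1.sub intervalIntegrable_const, fun t ht => ?_⟩
  have hi : IntervalIntegrable (fun s : ℝ => F (x + s • v) v) volume 0 t :=
    h.1.mono_set (by
      rw [uIcc_of_le ht.1, uIcc_of_le zero_le_one]
      exact Icc_subset_Icc le_rfl ht.2)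
  simp only [sub_apply]
  rw [intervalIntegral.integral_sub hi intervalIntegrable_const, h.2 t ht]
  simp only [af, map_add, map_smul, intervalIntegral.integral_const, sub_zero]
  abel

theorem var_le (hF : Measurable F) {x y : E3} (h : GoodSeg f F x (y - x)) (c : E3) (A : M3) :
    segVar (fun u => f u - af c A u) x y ≤ ∫⁻ u in segment ℝ x y, ‖F u - A‖ₑ ∂(μH[1]) := by
  rcases eq_or_ne x y with rfl | hne
  · rw [segVar_self]
    exact zero_le
  · exact (segv 0 le_rfl hne (hF.sub_const A) (good_af h c A)).1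

/-- a segment on a rational line is contained in a segment with rational ends -/
theorem good_line {Ω : Set E3} (hΩ : IsOpen Ω) {w x y : E3} {i : Fin 3}
    (H : ∀ x y : E3, segment ℝ x y ⊆ Ω → (∀ i, ∃ q : ℚ, x i = w i + q) →
      (∀ i, ∃ q : ℚ, y i = w i + q) → GoodSeg f F x (y - x))
    (hs : segment ℝ x y ⊆ Ω) (h : ∀ j, j ≠ i → y j = x j ∧ ∃ q : ℚ, x j = w j + q) :
    GoodSeg f F x (y - x) := by
  obtain ⟨L, h1, h2⟩ : ∃ L : ℝ →ᵃ[ℝ] E3, (∀ t, L t i = t) ∧ ∀ t j, j ≠ i → L t j = x j :=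
    ⟨AffineMap.lineMap (Function.update x i 0) (Function.update x i 1),
      fun t => by simp [AffineMap.lineMap_apply],
      fun t j hj => by simp [AffineMap.lineMap_apply, hj]⟩
  have ex : L (x i) = x := funext fun j => by
    rcases eq_or_ne j i with rfl | hj
    exacts [h1 _, h2 _ j hj]
  have ey : L (y i) = y := funext fun j => by
    rcases eq_or_ne j i with rfl | hj
    exacts [h1 _, (h2 _ j hj).trans (h j hj).1.symm]
  have hU : IsOpen (L ⁻¹' Ω) := hΩ.preimage L.continuous_of_finiteDimensional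
  have h3 : Icc (min (x i) (y i)) (max (x i) (y i)) ⊆ L ⁻¹' Ω := fun t ht => hs (by
    rw [← ex, ← ey, ← image_segment, segment_eq_uIcc]
    exact mem_image_of_mem _ ht)
  obtain ⟨ε, ε0, hε⟩ := isOpen_iff.1 hU _ (h3 (left_mem_Icc.2 min_le_max))
  obtain ⟨ε', ε0', hε'⟩ := isOpen_iff.1 hU _ (h3 (right_mem_Icc.2 min_le_max))
  obtain ⟨q, q1, q2⟩ := exists_rat_btwn
    (show min (x i) (y i) - ε - w i < min (x i) (y i) - w i by linarith)
  obtain ⟨q', q3, q4⟩ := exists_rat_btwn
    (show max (x i) (y i) - w i < max (x i) (y i) + ε' - w i by linarith)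
  have q5 : (q : ℝ) < q' := by linarith [min_le_max (a := x i) (b := y i)]
  have hr : ∀ r : ℚ, ∀ j, ∃ q : ℚ, L (w i + r) j = w j + q := fun r j => by
    rcases eq_or_ne j i with rfl | hj
    · exact ⟨r, h1 _⟩
    · rw [h2 _ j hj]
      exact (h j hj).2
  have h4 := H (L (w i + q)) (L (w i + q')) (by
    rw [← image_segment, segment_eq_Icc (by linarith), image_subset_iff]
    intro t ht
    rcases lt_or_ge t (min (x i) (y i)) with o | o
    · exact hε (by rw [mem_ball, Real.dist_eq, abs_lt]; constructor <;> linarith [ht.1])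
    rcases le_or_gt t (max (x i) (y i)) with o' | o'
    · exact h3 ⟨o, o'⟩
    · exact hε' (by rw [mem_ball, Real.dist_eq, abs_lt]; constructor <;> linarith [ht.2]))
    (hr q) (hr q')
  have d0 : (0:ℝ) < q' - q := sub_pos.2 q5
  have h5 : ∀ t, L (w i + q) + ((t - (w i + q)) / (q' - q)) • (L (w i + q') - L (w i + q)) = L t :=
    fun t => funext fun j => by
      rw [Pi.add_apply, Pi.smul_apply, Pi.sub_apply, smul_eq_mul]
      rcases eq_or_ne j i with rfl | hj
      · rw [h1, h1, h1]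
        field_simp
        ring
      · rw [h2 _ j hj, h2 _ j hj, h2 _ j hj]
        ring
  have h6 : ∀ t ∈ Icc (min (x i) (y i)) (max (x i) (y i)),
      (t - (w i + q)) / (q' - q) ∈ Icc (0:ℝ) 1 := fun t ht =>
    ⟨div_nonneg (by linarith [ht.1]) d0.le, (div_le_one d0).2 (by linarith [ht.2])⟩
  have h7 := good_sub h4 (h6 _ ⟨min_le_left _ _, le_max_left _ _⟩)
    (h6 _ ⟨min_le_right _ _, le_max_right _ _⟩)
  rwa [sub_smul, ← add_sub_add_left_eq_sub (_ • _) _ (L (w i + q)), h5, h5, ex, ey] at h7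

end AclA

open AclA

theorem acl : ACL := fun hΩ hf hF hl hw => by
  filter_upwards [ae_good hΩ hf hl hw] with w H x y hs h c A
  refine var_le hF ?_ c A
  rcases h with h | ⟨i, h⟩
  exacts [H x y hs h.1 h.2, good_line hΩ H hs h]

theorem nullp : NULLP := by
  intro Ω Λ f f' ρ hΩ _ hf _
  have hΛ : MeasurableSet Λ := by
    rw [← (hf.mapsTo.image_subset).antisymm fun y hy => ⟨_, hf.mapsTo_inv hy, hf.right_inv hy⟩]
    exact hΩ.measurableSet.image_of_continuousOn_injOn hf.cont hf.left_inv.injOn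
  have h1 : ∀ i, {t | 0 < volume.restrict Λ {y | f' y i = t}}.Countable := fun i =>
    Measure.countable_meas_level_set_pos₀ (((continuous_apply i).comp_continuousOn
      hf.cont_inv).aemeasurable hΛ).nullMeasurable
  have h2 : ∀ᵐ w : E3, ∀ (i : Fin 3) (m : ℤ), volume.restrict Λ {y | f' y i = w i + m * ρ} = 0 := by
    refine ae_all_iff.2 fun i => ae_all_iff.2 fun m => ?_
    refine measure_mono_null (t := ⋃ t ∈ {t | 0 < volume.restrict Λ {y | f' y i = t}},
      {w : E3 | w i = t - m * ρ}) (fun w hw => mem_biUnion (pos_iff_ne_zero.2 hw)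
        (show w i = _ by ring)) ((measure_biUnion_null_iff (h1 i)).2 fun t _ => ?_)
    exact Measure.pi_hyperplane (fun _ => volume) i _
  filter_upwards [h2] with w hw
  refine measure_mono_null (t := ⋃ (i : Fin 3) (m : ℤ), {y | f' y i = w i + m * ρ} ∩ Λ) ?_
    (measure_iUnion_null fun i => measure_iUnion_null fun m => ?_)
  · rintro _ ⟨x, ⟨hx, i, m, e⟩, rfl⟩
    exact mem_iUnion₂.2 ⟨i, m, by rw [mem_ofPred_eq, hf.left_inv hx, e], hf.mapsTo hx⟩
  · rw [← Measure.restrict_apply' hΛ]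
    exact hw i m

theorem ud : UD := by
  intro Ω K f F hΩ hf hl hw hK hKΩ hc hM ε hε
  obtain ⟨C, C0, hC⟩ := haj
  obtain ⟨t, t0, t1, t2⟩ : ∃ t, 0 < t ∧ C * (t + t) ≤ ε ∧ t ≤ ε :=
    ⟨min (ε / (2 * C)) ε, by positivity, by
      have := (le_div_iff₀ (by positivity)).1 (min_le_left (ε / (2 * C)) ε)
      linarith, min_le_right _ _⟩
  obtain ⟨r₀, r0, h0⟩ := hM t t0
  obtain ⟨r₁, r1, h1⟩ := hK.exists_thickening_subset_open hΩ hKΩ
  obtain ⟨r₂, r2, h2⟩ := uniformContinuousOn_iff_le.1 (hK.uniformContinuousOn_of_continuous hc) t t0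
  obtain ⟨r, a0, a1, a2, a3⟩ : ∃ r, 0 < r ∧ 3 * r ≤ r₀ ∧ 3 * r ≤ r₁ ∧ r ≤ r₂ :=
    ⟨min (min (r₀ / 3) (r₁ / 3)) r₂, by positivity,
      by linarith [(min_le_left _ r₂).trans (min_le_left (r₀ / 3) (r₁ / 3))],
      by linarith [(min_le_left _ r₂).trans (min_le_right (r₀ / 3) (r₁ / 3))], min_le_right _ _⟩
  refine ⟨r, a0, fun x hx y hy hd => ?_⟩
  have h3 : ‖F y - F x‖ ≤ t := by
    rw [← dist_eq_norm, dist_comm]
    exact h2 x hx y hy (hd.trans a3)
  have h4 : ∀ z ∈ K, ball z (3 * r) ⊆ Ω := fun z hz =>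
    ((ball_subset_ball a2).trans (ball_subset_thickening hz _)).trans h1
  have h5 : ∀ z ∈ K, ‖F z - F x‖ ≤ t → MaxLe F (F x) z (3 * r) (t + t) := fun z hz h ρ hρ =>
    Top.Ks.tri0 t0.le (h0 z hz ρ ⟨hρ.1, hρ.2.trans a1⟩) h
  exact ⟨(hC (F x) hΩ hf hl hw (by positivity) (h4 x hx) (h4 y hy)
    (h5 x hx (by rw [sub_self, norm_zero]; exact t0.le)) (h5 y hy h3) hd).trans
      (mul_le_mul_of_nonneg_right t1 (norm_nonneg _)), h3.trans t2⟩

end P073.P2
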