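import Vale.Agent.P073Y.P2.Sk2

/-!
# The modified map for the exponent two: rays, integrals, separation
-/

open Set Metric Topology Filter MeasureTheory
open scoped NNReal ENNReal

namespace P073.P2

open P073.Zn P073.Gc
open An (M3)
open Dens (kwire)

namespace Rd14

variable {Ω K : Set E3} {f : E3 → E3} {F : E3 → M3} {b S r ε₁ : ℝ} {w q x₀ : E3}

theorem norm_ev (i : Fin 3) : ‖ev i‖ = 1 := by rw [ev, Pi.norm_single, norm_one]

theorem norm_smul_ev (s : ℝ) (i : Fin 3) : ‖s • ev i‖ = |s| := by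
  rw [norm_smul, norm_ev, mul_one, Real.norm_eq_abs]

theorem mem_seg {x e u : E3} {σ : ℝ} (hσ : 0 < σ) :
    u ∈ segment ℝ (x - σ • e) (x + σ • e) ↔ ∃ τ : ℝ, |τ| ≤ σ ∧ u = x + τ • e := by
  constructor
  · rintro ⟨α, β, h1, h2, h3, rfl⟩
    obtain rfl : α = 1 - β := by linarith
    exact ⟨(2 * β - 1) * σ, abs_le.2 ⟨by nlinarith, by nlinarith⟩, by module⟩
  · rintro ⟨τ, h, rfl⟩
    obtain ⟨h1, h2⟩ := abs_le.1 h
    obtain ⟨c, rfl⟩ : ∃ c, τ = c * σ := ⟨τ / σ, by field_simp⟩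
    exact ⟨(1 - c) / 2, (1 + c) / 2, by nlinarith, by nlinarith, by ring, by module⟩

theorem meas_seg (x y : E3) : MeasurableSet (segment ℝ x y) := by
  rw [segment_eq_image_lineMap]
  exact (isCompact_Icc.image AffineMap.lineMap_continuous).isClosed.measurableSet

theorem pt (h : Loc Ω K f F b S r ε₁ w q x₀) {u : E3} (hu : dist u x₀ ≤ 3 * r) :
    ‖F u - F x₀‖ₑ ≤ ENNReal.ofReal ε₁ ∨ ‖F u - F x₀‖ₑ ≤ ph F K b u := by
  by_cases hK : u ∈ K
  · rw [← ofReal_norm]
    exact Or.inl (ENNReal.ofReal_le_ofReal (h.ud x₀ h.mem u hK (dist_comm u x₀ ▸ hu)).2)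
  · refine Or.inr ?_
    rw [ph, indicator_of_mem (mem_compl hK)]
    refine enorm_sub_le.trans (add_le_add le_rfl ?_)
    rw [← ofReal_norm]
    exact ENNReal.ofReal_le_ofReal h.bd

theorem seg_int (h : Loc Ω K f F b S r ε₁ w q x₀) {x y : E3} {Y : Set E3}
    (hs : segment ℝ x y ⊆ closedBall x₀ (3 * r)) (hY : segment ℝ x y ⊆ Y) {l c : ℝ} (hc : 0 ≤ c)
    (hl : 0 ≤ l) (h1 : μH[1] (segment ℝ x y) ≤ ENNReal.ofReal l)
    (h2 : ∫⁻ u in Y, ph F K b u ∂(μH[1]) ≤ ENNReal.ofReal c) :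
    ∫⁻ u in segment ℝ x y, ‖F u - F x₀‖ₑ ∂(μH[1]) ≤ ENNReal.ofReal (ε₁ * l + c) := by
  refine (setLIntegral_mono' (g := fun u => ENNReal.ofReal ε₁ + ph F K b u) (meas_seg x y)
    fun u hu => (pt h (hs hu)).elim (·.trans le_self_add) (·.trans le_add_self)).trans ?_
  rw [lintegral_add_left measurable_const, setLIntegral_const,
    ENNReal.ofReal_add (mul_nonneg h.ε_pos hl) hc, ENNReal.ofReal_mul h.ε_pos]
  exact add_le_add (mul_le_mul_right h1 _) ((lintegral_mono_set hY).trans h2)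

theorem sub_ball (h : Loc Ω K f F b S r ε₁ w q x₀) {x : E3} (hx : x ∈ closedBall q (S / 2)) :
    dist x x₀ ≤ S := by
  have := dist_triangle_right x x₀ q
  have h1 := h.near
  rw [mem_closedBall] at hx
  linarith

end Rd14

open Rd14

theorem rayd : RAYD := by
  intro Ω K f F b ρ a S r ε₁ t n w q x₀ h hG ⟨c, hc⟩ ht ht' i x hx hL s hs
  have hS := h.S_pos
  have hSr := h.S_le
  have hε := h.ε_pos
  have s0 := abs_nonneg s
  have hx0 := sub_ball h hx
  obtain ⟨l, hl⟩ : ∃ l, l = t * (|s| + S) := ⟨_, rfl⟩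
  have l0 : 0 < l := hl ▸ mul_pos ht (by linarith)
  have l1 : l ≤ (|s| + S) / 2 := by rw [hl]; nlinarith
  have σ0 : 0 < |s| + l := by linarith
  have hJ := hG.ray i x hx hL (|s| + l) ⟨σ0.le, by linarith⟩
  have e1 : t * (|s| + l + S) = l * (1 + t) := by rw [hl]; ring
  rw [e1] at hJ
  set y := x + s • ev i with hy
  have inJ : ∀ τ : ℝ, |τ| ≤ l → y + τ • ev i ∈
      segment ℝ (x - (|s| + l) • ev i) (x + (|s| + l) • ev i) := fun τ hτ =>
    (mem_seg σ0).2 ⟨s + τ, (abs_add_le _ _).trans (by linarith), by rw [hy]; module⟩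
  have near : ∀ τ : ℝ, |τ| ≤ l → dist (y + τ • ev i) x₀ ≤ S + |s| + l := fun τ hτ => by
    have h1 := dist_triangle (y + τ • ev i) x x₀
    have h2 : dist (y + τ • ev i) x = |s + τ| := by
      rw [hy, add_assoc, ← add_smul, dist_self_add_left, norm_smul_ev]
    have h3 := abs_add_le s τ
    linarith
  obtain ⟨τ, hτ, hK⟩ : ∃ τ : ℝ, |τ| ≤ l ∧ y + τ • ev i ∈ K := by
    by_contra o
    push Not at o
    have h1 : ∫⁻ _ in segment ℝ (y - l • ev i) (y + l • ev i), 1 ∂(μH[1]) ≤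
        ENNReal.ofReal (l * (1 + t)) := by
      refine (setLIntegral_mono' (g := ph F K b) (meas_seg _ _) fun u hu => ?_).trans
        ((lintegral_mono_set fun u hu => ?_).trans hJ)
      · obtain ⟨τ, hτ, rfl⟩ := (mem_seg l0).1 hu
        rw [ph, indicator_of_mem (mem_compl (o τ hτ))]
        exact (ENNReal.one_le_ofReal.2 h.b_ge).trans le_add_self
      · obtain ⟨τ, hτ, rfl⟩ := (mem_seg l0).1 hu
        exact inJ τ hτ
    have h2 : y - l • ev i - (y + l • ev i) = (-(2 * l)) • ev i := by module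
    rw [setLIntegral_one, hausdorffMeasure_segment, edist_dist, dist_eq_norm, h2, norm_smul_ev,
      abs_neg, abs_of_pos (by linarith), ENNReal.ofReal_le_ofReal_iff (by positivity)] at h1
    nlinarith
  have y0 : y = y + (0:ℝ) • ev i := by simp
  have a0 : |(0:ℝ)| ≤ l := by simpa using l0.le
  have hsb : segment ℝ y (y + τ • ev i) ⊆ closedBall x₀ (3 * r) :=
    (convex_closedBall _ _).segment_subset
      (by rw [y0]; exact (near 0 a0).trans (by linarith)) ((near τ hτ).trans (by linarith))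
  have h3 := seg_int h hsb ((convex_segment _ _).segment_subset (y0 ▸ inJ 0 a0) (inJ τ hτ))
    (by positivity) l0.le (by
      rw [hausdorffMeasure_segment, edist_dist, dist_self_add_right, norm_smul_ev]
      exact ENNReal.ofReal_le_ofReal hτ) hJ
  have h4 := h.acl y (y + τ • ev i) (hsb.trans h.sub) (Or.inr ⟨i, fun j hj => by
    obtain ⟨k, hk⟩ := hL j hj
    refine ⟨by simp [ev, hj], k * c, ?_⟩
    simp [hy, ev, hj, hk, hc]⟩) (f x₀ - F x₀ x₀) (F x₀)
  have h5 := (P073.edist_le_segVar (fun u => f u - af (f x₀ - F x₀ x₀) (F x₀) u)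
    (left_mem_segment ℝ y _) (right_mem_segment ℝ y _)).trans (h4.trans h3)
  rw [edist_dist, ENNReal.ofReal_le_ofReal_iff (by positivity), dist_eq_norm] at h5
  have h6 := (h.ud x₀ h.mem _ hK (by rw [dist_comm]; exact (near τ hτ).trans (by linarith))).1
  have h7 : f (y + τ • ev i) - f x₀ - F x₀ (y + τ • ev i - x₀) =
      f (y + τ • ev i) - af (f x₀ - F x₀ x₀) (F x₀) (y + τ • ev i) := by
    rw [af, map_sub]; abel
  rw [h7, ← dist_eq_norm (y + τ • ev i)] at h6
  have h8 := mul_le_mul_of_nonneg_left (near τ hτ) hε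
  have h9 := norm_le_norm_sub_add (f y - af (f x₀ - F x₀ x₀) (F x₀) y)
    (f (y + τ • ev i) - af (f x₀ - F x₀ x₀) (F x₀) (y + τ • ev i))
  have h10 := mul_le_mul_of_nonneg_left l1 hε
  have h11 : l * t ≤ l := by nlinarith
  have h12 := mul_nonneg hε (add_nonneg s0 hS.le)
  rw [dist_eq_norm]
  nlinarith

theorem intd : INTD := by
  intro Ω K f F b ρ a S r ε₁ t n w q x₀ h hG hρ ht
  have hS := h.S_pos
  have hSr := h.S_le
  have hε := h.ε_pos
  have hb : closedBall q (S / 2) ⊆ closedBall x₀ (3 * r) := fun x hx =>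
    (sub_ball h hx).trans (by linarith)
  refine ⟨?_, fun x y ζ h1 h2 => ?_⟩
  · refine (setLIntegral_mono' (g := fun u => ENNReal.ofReal ε₁ + ph F K b u ^ 2)
      measurableSet_closedBall fun u hu => ?_).trans ?_
    · rw [ENNReal.rpow_two]
      rcases pt h (hb hu) with h1 | h1
      · refine le_trans ?_ le_self_add
        rw [sq]
        exact (mul_le_mul' h1 (h1.trans (ENNReal.ofReal_le_one.2 h.ε_le))).trans_eq (mul_one _)
      · exact (pow_le_pow_left' h1 2).trans le_add_self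
    · rw [lintegral_add_left measurable_const, setLIntegral_const,
        Real.volume_pi_closedBall _ (by positivity), ← ENNReal.ofReal_mul hε]
      refine (add_le_add le_rfl hG.vol).trans ?_
      rw [← ENNReal.ofReal_add (by positivity) (by positivity), Fintype.card_fin,
        show 2 * (S / 2) = S by ring]
      refine ENNReal.ofReal_le_ofReal ?_
      have h1 : 0 ≤ ε₁ * S ^ 3 := by positivity
      have h2 : 0 ≤ t * ρ ^ 3 := by positivity
      linarith
  · obtain ⟨h3, h4⟩ := edge_facts hρ h1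
    rw [add_mul]
    exact seg_int h (h2.trans hb) (fun u hu => mem_sep (h2 hu) (h4 u hu)) (by positivity) hρ.le h3
      hG.wire

theorem sep : SEP := by
  intro K f F b s S r ε₁ q q' x₀ x₀' hb hs hS hε hsm hud far hq hq' hne h0 h0' d0 d0' hA hA'
  have S0 : 0 < S := hs.trans_le hS
  have hd : S ≤ dist q q' := by
    obtain ⟨i, hi⟩ := Function.ne_iff.1 hne
    obtain ⟨m, hm⟩ := hq i
    obtain ⟨m', hm'⟩ := hq' i
    refine le_trans ?_ (dist_le_pi_dist q q' i)
    have h1 : m - m' ≠ 0 := fun e => hi (by rw [hm, hm', sub_eq_zero.1 e])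
    have h2 : (1:ℝ) ≤ |((m - m' : ℤ) : ℝ)| := by exact_mod_cast Int.one_le_abs h1
    rw [Real.dist_eq, hm, hm', ← sub_mul, abs_mul, abs_of_pos S0]
    push_cast at h2
    nlinarith
  refine ⟨closedBall_disjoint_closedBall (by linarith), disjoint_left.2 ?_⟩
  rintro _ ⟨x, hx, rfl⟩ ⟨x', hx', e⟩
  rw [mem_closedBall] at hx hx'
  have n1 : ‖x - x₀‖ ≤ S := by
    have := dist_triangle_right x x₀ q
    rw [← dist_eq_norm]; linarith
  have n2 : ‖x' - x₀'‖ ≤ S := by
    have := dist_triangle_right x' x₀' q'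
    rw [← dist_eq_norm]; linarith
  have n3 : s / 4 ≤ ‖x - x'‖ := by
    have := dist_triangle4 q x x' q'
    rw [dist_comm q x] at this
    rw [← dist_eq_norm]; linarith
  have e1 : f x₀ - f x₀' = F x₀' (x' - x₀') - F x₀ (x - x₀) := by
    rw [af, af] at e
    rw [map_sub, map_sub]
    linear_combination (exp := 1) -e
  rcases le_total (dist x₀ x₀') r with h | h
  · obtain ⟨h1, h2⟩ := hud x₀ h0 x₀' h0' h
    have e2 : F x₀ (x - x') = (f x₀' - f x₀ - F x₀ (x₀' - x₀)) + (F x₀' - F x₀) (x' - x₀') := by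
      rw [← neg_sub (f x₀), e1]
      simp only [map_sub, sub_apply]
      abel
    have h3 : ‖(F x₀' - F x₀) (x' - x₀')‖ ≤ ε₁ * S :=
      (ContinuousLinearMap.le_opNorm _ _).trans (mul_le_mul h2 n2 (norm_nonneg _) hε)
    have h4 : ‖x₀' - x₀‖ ≤ ‖x - x'‖ + 2 * S := by
      have e3 : x₀' - x₀ = (x - x₀) - (x' - x₀') - (x - x') := by abel
      have h5 := norm_sub_le (x - x₀) (x' - x₀')
      have h6 := norm_sub_le ((x - x₀) - (x' - x₀')) (x - x')
      rw [e3]; linarith
    have h5 : ‖F x₀ (x - x')‖ ≤ ε₁ * (‖x - x'‖ + 3 * S) := by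
      have h6 := mul_le_mul_of_nonneg_left h4 hε
      rw [e2]
      refine (norm_add_le _ _).trans ?_
      linarith
    have h6 := (hA.2 (x - x')).trans (mul_le_mul_of_nonneg_left h5 (by linarith))
    have h7 : 100 * (b * ε₁) ≤ 1 := by
      by_contra o
      nlinarith
    have h8 := mul_le_mul_of_nonneg_right h7 (norm_nonneg (x - x'))
    nlinarith
  · have h1 := far x₀ h0 x₀' h0' h
    have h2 : ‖F x₀ (x - x₀)‖ ≤ b * S :=
      (ContinuousLinearMap.le_opNorm _ _).trans (mul_le_mul hA.1 n1 (norm_nonneg _) (by linarith))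
    have h3 : ‖F x₀' (x' - x₀')‖ ≤ b * S :=
      (ContinuousLinearMap.le_opNorm _ _).trans (mul_le_mul hA'.1 n2 (norm_nonneg _) (by linarith))
    have h4 := norm_sub_le (F x₀' (x' - x₀')) (F x₀ (x - x₀))
    have h5 : 0 < b * S := by positivity
    rw [dist_eq_norm, e1] at h1
    linarith

end P073.P2
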