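import Vale.Agent.P073Y.P2.Defs
import Vale.Agent.P073Y.Sg.Sk

/-!
# The modified map for the exponent two: statements
-/

open Set Metric Topology Filter MeasureTheory
open scoped NNReal ENNReal

namespace P073.P2

open P073.Zn P073.Gc P073.Sg
open An (M3)
open Vale.Agent.P073.HB (WeakDeriv)

/-! ### lattices, sheets, columns -/

/-- the affine map -/
noncomputable def af (c : E3) (A : M3) (x : E3) : E3 := c + A x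

/-- the unit vector -/
noncomputable def ev (i : Fin 3) : E3 := Pi.single i 1

/-- `x` lies on a line in the direction `i` of the lattice of step `a` through `w` -/
def OnL (a : ℝ) (w : E3) (i : Fin 3) (x : E3) : Prop := ∀ j, j ≠ i → ∃ k : ℤ, x j = w j + k * a

/-- the main diagonals of the lattice -/
def diag (a : ℝ) (w : E3) : Set E3 := {x | ∃ v ∈ latt w a, ∃ t : ℝ, ∀ j, x j = v j + t}

/-- the lateral coordinates are at distance at least `2 h` from the sides of the cube `z` -/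
def Lat (a h : ℝ) (w : E3) (z : Fin 3 → ℤ) (i : Fin 3) (x : E3) : Prop :=
  ∀ j, j ≠ i → w j + z j * a + 2 * h ≤ x j ∧ x j ≤ w j + z j * a + a - 2 * h

/-- the sheet at height `h` over the lower face of the cube `z` in the direction `i` -/
def sheet (a h : ℝ) (w : E3) (z : Fin 3 → ℤ) (i : Fin 3) : Set E3 :=
  {x | x i = w i + z i * a + h ∧ Lat a h w z i x}

/-- its boundary -/
def rim (a h : ℝ) (w : E3) (z : Fin 3 → ℤ) (i : Fin 3) : Set E3 :=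
  {x ∈ sheet a h w z i | ∃ j, j ≠ i ∧
    (x j = w j + z j * a + 2 * h ∨ x j = w j + z j * a + a - 2 * h)}

/-- its column -/
def colB (a h : ℝ) (w : E3) (z : Fin 3 → ℤ) (i : Fin 3) : Set E3 :=
  {x | |x i - (w i + z i * a + h)| ≤ h / 2 ∧ Lat a h w z i x}

/-- the protected set -/
def prot (Ω : Set E3) (a h : ℝ) (w : E3) (𝓩 : Set (Fin 3 → ℤ)) : Set E3 :=
  {x ∈ Ω | ∀ z ∈ 𝓩, ∀ i, x ∈ colB a h w z i → x ∈ sheet a h w z i}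

/-- the points away from the columns -/
def safe (Ω : Set E3) (a h : ℝ) (w : E3) (𝓩 : Set (Fin 3 → ℤ)) : Set E3 :=
  {x ∈ Ω | ∀ z ∈ 𝓩, ∀ i, Disjoint (closedBall x (h / 8)) (colB a h w z i)}

/-- `x` is joined to a close lattice line by a segment which meets columns only in sheets -/
def Gap (a h : ℝ) (w : E3) (x : E3) : Prop := ∃ x' i, OnL a w i x' ∧ dist x x' ≤ 2 * h ∧
  ∀ u ∈ segment ℝ x x', ∀ z j, u ∈ colB a h w z j → u ∈ sheet a h w z j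

/-- the cube `z` moved by `h` -/
def scube (a h : ℝ) (w : E3) (z : Fin 3 → ℤ) : Set E3 :=
  Icc (fun i => w i + z i * a + h) (fun i => w i + z i * a + a + h)

/-- the small square -/
def asq (h : ℝ) (w : E3) (ζ : Fin 3 → ℤ) (i : Fin 3) : Set E3 :=
  {x | x i = w i + ζ i * h ∧ ∀ j, j ≠ i → w j + ζ j * h ≤ x j ∧ x j ≤ w j + ζ j * h + h}

/-- its boundary -/
def abd (h : ℝ) (w : E3) (ζ : Fin 3 → ℤ) (i : Fin 3) : Set E3 :=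
  {x ∈ asq h w ζ i | ∃ j, j ≠ i ∧ (x j = w j + ζ j * h ∨ x j = w j + ζ j * h + h)}

/-- the oscillations of `u` on the boundaries of the small squares in `Y` on the planes of the
sheets have total weight at most `E` -/
def Ener (u : E3 → E3) (b h : ℝ) (n : ℕ) (w : E3) (Y : Set E3) (E : ℝ) : Prop :=
  ∃ W : (Fin 3 → ℤ) × Fin 3 → ℝ, (∀ k, 0 ≤ W k) ∧
    (∀ ζ i, (∃ m : ℤ, ζ i = m * n + 1) → asq h w ζ i ⊆ Y →
      ∀ x ∈ abd h w ζ i, ∀ y ∈ abd h w ζ i, dist (u x) (u y) ≤ W (ζ, i)) ∧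
    ∀ T : Finset ((Fin 3 → ℤ) × Fin 3),
      (∀ k ∈ T, (∃ m : ℤ, k.1 k.2 = m * n + 1) ∧ asq h w k.1 k.2 ⊆ Y) →
      ∑ k ∈ T, (W k + b * h) * W k ≤ E

/-- the data of the surgery for the sheets -/
def SHEET : Prop := ∀ {Ω Λ : Set E3} {a h : ℝ} (w : E3) (𝓩 : Set (Fin 3 → ℤ)) {ι : Type}
  (U : ι → Set E3) (O : 𝓩 × Fin 3 → Set E3), IsOpen Ω → IsOpen Λ → 0 < h → 8 * h ≤ a →
  (∀ z ∈ 𝓩, rcube a w z ⊆ Ω) → (∀ i, IsOpen (U i) ∧ Convex ℝ (U i)) →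
  (∀ i j, i ≠ j → Disjoint (U i) (U j)) → (∀ k, IsOpen (O k) ∧ Convex ℝ (O k) ∧ O k ⊆ Λ) →
  ∃ X : Dat Ω Λ (𝓩 × Fin 3) ι, X.Pr = prot Ω a h w 𝓩 ∧ X.U = U ∧ X.O = O ∧
    ∀ k, X.D k = sheet a h w k.1 k.2 ∧ X.S k = rim a h w k.1 k.2

/-- safe points -/
def GEO1 : Prop := ∀ {a h : ℝ} (w : E3), 0 < h → 8 * h ≤ a →
  (∀ z i, sheet a h w z i ⊆ colB a h w z i ∧ colB a h w z i ⊆ interior (rcube a w z) ∧
    Convex ℝ (sheet a h w z i) ∧ (rim a h w z i).Nonempty ∧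
    ∀ x ∈ sheet a h w z i, ∀ z' j, x ∈ colB a h w z' j → x ∈ sheet a h w z' j) ∧
  (∀ z, Disjoint (plns w a) (interior (rcube a w z)) ∧ IsCompact (rcube a w z) ∧
    frontier (rcube a w z) ⊆ plns w a ∧ ∀ x ∈ rcube a w z, rcube a w z ⊆ closedBall x a) ∧
  (∀ x, ∃ z, x ∈ rcube a w z) ∧
  (∀ Y, Bornology.IsBounded Y → {z | (rcube a w z ∩ Y).Nonempty}.Finite) ∧
  (∀ (n : ℕ) z, 1 ≤ n → ∃ z', rcube a w z ⊆ rcube (n * a) w z') ∧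
  ∀ (Ω : Set E3) (𝓩 : Set (Fin 3 → ℤ)), ∀ x ∈ Ω,
    ((x ∉ ocubes a w 𝓩 ∨ x ∈ plns w a ∨ x ∈ diag a w) → x ∈ safe Ω a h w 𝓩) ∧
    (x ∈ safe Ω a h w 𝓩 → ∀ y ∈ Ω, dist y x ≤ h / 8 → y ∈ prot Ω a h w 𝓩)

/-- the moved cubes are bounded by sheets and gaps -/
def GEO2 : Prop := ∀ {a h : ℝ} (w : E3), 0 < h → 8 * h ≤ a →
  (∀ z i, ∀ x ∈ rim a h w z i, Gap a h w x) ∧ (∀ x, ∃ z, x ∈ scube a h w z) ∧
  ∀ z, ∀ x ∈ frontier (scube a h w z), Gap a h w x ∨ ∃ z' i, x ∈ sheet a h w z' i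

/-- the Kuhn wires of a coarser lattice -/
def KW : Prop := ∀ {a : ℝ} (n : ℕ) (w x y ζ : E3), 0 < a → 1 ≤ n → x ≠ y →
  segment ℝ x y = (fun u => ((n : ℝ) * a)⁻¹ • (u - w)) ⁻¹' kcell ζ →
  x ∈ latt w (n * a) ∧ y ∈ latt w (n * a) ∧ x ∈ latt w a ∧
    ∀ u ∈ segment ℝ x y, u ∈ plns w a ∨ u ∈ diag a w

/-! ### tools -/

/-- a half line which leaves a compact set and moves away from a point -/
def HALF : Prop := ∀ {Ω C : Set E3}, IsOpen Ω → IsCompact C → C ⊆ Ω → ∀ x ∈ Ω, ∀ (i : Fin 3)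
  (p : E3), ∃ T : ℝ, segment ℝ x (x + T • ev i) ⊆ Ω ∧ x + T • ev i ∉ C ∧
    ∀ y ∈ segment ℝ x (x + T • ev i), ∃ t : ℝ, y = x + t • ev i ∧ |t| ≤ dist y p ∧
      dist x p ≤ dist y p

/-- the maximum principle -/
def MAXP : Prop := ∀ {Ω Λ B : Set E3} {g g' : E3 → E3} (p : E3) (r : ℝ), IsOpen Ω → IsOpen Λ →
  HomeoOn g g' Ω Λ → IsCompact B → B ⊆ Ω → (∀ x ∈ frontier B, dist (g x) p ≤ r) →
  ∀ x ∈ B, dist (g x) p ≤ r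

/-- the change of the target is Lipschitz -/
def HLIP : Prop := ∀ {Ω Λ C : Set E3} (g g' : ConHomeo Ω Λ), IsOpen Λ → IsCompact C → C ⊆ Λ →
  (∀ x ∈ Ω, g.toFun x ∉ C → g'.toFun x = g.toFun x) →
  ∃ L : ℝ≥0, LipschitzOnWith L (fun y => g'.toFun (g.invFun y)) Λ

/-- uniform approximation by PL homeomorphisms -/
def PLAP : Prop := ∀ {Ω Λ : Set E3} {f f' : E3 → E3} {F : E3 → M3}, IsOpen Ω → IsOpen Λ →
  IsConnected Ω → Bornology.IsBounded Ω → Bornology.IsBounded Λ → HomeoOn f f' Ω Λ →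
  Measurable F → LocallyIntegrableOn F Ω volume → WeakDeriv volume Ω f F →
  ∀ e : ℝ, 0 < e → ∃ g : ConHomeo Ω Λ, ∀ x ∈ Ω, dist (g.toFun x) (f x) ≤ e

/-- collapse of clusters of balls by maps which are products on large sets -/
def COLL2 : Prop := ∀ {ι π : Type} [Fintype ι] [Finite π] [DecidableEq π] (a : ι → π)
  (c : ι → E3) (r : ι → ℝ) (R : ℝ) (χ : π → E3 → ℝ), 0 ≤ R → (∀ i, 0 < r i) →
  (∀ n, ∑ i ∈ Finset.univ.filter (fun i => a i = n), r i ≤ R) →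
  (∀ n, PLOn (χ n) univ ∧ (∀ y, 0 ≤ χ n y) ∧ ∀ y y', |χ n y - χ n y'| ≤ dist y y' / 2) →
  (∀ n m y, 0 < χ n y → 0 < χ m y → n = m) →
  (∀ i, ∀ y ∈ closedBall (c i) (r i), 6 * R ≤ χ (a i) y) →
  ∃ J : π → Fin 3 → Set ℝ, (∀ n k, MeasurableSet (J n k) ∧
    volume (J n k) ≤ ENNReal.ofReal (4 * R)) ∧ ∀ σ : ℝ≥0, 0 < σ →
    ∃ (Φ : ConHomeo (univ : Set E3) (univ : Set E3)) (ζ : π → Fin 3 → ℝ → ℝ),
      LipschitzWith 19 Φ.toFun ∧ (∀ i, LipschitzOnWith σ Φ.toFun (closedBall (c i) (r i))) ∧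
      (∀ y, (∀ n, χ n y = 0) → Φ.toFun y = y) ∧ (∀ y, dist (Φ.toFun y) y ≤ 4 * R) ∧
      (∀ n k, LipschitzWith 2 (ζ n k) ∧ ∀ t, t ∉ J n k → ζ n k t = t) ∧
      ∀ n y, 6 * R ≤ χ n y → ∀ k, Φ.toFun y k = ζ n k (y k)

/-- the room over the affine image of a cube -/
def ROOM : Prop := ∀ {b : ℝ} {A : M3} (c q : E3), 1 ≤ b → Bil b A →
  (∀ y, ∃ x, af c A x = y) ∧
  (∀ x y, dist (af c A x) (af c A y) ≤ b * dist x y ∧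
    dist x y ≤ b * dist (af c A x) (af c A y)) ∧
  ∀ R : ℝ, ∃ χ : E3 → ℝ, PLOn χ univ ∧ (∀ y, 0 ≤ χ y) ∧
    (∀ y y', |χ y - χ y'| ≤ dist y y' / 2) ∧ (∀ x, 0 < χ (af c A x) → dist x q < R) ∧
    ∀ x t, dist x q ≤ R - 2 * b * t → t ≤ χ (af c A x)

/-- a path `w` which agrees with `u` off disjoint balls -/
structure Pth {ι : Type} (s : Set ι) (c : ι → E3) (r : ι → ℝ) (u w : ℝ → E3) : Prop where
  cu : ContinuousOn u (Icc 0 1)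
  cw : ContinuousOn w (Icc 0 1)
  disj : ∀ i j, i ≠ j → Disjoint (ball (c i) (r i)) (ball (c j) (r j))
  dich : ∀ t ∈ Icc (0:ℝ) 1, w t = u t ∨ ∃ i ∈ s, w t ∈ ball (c i) (r i)

/-- lengths after the surgery and the collapse -/
def LEN2 : Prop := ∀ {ι : Type} [Finite ι] {s : Set ι} {c : ι → E3} {r : ι → ℝ} {u w : ℝ → E3}
  {Φ : E3 → E3} {K σ L : ℝ≥0}, Pth s c r u w → LipschitzWith K Φ →
  (∀ i, LipschitzOnWith σ Φ (closedBall (c i) (r i))) → σ * L ≤ K →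
  (∀ t ∈ Icc (0:ℝ) 1, ∀ t' ∈ Icc (0:ℝ) 1, edist (w t) (w t') ≤ L * edist (u t) (u t')) →
  ∀ t t', 0 ≤ t → t' ≤ 1 →
    eVariationOn (fun τ => Φ (w τ)) (Icc t t') ≤ K * eVariationOn u (Icc t t')

/-- the variation of the change along an almost straight path -/
def VARW : Prop := ∀ {ι : Type} (s : Finset ι) {c : ι → E3} {r : ι → ℝ} {u w : ℝ → E3}
  {Φ : E3 → E3} {K : ℝ≥0} (p v : E3), Pth (s : Set ι) c r u w → (∀ i, 0 ≤ r i) →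
  LipschitzWith K Φ →
  (∀ t t', 0 ≤ t → t' ≤ 1 →
    eVariationOn (fun τ => Φ (w τ)) (Icc t t') ≤ K * eVariationOn u (Icc t t')) →
  eVariationOn (fun τ => Φ (w τ) - Φ (u τ)) (Icc 0 1) ≤ 2 * K *
    (ENNReal.ofReal (∑ i ∈ s, 2 * r i) + 2 * eVariationOn (fun τ => u τ - (p + τ • v)) (Icc 0 1) +
      edist (w 0) (u 0) + edist (w 1) (u 1))

/-- the variation of a product collapse along an almost straight path -/
def VARZ : Prop := ∀ {u : ℝ → E3} {Φ : E3 → E3} {ζ : Fin 3 → ℝ → ℝ} {J : Fin 3 → Set ℝ}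
  {a : ℝ≥0∞} (p v : E3), (∀ k, MeasurableSet (J k) ∧ volume (J k) ≤ a ∧ LipschitzWith 2 (ζ k) ∧
    ∀ t, t ∉ J k → ζ k t = t) → (∀ t ∈ Icc (0:ℝ) 1, ∀ k, Φ (u t) k = ζ k (u t k)) →
  eVariationOn (fun τ => Φ (u τ) - u τ) (Icc 0 1) ≤
    9 * (a + 2 * eVariationOn (fun τ => u τ - (p + τ • v)) (Icc 0 1))

/-! ### the construction for a fixed shift -/

/-- the data -/
structure Dt where
  /-- source -/
  Ω : Set E3
  /-- target -/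
  Λ : Set E3
  /-- the compact set -/
  K : Set E3
  /-- the homeomorphism -/
  f : E3 → E3
  /-- its inverse -/
  f' : E3 → E3
  /-- bound for the matrices -/
  b : ℝ
  /-- the error level -/
  ε : ℝ
  /-- the lattice step -/
  a : ℝ
  /-- the height of the sheets -/
  h : ℝ
  /-- the radius of the cubes -/
  R : ℝ
  /-- the margin -/
  m : ℝ
  /-- the length of the rays -/
  r : ℝ
  /-- the coarse scale in the target -/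
  ω : ℝ
  /-- the ratio of `a` and `h` -/
  n : ℕ
  /-- the shift -/
  w : E3
  /-- the centres -/
  𝒬 : Finset E3
  /-- the translations -/
  c : E3 → E3
  /-- the matrices -/
  A : E3 → M3

namespace Dt

variable (D : Dt)

/-- the affine map of the cube `q` -/
noncomputable def α (q : E3) : E3 → E3 := af (D.c q) (D.A q)

/-- the neighbourhoods of the image of the compact set -/
def N (t : ℝ) : Set E3 := cthickening (t * D.ω) (D.f '' D.K)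

/-- the lattice cubes with sheets -/
def 𝓩 : Set (Fin 3 → ℤ) := {z | ∃ q ∈ D.𝒬, rcube D.a D.w z ⊆ closedBall q D.R}

/-- the protected set -/
def Pr : Set E3 := prot D.Ω D.a D.h D.w D.𝓩

/-- the safe set -/
def Sf : Set E3 := safe D.Ω D.a D.h D.w D.𝓩

/-- the hypotheses -/
structure Ok : Prop where
  oΩ : IsOpen D.Ω
  oΛ : IsOpen D.Λ
  hom : HomeoOn D.f D.f' D.Ω D.Λ
  cpt : IsCompact D.K
  sub : D.K ⊆ D.Ω
  thick : D.N 4 ⊆ D.Λ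
  b_ge : 1 ≤ D.b
  h_pos : 0 < D.h
  n_ge : 8 ≤ D.n
  a_eq : D.a = D.n * D.h
  a_le : D.b * D.a ≤ D.ε
  m_ge : 100 * D.b ^ 3 * D.ε ≤ D.m
  ω_ge : 100 * D.ε ≤ D.ω
  R_le : 2 * D.R ≤ D.r
  a_r : D.a ≤ D.r
  bil : ∀ q ∈ D.𝒬, Bil D.b (D.A q)
  disj : ∀ q ∈ D.𝒬, ∀ q' ∈ D.𝒬, q ≠ q' → Disjoint (closedBall q D.R) (closedBall q' D.R)
  sep : ∀ q ∈ D.𝒬, ∀ q' ∈ D.𝒬, q ≠ q' →
    Disjoint (D.α q '' closedBall q (D.R + D.m)) (D.α q' '' closedBall q' (D.R + D.m))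
  base : ∀ q ∈ D.𝒬, ∃ u ∈ D.K, dist u q ≤ D.r / 2 ∧
    ∀ y ∈ closedBall q (D.R + D.m), dist (D.α q y) (D.f u) ≤ D.ω
  fwd : ∀ y ∈ D.Ω, D.f y ∈ D.N 4 → ∀ x, dist x y ≤ 2 * D.r →
    x ∈ D.Ω ∧ dist (D.f x) (D.f y) ≤ D.ω / 10
  inv : ∀ y ∈ D.N 4, ∀ y' ∈ D.N 4, dist y y' ≤ 10 * D.ε → dist (D.f' y) (D.f' y') ≤ D.r / 2
  mod : ∀ q ∈ D.𝒬, ∀ x ∈ closedBall q D.R, ∀ y, dist y x ≤ 4 * D.h →
    dist (D.f y) (D.f x) ≤ D.ε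
  ray : ∀ q ∈ D.𝒬, ∀ i, ∀ x ∈ closedBall q (D.R + D.a), OnL D.a D.w i x → ∀ t : ℝ, |t| ≤ D.r →
    dist (D.f (x + t • ev i)) (D.α q (x + t • ev i)) ≤ D.ε + |t| / (4 * D.b)
  en : ∀ q ∈ D.𝒬, Ener (fun x => D.f x - D.α q x) D.b D.h D.n D.w (closedBall q D.R) (D.ε ^ 2)

/-- the balls which catch the spikes of the sheets -/
structure Bls {ι : Type} [Fintype ι] (cl y : ι → E3) (ρ ρ' : ι → ℝ) : Prop where
  mem : ∀ j, cl j ∈ D.𝒬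
  rad : ∀ j, 0 < ρ j ∧ ρ j < ρ' j ∧ ρ' j ≤ 2 * ρ j
  disj : ∀ j j', j ≠ j' → Disjoint (ball (y j) (ρ' j)) (ball (y j') (ρ' j'))
  sum : ∀ q, ∑ j ∈ Finset.univ.filter (fun j => cl j = q), ρ j ≤ D.ε / 2
  near : ∀ j, ∃ x ∈ closedBall (cl j) D.R, dist (D.f x) (y j) ≤ ρ j ∧
    dist (D.f x) (D.α (cl j) x) ≤ 6 * D.ε
  loop : ∀ q ∈ D.𝒬, ∀ z, rcube D.a D.w z ⊆ closedBall q D.R → ∀ i,
    ∀ Z ⊆ sheet D.a D.h D.w z i, IsPreconnected Z → (Z ∩ rim D.a D.h D.w z i).Nonempty →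
    (∀ j, Disjoint (D.f '' Z) (closedBall (y j) (ρ j))) →
    ∀ x ∈ Z, dist (D.f x) (D.α q x) ≤ 8 * D.ε

/-- the PL map `g` and the result `g'` of the surgery -/
structure Sur {ι : Type} (y : ι → E3) (ρ' : ι → ℝ) (g g' : E3 → E3) (e : ℝ) : Prop where
  le : e ≤ D.ε
  near : ∀ x ∈ D.Ω, dist (g x) (D.f x) ≤ e
  off : ∀ x ∈ D.Ω, g x ∉ D.N 2 → g' x = g x
  fix : ∀ x ∈ D.Pr, g' x = g x ∨ ∃ j, g' x ∈ ball (y j) (ρ' j)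
  con : ∀ c ⊆ D.Pr, IsPreconnected c → ∀ j, (g' '' c ∩ ball (y j) (ρ' j)).Nonempty →
    (g '' c ∩ ball (y j) (ρ' j)).Nonempty ∨ g' '' c ⊆ ball (y j) (ρ' j)
  sheet : ∀ q ∈ D.𝒬, ∀ z, rcube D.a D.w z ⊆ closedBall q D.R → ∀ i,
    ∀ x ∈ sheet D.a D.h D.w z i,
      (∃ j, g' x ∈ ball (y j) (ρ' j)) ∨ dist (D.f x) (D.α q x) ≤ 8 * D.ε

/-- the change `H` of the target -/
structure Cut {ι : Type} (y : ι → E3) (ρ' : ι → ℝ) (H H' : E3 → E3) : Prop where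
  hom : HomeoOn H H' D.Λ D.Λ
  lip : ∃ L : ℝ≥0, LipschitzOnWith L H D.Λ
  off : ∀ v ∈ D.Λ, v ∉ D.N 2 → H v = v
  move : ∀ v ∈ D.Λ, dist (H v) v ≤ D.ω
  safe : ∀ x ∈ D.Sf, H (D.f x) = D.f x ∨ ∃ j, H (D.f x) ∈ ball (y j) (ρ' j)
  close : ∀ q ∈ D.𝒬, ∀ x ∈ closedBall q (D.R - 4 * D.a),
    dist (H (D.f x)) (D.α q x) ≤ 20 * D.b ^ 2 * D.ε

/-- the modified map -/
structure Out (f₁ f₁' : E3 → E3) : Prop where
  hom : HomeoOn f₁ f₁' D.Ω D.Λ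
  lip : ∃ L : ℝ≥0, ∀ x ∈ D.Ω, ∀ y ∈ D.Ω, edist (f₁ x) (f₁ y) ≤ L * edist (D.f x) (D.f y)
  mdf : Mdf D.Ω D.K D.f f₁ (3 * D.ω)
  len : ∀ x y, segment ℝ x y ⊆ D.Sf → segVar f₁ x y ≤ 19 * segVar D.f x y
  close : ∀ q ∈ D.𝒬, Close f₁ (D.A q) (closedBall q (D.R - 4 * D.a)) (50 * D.b ^ 2 * D.ε)
  var : ∀ q ∈ D.𝒬, ∀ x y, segment ℝ x y ⊆ D.Sf ∩ closedBall q (D.R - 4 * D.a) →
    dist (D.f x) (D.α q x) ≤ D.ε → segVar (fun u => D.f u - D.α q u) x y ≤ ENNReal.ofReal D.ε →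
    eVariationOn (fun t : ℝ => f₁ (AffineMap.lineMap x y t) - AffineMap.lineMap (f₁ x) (f₁ y) t)
      (Icc 0 1) ≤ ENNReal.ofReal (3000 * D.b ^ 2 * D.ε)

end Dt

/-- existence of the balls -/
def BALLS : Prop := ∀ D : Dt, D.Ok →
  ∃ (N : ℕ) (cl y : Fin N → E3) (ρ ρ' : Fin N → ℝ), D.Bls cl y ρ ρ'

/-- the surgery -/
def CUT1 : Prop := ∀ (D : Dt) {ι : Type} [Fintype ι] {cl y : ι → E3} {ρ ρ' : ι → ℝ}, D.Ok →
  D.Bls cl y ρ ρ' →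
  (∀ e : ℝ, 0 < e → ∃ g : ConHomeo D.Ω D.Λ, ∀ x ∈ D.Ω, dist (g.toFun x) (D.f x) ≤ e) →
  ∀ e₀ : ℝ, 0 < e₀ → ∃ (g g' : ConHomeo D.Ω D.Λ) (e : ℝ), e ≤ e₀ ∧ D.Sur y ρ' g.toFun g'.toFun e

/-- a point which is moved into a ball sees this ball along a half line -/
def AWAY : Prop := ∀ (D : Dt) {ι : Type} [Fintype ι] {cl y : ι → E3} {ρ ρ' : ι → ℝ}
  {g g' : E3 → E3} {e : ℝ}, D.Ok → D.Bls cl y ρ ρ' → D.Sur y ρ' g g' e →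
  ∀ (x x' : E3) (i : Fin 3) (j : ι), segment ℝ x x' ⊆ D.Pr →
  (∃ k, k ≠ i ∧ ∃ l : ℤ, x' k = D.w k + l * D.a) → g' x ∈ ball (y j) (ρ' j) →
  y j ∈ D.N 1 ∧ ∀ p : E3, ∃ u ∈ D.Ω, dist (D.f u) (y j) ≤ 2 * D.ε ∧ (u ∈ segment ℝ x x' ∨
    ∃ t : ℝ, u = x' + t • ev i ∧ |t| ≤ dist u p ∧ dist x' p ≤ dist u p)

/-- closeness at the gaps -/
def CUT2 : Prop := ∀ (D : Dt) {ι : Type} [Fintype ι] {cl y : ι → E3} {ρ ρ' : ι → ℝ}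
  {g g' : E3 → E3} {e : ℝ}, D.Ok → D.Bls cl y ρ ρ' → D.Sur y ρ' g g' e →
  ∀ q ∈ D.𝒬, ∀ x ∈ closedBall q D.R, Gap D.a D.h D.w x →
    dist (g' x) (D.α q x) ≤ 8 * D.b ^ 2 * D.ε

/-- closeness on the cubes -/
def CUT3 : Prop := ∀ (D : Dt) {ι : Type} [Fintype ι] {cl y : ι → E3} {ρ ρ' : ι → ℝ}
  (g g' : ConHomeo D.Ω D.Λ) {e : ℝ}, D.Ok → D.Bls cl y ρ ρ' → D.Sur y ρ' g.toFun g'.toFun e →
  ∀ q ∈ D.𝒬, ∀ x ∈ closedBall q (D.R - 3 * D.a),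
    dist (g'.toFun x) (D.α q x) ≤ 18 * D.b ^ 2 * D.ε

/-- the displacement -/
def CUT4 : Prop := ∀ (D : Dt) {ι : Type} [Fintype ι] {cl y : ι → E3} {ρ ρ' : ι → ℝ}
  (g g' : ConHomeo D.Ω D.Λ) {e : ℝ}, D.Ok → D.Bls cl y ρ ρ' → D.Sur y ρ' g.toFun g'.toFun e →
  ∀ x ∈ D.Ω, dist (g'.toFun x) (g.toFun x) ≤ D.ω

/-- the change of the target -/
def CUT : Prop := ∀ (D : Dt) {ι : Type} [Fintype ι] {cl y : ι → E3} {ρ ρ' : ι → ℝ}, D.Ok →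
  D.Bls cl y ρ ρ' →
  (∀ e : ℝ, 0 < e → ∃ g : ConHomeo D.Ω D.Λ, ∀ x ∈ D.Ω, dist (g.toFun x) (D.f x) ≤ e) →
  ∃ H H', D.Cut y ρ' H H'

/-- the modified map for a fixed shift -/
def DET : Prop := ∀ D : Dt, D.Ok →
  (∀ e : ℝ, 0 < e → ∃ g : ConHomeo D.Ω D.Λ, ∀ x ∈ D.Ω, dist (g.toFun x) (D.f x) ≤ e) →
  ∃ f₁ f₁', D.Out f₁ f₁'

end P073.P2
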