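import Vale.Agent.P073Y.P2.Sk

/-!
# The modified map for the exponent two: selection of the cubes, statements
-/

open Set Metric Topology Filter MeasureTheory
open scoped NNReal ENNReal

namespace P073.P2

open P073.Zn P073.Gc
open An (M3)
open Dens (kwire)
open Vale.Agent.P073.HB (WeakDeriv)

/-- the majorant off the compact set -/
noncomputable def ph (F : E3 → M3) (K : Set E3) (b : ℝ) : E3 → ℝ≥0∞ :=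
  Kᶜ.indicator fun u => ‖F u‖ₑ + ENNReal.ofReal b

/-- the variation on rational segments and on rational lines is controlled by the derivative -/
def Acl (Ω : Set E3) (f : E3 → E3) (F : E3 → M3) (w : E3) : Prop := ∀ x y, segment ℝ x y ⊆ Ω →
  (((∀ k, ∃ q : ℚ, x k = w k + q) ∧ ∀ k, ∃ q : ℚ, y k = w k + q) ∨
    ∃ i, ∀ j, j ≠ i → y j = x j ∧ ∃ q : ℚ, x j = w j + q) →
  ∀ (c : E3) (A : M3), segVar (fun u => f u - af c A u) x y ≤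
    ∫⁻ u in segment ℝ x y, ‖F u - A‖ₑ ∂(μH[1])

/-- this holds for almost all shifts -/
def ACL : Prop := ∀ {Ω : Set E3} {f : E3 → E3} {F : E3 → M3}, IsOpen Ω → ContinuousOn f Ω →
  Measurable F → LocallyIntegrableOn F Ω volume → WeakDeriv volume Ω f F → ∀ᵐ w, Acl Ω f F w

/-- the images of the planes of almost all lattices are null -/
def NULLP : Prop := ∀ {Ω Λ : Set E3} {f f' : E3 → E3} {ρ : ℝ}, IsOpen Ω →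
  Bornology.IsBounded Λ → HomeoOn f f' Ω Λ → 0 < ρ → ∀ᵐ w, volume (f '' (Ω ∩ plns w ρ)) = 0

/-- `f` is almost affine on `K` at the scale `r` -/
def Ud (K : Set E3) (f : E3 → E3) (F : E3 → M3) (r ε : ℝ) : Prop :=
  ∀ x ∈ K, ∀ y ∈ K, dist x y ≤ r →
    ‖f y - f x - F x (y - x)‖ ≤ ε * ‖y - x‖ ∧ ‖F y - F x‖ ≤ ε

/-- uniform differentiability on `K` -/
def UD : Prop := ∀ {Ω K : Set E3} {f : E3 → E3} {F : E3 → M3}, IsOpen Ω → ContinuousOn f Ω →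
  LocallyIntegrableOn F Ω volume → WeakDeriv volume Ω f F → IsCompact K → K ⊆ Ω →
  ContinuousOn F K → (∀ t, 0 < t → ∃ r, 0 < r ∧ ∀ x ∈ K, MaxLe F (F x) x r t) →
  ∀ ε, 0 < ε → ∃ r, 0 < r ∧ Ud K f F r ε

/-- the lines of the small grids on the planes of the sheets, in units of the lattice step -/
def aux (n : ℕ) : Set E3 := {ξ | ∃ i j : Fin 3, i ≠ j ∧ (∃ m : ℤ, ξ i = m + 1 / n) ∧
  ∃ m : ℤ, ξ j = m / n}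

/-- a good cube -/
structure Gq (u : E3 → ℝ≥0∞) (ρ a S r t : ℝ) (n : ℕ) (w q : E3) : Prop where
  vol : ∫⁻ x in closedBall q (S / 2), u x ^ 2 ≤ ENNReal.ofReal (t * ρ ^ 3)
  ray : ∀ i, ∀ x ∈ closedBall q (S / 2), OnL a w i x → ∀ s ∈ Icc 0 r,
    ∫⁻ y in segment ℝ (x - s • ev i) (x + s • ev i), u y ∂(μH[1]) ≤ ENNReal.ofReal (t * (s + S))
  aux : ENNReal.ofReal (a / n) *
    ∫⁻ y in {y ∈ closedBall q (S / 2) | a⁻¹ • (y - w) ∈ aux n}, u y ^ 2 ∂(μH[1]) ≤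
      ENNReal.ofReal (t * ρ ^ 2)
  wire : ∫⁻ y in {y ∈ closedBall q (S / 2) | ρ⁻¹ • (y - w) ∈ kwire}, u y ∂(μH[1]) ≤
    ENNReal.ofReal (t * ρ)

/-- a covering estimate on the line -/
def VIT1 : Prop := ∀ (μ : Measure ℝ) (T : Finset ℤ) (x s : ℤ → ℝ) {S t : ℝ}, 0 < S → 0 ≤ t →
  (∀ m ∈ T, |x m - m * S| ≤ S / 2 ∧ 0 ≤ s m ∧
    ENNReal.ofReal (t * (s m + S)) ≤ μ (closedBall (x m) (s m))) →
  ENNReal.ofReal (t * S) * T.card ≤ 10 * μ univ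

/-- the cubes with a heavy ray -/
def RAYS : Prop := ∀ {u : E3 → ℝ≥0∞} {X : Set E3} {a S r t : ℝ} (w : E3) (T : Finset E3),
  Measurable u → MeasurableSet X → 0 < a → 0 < S → 0 ≤ t →
  (∀ q ∈ T, q ∈ lat0 S ∧ closedBall q (S / 2 + r) ⊆ X ∧ ∃ i, ∃ x ∈ closedBall q (S / 2),
    OnL a w i x ∧ ∃ s ∈ Icc 0 r, ENNReal.ofReal (t * (s + S)) ≤
      ∫⁻ y in segment ℝ (x - s • ev i) (x + s • ev i), u y ∂(μH[1])) →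
  ENNReal.ofReal (t * S) * T.card ≤
    120 * ∫⁻ y in {y ∈ X | a⁻¹ • (y - w) ∈ gridLines}, u y ∂(μH[1])

/-- most cubes are good -/
def BADQ : Prop := ∃ C : ℝ≥0, ∀ {u : E3 → ℝ≥0∞} {X : Set E3} {ρ a S r t : ℝ} {n : ℕ},
  Measurable u → (∀ x, u x ≤ u x ^ 2) → MeasurableSet X → 0 < a → a ≤ ρ → ρ ≤ S → ρ ≤ 1 →
  0 ≤ r → 0 < t → 1 ≤ n →
  ∃ Φ : E3 → ℝ≥0∞, Mean 1 Φ (C * ENNReal.ofReal ((S / a) ^ 3 / t) * ∫⁻ x in X, u x ^ 2) ∧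
    ∀ (w : E3) (T : Finset E3),
      (∀ q ∈ T, q ∈ lat0 S ∧ closedBall q (S / 2 + r) ⊆ X ∧ ¬ Gq u ρ a S r t n w q) →
      ENNReal.ofReal (S ^ 3) * T.card ≤ Φ w

/-- the local hypotheses at the cube `q` with the base point `x₀` -/
structure Loc (Ω K : Set E3) (f : E3 → E3) (F : E3 → M3) (b S r ε₁ : ℝ) (w q x₀ : E3) :
    Prop where
  meas : Measurable F
  cl : IsClosed K
  acl : Acl Ω f F w
  ud : Ud K f F (3 * r) ε₁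
  mem : x₀ ∈ K
  near : dist x₀ q ≤ S / 2
  sub : closedBall x₀ (3 * r) ⊆ Ω
  b_ge : 1 ≤ b
  bd : ‖F x₀‖ ≤ b
  S_pos : 0 < S
  S_le : 4 * S ≤ r
  ε_pos : 0 ≤ ε₁
  ε_le : ε₁ ≤ 1

/-- closeness on the rays -/
def RAYD : Prop := ∀ {Ω K : Set E3} {f : E3 → E3} {F : E3 → M3} {b ρ a S r ε₁ t : ℝ} {n : ℕ}
  {w q x₀ : E3}, Loc Ω K f F b S r ε₁ w q x₀ → Gq (ph F K b) ρ a S (2 * r) t n w q →
  (∃ c : ℚ, a = c) → 0 < t → t ≤ 1 / 2 →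
  ∀ i, ∀ x ∈ closedBall q (S / 2), OnL a w i x → ∀ s : ℝ, |s| ≤ r →
    dist (f (x + s • ev i)) (af (f x₀ - F x₀ x₀) (F x₀) (x + s • ev i)) ≤
      (2 * t + 3 * ε₁) * (|s| + S)

/-- the weights of the small squares -/
def ENER : Prop := ∀ {Ω K : Set E3} {f : E3 → E3} {F : E3 → M3} {b ρ a h S r ε₁ t : ℝ} {n : ℕ}
  {w q x₀ : E3} (c : E3), Loc Ω K f F b S r ε₁ w q x₀ → Gq (ph F K b) ρ a S (2 * r) t n w q →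
  (∃ c : ℚ, h = c) → 0 < h → 1 ≤ n → a = n * h → a ≤ S → 0 ≤ t →
  Ener (fun x => f x - af c (F x₀) x) b h n w (closedBall q (S / 2))
    (10000 * b * (ε₁ * S ^ 3 / a + t * ρ ^ 2))

/-- integrals over the cube and over the Kuhn wires -/
def INTD : Prop := ∀ {Ω K : Set E3} {f : E3 → E3} {F : E3 → M3} {b ρ a S r ε₁ t : ℝ} {n : ℕ}
  {w q x₀ : E3}, Loc Ω K f F b S r ε₁ w q x₀ → Gq (ph F K b) ρ a S (2 * r) t n w q → 0 < ρ →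
  0 ≤ t → ∫⁻ x in closedBall q (S / 2), ‖F x - F x₀‖ₑ ^ (2:ℝ) ≤
    ENNReal.ofReal (2 * ε₁ * S ^ 3 + 2 * t * ρ ^ 3) ∧
  ∀ x y ζ, segment ℝ x y = (fun u => ρ⁻¹ • (u - w)) ⁻¹' kcell ζ →
    segment ℝ x y ⊆ closedBall q (S / 2) →
    ∫⁻ u in segment ℝ x y, ‖F u - F x₀‖ₑ ∂(μH[1]) ≤ ENNReal.ofReal ((ε₁ + t) * ρ)

/-- the affine images of different cubes are disjoint -/
def SEP : Prop := ∀ {K : Set E3} {f : E3 → E3} {F : E3 → M3} {b s S r ε₁ : ℝ} {q q' x₀ x₀' : E3},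
  1 ≤ b → 0 < s → s ≤ S → 0 ≤ ε₁ → 100 * b * ε₁ * S ≤ s → Ud K f F r ε₁ →
  (∀ x ∈ K, ∀ y ∈ K, r ≤ dist x y → 4 * b * S ≤ dist (f x) (f y)) →
  q ∈ lat0 S → q' ∈ lat0 S → q ≠ q' → x₀ ∈ K → x₀' ∈ K → dist x₀ q ≤ S / 2 →
  dist x₀' q' ≤ S / 2 → Bil b (F x₀) → Bil b (F x₀') →
  Disjoint (closedBall q (S / 2 - s / 8)) (closedBall q' (S / 2 - s / 8)) ∧
  Disjoint (af (f x₀ - F x₀ x₀) (F x₀) '' closedBall q (S / 2 - s / 8))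
    (af (f x₀' - F x₀' x₀') (F x₀') '' closedBall q' (S / 2 - s / 8))

/-! ### the scales -/

/-- the standing hypotheses -/
structure Hyp (Ω Λ K V : Set E3) (f f' : E3 → E3) (F : E3 → M3) (b : ℝ) : Prop where
  oΩ : IsOpen Ω
  oΛ : IsOpen Λ
  hom : HomeoOn f f' Ω Λ
  meas : Measurable F
  int : ∫⁻ x in V, ‖F x‖ₑ ^ (2:ℝ) < ⊤
  cpt : IsCompact K
  oV : IsOpen V
  KV : K ⊆ V
  VΩ : V ⊆ Ω
  vol : volume V < ⊤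
  b_ge : 1 ≤ b
  bil : ∀ x ∈ K, Bil b (F x)
  ud : ∀ ε, 0 < ε → ∃ r, 0 < r ∧ Ud K f F r ε

/-- the scales: `s = N ρ`, `S`, `a = ρ / n'`, `h = a / n` -/
structure Sc (Ω Λ K V : Set E3) (f f' : E3 → E3) (F : E3 → M3) (b N τ d : ℝ) (δ : ℝ≥0∞) (C : ℝ≥0)
    (ρ S a h ε ε₁ t r ω : ℝ) (n' n : ℕ) : Prop where
  ρ_pos : 0 < ρ
  ρ_le : ρ ≤ 1
  N_ge : 1 ≤ N
  rat : ∃ c : ℚ, h = c
  h_pos : 0 < h
  n_ge : 8 ≤ n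
  n'_ge : 1 ≤ n'
  a_eq : a = n * h
  ρ_eq : ρ = n' * a
  S_ge : 10 * (N * ρ) ≤ S
  collar : ENNReal.ofReal (120 * (N * ρ) / S) * volume V ≤ δ / 2
  a_le : b * a ≤ ε
  ε_m : 800 * b ^ 3 * ε ≤ N * ρ
  ε_τ : 3000 * b ^ 2 * ε ≤ τ * ρ
  ε_ω : 100 * ε ≤ ω
  ω_d : 3 * ω ≤ d
  thick : cthickening (4 * ω) (f '' K) ⊆ Λ
  S_r : 4 * S ≤ r
  S_ω : b * S ≤ ω
  rV : cthickening (3 * r) K ⊆ V
  fwd : ∀ y ∈ Ω, f y ∈ cthickening (4 * ω) (f '' K) → ∀ x, dist x y ≤ 2 * r →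
    x ∈ Ω ∧ dist (f x) (f y) ≤ ω / 10
  inv : ∀ y ∈ cthickening (4 * ω) (f '' K), ∀ y' ∈ cthickening (4 * ω) (f '' K),
    dist y y' ≤ 10 * ε → dist (f' y) (f' y') ≤ r / 2
  far : ∀ x ∈ K, ∀ y ∈ K, 3 * r ≤ dist x y → 4 * b * S ≤ dist (f x) (f y)
  mod : ∀ x ∈ cthickening r K, ∀ y, dist y x ≤ 4 * h → dist (f y) (f x) ≤ ε
  ud : Ud K f F (3 * r) ε₁
  t_pos : 0 < t
  t_le : t ≤ 1 / 2
  ε₁_pos : 0 ≤ ε₁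
  ε₁_le : ε₁ ≤ 1
  ray₁ : (2 * t + 3 * ε₁) * (4 * b) ≤ 1
  ray₂ : (2 * t + 3 * ε₁) * S ≤ ε
  en : 10000 * b * (ε₁ * S ^ 3 / a + t * ρ ^ 2) ≤ ε ^ 2
  wire : (ε₁ + t) * ρ ≤ ε
  int : 2 * ε₁ * S ^ 3 + 2 * t * ρ ^ 3 ≤ τ * ρ ^ 3
  sep : 100 * b * ε₁ * S ≤ N * ρ
  small : 8 * (C * ENNReal.ofReal ((S / a) ^ 3 / t) *
    ∫⁻ x in cthickening (3 * r) K, ph F K b x ^ 2) ≤ δ / 2

/-- existence of the scales -/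
def SCAL : Prop := ∀ {Ω Λ K V : Set E3} {f f' : E3 → E3} {F : E3 → M3} {b : ℝ},
  Hyp Ω Λ K V f f' F b → ∀ (N τ d : ℝ) (δ : ℝ≥0∞) (C : ℝ≥0), 1 ≤ N → 0 < τ → 0 < d → 0 < δ →
  ∃ k₁ : ℕ, ∀ k, k₁ ≤ k → ∃ (S a h ε ε₁ t r ω : ℝ) (n' n : ℕ),
    Sc Ω Λ K V f f' F b N τ d δ C (2⁻¹ ^ k) S a h ε ε₁ t r ω n' n

/-- the data for a family of cubes with base points -/
noncomputable def dat (Ω Λ K : Set E3) (f f' : E3 → E3) (F : E3 → M3) (b s S a h ε r ω : ℝ)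
    (n : ℕ) (w : E3) (𝒬 : Finset E3) (x₀ : E3 → E3) : Dt :=
  ⟨Ω, Λ, K, f, f', b, ε, a, h, S / 2 - s / 4, s / 8, r, ω, n, w, 𝒬,
    fun q => f (x₀ q) - F (x₀ q) (x₀ q), fun q => F (x₀ q)⟩

/-- a family of good cubes with base points -/
def Fam (K : Set E3) (F : E3 → M3) (b ρ a S r t : ℝ) (n : ℕ) (w : E3) (𝒬 : Finset E3)
    (x₀ : E3 → E3) : Prop :=
  ∀ q ∈ 𝒬, q ∈ lat0 S ∧ x₀ q ∈ K ∧ dist (x₀ q) q ≤ S / 2 ∧ Gq (ph F K b) ρ a S (2 * r) t n w q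

/-- good cubes give admissible data -/
def INP : Prop := ∀ {Ω Λ K V : Set E3} {f f' : E3 → E3} {F : E3 → M3} {b N τ d : ℝ} {δ : ℝ≥0∞}
  {C : ℝ≥0} {ρ S a h ε ε₁ t r ω : ℝ} {n' n : ℕ} {w : E3} {𝒬 : Finset E3} {x₀ : E3 → E3},
  Hyp Ω Λ K V f f' F b → Sc Ω Λ K V f f' F b N τ d δ C ρ S a h ε ε₁ t r ω n' n →
  Acl Ω f F w → Fam K F b ρ a S r t n w 𝒬 x₀ →
  (dat Ω Λ K f f' F b (N * ρ) S a h ε r ω n w 𝒬 x₀).Ok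

/-- the small cubes inside the good cubes and the count of the other ones -/
def SMALL : Prop := ∀ {K V : Set E3} {s S : ℝ} (𝒬 𝒬' : Finset E3), IsCompact K → 0 < s →
  10 * s ≤ S → cthickening (3 * S) K ⊆ V →
  (∀ q ∈ 𝒬, q ∈ lat0 S ∧ (closedBall q (S / 2) ∩ K).Nonempty) →
  (∀ q ∈ lat0 S, (closedBall q (S / 2) ∩ K).Nonempty → q ∈ 𝒬 ∨ q ∈ 𝒬') →
  ∃ (P₁ P₂ : Finset E3) (Q : E3 → E3),
    (∀ q, q ∈ P₁ ∨ q ∈ P₂ →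
      q ∈ lat0 s ∧ closedBall q (3 * s) ⊆ V ∧ (closedBall q (s / 2) ∩ K).Nonempty) ∧
    K ⊆ cubes P₁ (s / 2) ∪ cubes P₂ (s / 2) ∧
    (∀ q ∈ P₁, Q q ∈ 𝒬 ∧ dist q (Q q) ≤ S / 2 - 3 * s) ∧
    ENNReal.ofReal (s ^ 3) * P₂.card ≤
      8 * (ENNReal.ofReal (S ^ 3) * 𝒬'.card) + ENNReal.ofReal (120 * s / S) * volume V

/-- the output for a fixed shift -/
def FIN : Prop := ∀ {Ω Λ K V : Set E3} {f f' : E3 → E3} {F : E3 → M3} {b N τ d : ℝ} {δ : ℝ≥0∞}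
  {C : ℝ≥0} {ρ S a h ε ε₁ t r ω : ℝ} {n' n : ℕ} {w : E3} {𝒬 : Finset E3} {x₀ : E3 → E3}
  {f₁ f₁' : E3 → E3} {P₁ P₂ : Finset E3} {Q : E3 → E3},
  Hyp Ω Λ K V f f' F b → Sc Ω Λ K V f f' F b N τ d δ C ρ S a h ε ε₁ t r ω n' n →
  Acl Ω f F w → volume (f '' (Ω ∩ plns w ρ)) = 0 → Fam K F b ρ a S r t n w 𝒬 x₀ →
  (dat Ω Λ K f f' F b (N * ρ) S a h ε r ω n w 𝒬 x₀).Out f₁ f₁' →
  (∀ q, q ∈ P₁ ∨ q ∈ P₂ → q ∈ lat0 (N * ρ) ∧ closedBall q (3 * (N * ρ)) ⊆ V ∧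
    (closedBall q (N * ρ / 2) ∩ K).Nonempty) →
  K ⊆ cubes P₁ (N * ρ / 2) ∪ cubes P₂ (N * ρ / 2) →
  (∀ q ∈ P₁, Q q ∈ 𝒬 ∧ dist q (Q q) ≤ S / 2 - 3 * (N * ρ)) →
  ∃ 𝓣, Pre 2 19 Ω Λ K V f F b τ ρ (N * ρ) d w P₁ P₂ (fun q => F (x₀ (Q q))) 𝓣 f₁ f₁'

end P073.P2
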